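import Vale.Agent.P110.Basic

/-! Gauss sums and arithmetic lemmas. -/

namespace Vale.Agent.P110

open Finset Complex

theorem gauss (M : ℕ) (hM : 0 < M) (a : ℤ) (ha : IsCoprime (2 * a) M) :
    ∃ ϑ : Fin M → ℝ, ∀ k : ℤ, ∑ i : Fin M, ee (ϑ i - k * (i : ℕ) / M) =
      ((√M : ℝ) : ℂ) * ee (a * k ^ 2 / M) := by
  obtain ⟨M, rfl⟩ : ∃ M', M = M' + 1 := ⟨M - 1, by omega⟩
  let ψ := ZMod.stdAddChar (N := M + 1)
  have hψ : ∀ j : ℤ, ψ (j : ZMod (M + 1)) = ee (j / (M + 1 : ℕ)) := by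
    intro j
    rw [ZMod.stdAddChar_coe]; unfold ee; congr 1; push_cast; ring
  have hprim := ZMod.isPrimitive_stdAddChar (M + 1)
  have hconj : ∀ x, (starRingEnd ℂ) (ψ x) = ψ (-x) := by
    intro x
    obtain ⟨j, rfl⟩ := ZMod.intCast_surjective x
    rw [← Int.cast_neg, hψ, hψ, conj_ee]; congr 1; push_cast; ring
  have hu : IsUnit ((2 * a : ℤ) : ZMod (M + 1)) := by
    obtain ⟨u, v, h⟩ := ha
    have := congrArg (Int.cast : ℤ → ZMod (M + 1)) h
    rw [Int.cast_add, Int.cast_mul v, Int.cast_natCast, ZMod.natCast_self, mul_zero, add_zero,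
      Int.cast_mul u, Int.cast_one] at this
    exact IsUnit.of_mul_eq_one_right _ this
  let S : ZMod (M + 1) → ℂ := fun i => ∑ x : ZMod (M + 1), ψ (a * x ^ 2 + i * x)
  have hM' : (0 : ℝ) < (M + 1 : ℕ) := by positivity
  have hS : ∀ i, ‖S i‖ = √(M + 1 : ℕ) := by
    intro i
    have h1 : S i * (starRingEnd ℂ) (S i) = (M + 1 : ℕ) := by
      simp only [S, map_sum, hconj]
      rw [sum_mul_sum, sum_comm]
      have h2 : ∀ y : ZMod (M + 1), ∑ x, ψ (a * x ^ 2 + i * x) * ψ (-(a * y ^ 2 + i * y)) =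
          ∑ h, ψ (a * h ^ 2 + i * h) * ψ (y * ((2 * a : ℤ) * h)) := by
        intro y
        rw [← Equiv.sum_comp (Equiv.addLeft y)]
        refine sum_congr rfl (fun h _ => ?_)
        rw [← AddChar.map_add_eq_mul, ← AddChar.map_add_eq_mul]
        congr 1
        simp only [Equiv.coe_addLeft]; push_cast; ring
      simp only [h2]
      rw [sum_comm]
      simp only [← mul_sum, ψ, AddChar.sum_mulShift _ hprim, hu.mul_right_eq_zero]
      simp
    rw [Complex.mul_conj, Complex.normSq_eq_norm_sq] at h1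
    have h2 : ‖S i‖ ^ 2 = (M + 1 : ℕ) := by exact_mod_cast h1
    rw [← h2, Real.sqrt_sq (norm_nonneg _)]
  choose ϑ hϑ using fun i => exists_polar (S i)
  refine ⟨ϑ, fun k => ?_⟩
  have hs0 : ((√(M + 1 : ℕ) : ℝ) : ℂ) ≠ 0 := by
    exact_mod_cast (Real.sqrt_pos.2 hM').ne'
  apply mul_left_cancel₀ hs0
  have h1 : ∀ i : ZMod (M + 1), ((√(M + 1 : ℕ) : ℝ) : ℂ) * ee (ϑ i - k * (i.val : ℕ) / (M + 1 : ℕ)) =
      ∑ x : ZMod (M + 1), ψ (a * x ^ 2) * ψ (i * (x - k)) := by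
    intro i
    have h2 : ψ (-(k * i)) = ee (-(k * (i.val : ℕ) / (M + 1 : ℕ))) := by
      have := hψ (-(k * (i.val : ℕ)))
      push_cast at this ⊢
      rw [ZMod.natCast_zmod_val] at this
      rw [this]; congr 1; ring
    rw [sub_eq_add_neg, ee_add, ← mul_assoc, ← hS i, ← hϑ i, ← h2]
    simp only [S, sum_mul]
    refine sum_congr rfl (fun x _ => ?_)
    rw [← AddChar.map_add_eq_mul, ← AddChar.map_add_eq_mul]
    congr 1; ring
  rw [mul_sum]
  refine (sum_congr rfl (fun i _ => h1 i)).trans ?_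
  change ∑ i : ZMod (M + 1), ∑ x : ZMod (M + 1), ψ (a * x ^ 2) * ψ (i * (x - k)) = _
  rw [sum_comm]
  simp only [← mul_sum, ψ, AddChar.sum_mulShift _ hprim, sub_eq_zero, ZMod.card]
  simp only [Nat.cast_ite, mul_ite, Nat.cast_zero, mul_zero, sum_ite_eq', mem_univ, if_true]
  have h3 := hψ (a * k ^ 2)
  rw [Int.cast_mul, Int.cast_pow] at h3
  simp only [ψ] at h3
  rw [h3, ← mul_assoc, ← ofReal_mul, Real.mul_self_sqrt hM'.le]
  push_cast; ring

section

variable {Λ : Type} [DecidableEq Λ]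

theorem coprime_sum (s : Finset Λ) (q d : Λ → ℤ) (hq : ∀ n n', n ≠ n' → IsCoprime (q n) (q n'))
    (hd : ∀ n ∈ s, IsCoprime (d n) (q n)) :
    IsCoprime (∑ n ∈ s, d n * ∏ n' ∈ s.erase n, q n') (∏ n ∈ s, q n) := by
  refine IsCoprime.prod_right (fun n hn => ?_)
  rw [← add_sum_erase _ _ hn]
  obtain ⟨c, hc⟩ : q n ∣ ∑ x ∈ s.erase n, d x * ∏ n' ∈ s.erase x, q n' := by
    refine dvd_sum (fun x hx => Dvd.dvd.mul_left (dvd_prod_of_mem _ ?_) _)
    exact mem_erase.2 ⟨(ne_of_mem_erase hx).symm, hn⟩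
  rw [hc]
  refine IsCoprime.add_mul_left_left ?_ _
  exact (hd n hn).mul_left (IsCoprime.prod_left (fun x hx => hq _ _ (ne_of_mem_erase hx)))

theorem crt [Fintype Λ] (q u v : Λ → ℤ) (hq : ∀ n n', n ≠ n' → IsCoprime (q n) (q n'))
    (hu : ∀ n, IsCoprime (u n) (q n)) : ∃ b : ℤ, ∀ n, q n ∣ u n * b - v n := by
  have h1 : ∀ n, IsCoprime (u n * ∏ n' ∈ univ.erase n, q n') (q n) := fun n =>
    (hu n).mul_left (IsCoprime.prod_left (fun x hx => hq _ _ (ne_of_mem_erase hx)))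
  choose s t hst using h1
  refine ⟨∑ n, s n * (∏ n' ∈ univ.erase n, q n') * v n, fun n => ?_⟩
  rw [← add_sum_erase _ _ (mem_univ n), mul_add, add_sub_right_comm]
  refine dvd_add ⟨-(t n * v n), by linear_combination v n * hst n⟩ (Dvd.dvd.mul_left ?_ _)
  refine dvd_sum (fun x hx => Dvd.dvd.mul_right (Dvd.dvd.mul_left (dvd_prod_of_mem _ ?_) _) _)
  exact mem_erase.2 ⟨(ne_of_mem_erase hx).symm, mem_univ _⟩

theorem exists_q [Fintype Λ] (Q : Λ → ℝ) (hQ : ∀ n, 0 < Q n) (ε : ℝ) (hε : 0 < ε) (W : ℕ) :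
    ∃ (r : ℕ) (q : Λ → ℕ), 0 < r ∧ (∀ n, r * Q n ≤ q n ∧ q n ≤ (1 + ε) * (r * Q n)) ∧
      (∀ n n', n ≠ n' → IsCoprime (q n : ℤ) (q n')) ∧
      ∀ n (x : ℤ), x ≠ 0 → x.natAbs ≤ W → IsCoprime x (q n) := by
  set L := Fintype.card Λ with hL
  obtain ⟨r0, hr0⟩ := exists_nat_gt (∑ n, (2 * L + 1) / (ε * Q n))
  have hr1 : ∀ n, 2 * L + 1 ≤ ε * (r0 * Q n) := by
    intro n
    have h1 := hQ n
    have := single_le_sum (f := fun n => (2 * (L : ℝ) + 1) / (ε * Q n))
      (fun n _ => by have := hQ n; positivity) (mem_univ n)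
    have h2 := this.trans hr0.le
    rw [div_le_iff₀ (by positivity)] at h2
    linarith
  have hr2 : 0 < r0 := by
    have : (0 : ℝ) < r0 := lt_of_le_of_lt (sum_nonneg (fun n _ => by have := hQ n; positivity)) hr0
    exact_mod_cast this
  let idx := Fintype.equivFin Λ
  let b : Λ → ℕ := fun n => L * ⌈r0 * Q n / L⌉₊ + idx n
  have hb1 : ∀ n, r0 * Q n ≤ b n ∧ (b n : ℝ) ≤ r0 * Q n + 2 * L := by
    intro n
    have h0 : (idx n : ℕ) < L := (idx n).2
    have h1 : (0 : ℝ) < L := by exact_mod_cast (show 0 < L by omega)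
    have h2 := Nat.le_ceil (r0 * Q n / L)
    have h3 := Nat.ceil_lt_add_one (show 0 ≤ r0 * Q n / L by have := hQ n; positivity)
    rw [div_le_iff₀ h1] at h2
    rw [div_add_one h1.ne', lt_div_iff₀ h1] at h3
    have h4 : ((idx n : ℕ) : ℝ) < L := by exact_mod_cast h0
    have h5 : (0 : ℝ) ≤ (idx n : ℕ) := by positivity
    simp only [b]; push_cast
    constructor <;> linarith
  have hb2 : ∀ n n', n ≠ n' → (b n : ℤ) - b n' ≠ 0 := by
    intro n n' h h1
    apply h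
    have h2 : b n % L = b n' % L := by congr 1; omega
    simp only [b, Nat.mul_add_mod] at h2
    rw [Nat.mod_eq_of_lt (idx n).2, Nat.mod_eq_of_lt (idx n').2] at h2
    exact idx.injective (Fin.ext h2)
  let D := (W + ∑ n, b n).factorial
  have hD : 0 < D := Nat.factorial_pos _
  have hcop : ∀ n (x : ℤ), x ≠ 0 → x.natAbs ≤ W + ∑ n, b n →
      IsCoprime x ((1 + D * b n : ℕ) : ℤ) := by
    intro n x hx h
    obtain ⟨c, hc⟩ : x ∣ (D : ℤ) := by
      rw [← Int.natAbs_dvd, Int.natCast_dvd_natCast]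
      exact Nat.dvd_factorial (Int.natAbs_pos.2 hx) h
    refine ⟨-(c * b n), 1, ?_⟩
    push_cast; rw [hc]; ring
  refine ⟨D * r0, fun n => 1 + D * b n, by positivity, fun n => ?_, fun n n' h => ?_,
    fun n x hx h => hcop n x hx (by omega)⟩
  · have h1 : (1 : ℝ) ≤ D := by exact_mod_cast hD
    have h2 := hb1 n
    have h3 := hr1 n
    push_cast
    constructor <;> nlinarith
  · have h1 := single_le_sum (f := b) (fun _ _ => Nat.zero_le _) (mem_univ n)
    have h2 := single_le_sum (f := b) (fun _ _ => Nat.zero_le _) (mem_univ n')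
    have h3 := hcop n' _ (hb2 n n' h) (by omega)
    have h4 : IsCoprime (D : ℤ) ((1 + D * b n' : ℕ) : ℤ) := ⟨-b n', 1, by push_cast; ring⟩
    have h5 := (h4.mul_left h3).add_mul_left_left 1
    have h6 : ((1 + D * b n : ℕ) : ℤ) =
        D * ((b n : ℤ) - b n') + ((1 + D * b n' : ℕ) : ℤ) * 1 := by push_cast; ring
    rw [h6]
    exact h5

end

theorem exists_label {T Y : Type} [Fintype T] [DecidableEq Y] (f : T → Y) (q : ℕ)
    (h : ∀ y, #{t | f t = y} ≤ q) :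
    ∃ lab : T → ℕ, (∀ t, lab t < q) ∧ ∀ t t', f t = f t' → lab t = lab t' → t = t' := by
  have h1 : ∀ y, Nonempty ({t // f t = y} ↪ Fin q) := by
    intro y
    apply Function.Embedding.nonempty_of_card_le
    rw [Fintype.card_fin, Fintype.card_subtype]
    exact h y
  let e := fun y => Classical.choice (h1 y)
  refine ⟨fun t => e (f t) ⟨t, rfl⟩, fun t => (e (f t) ⟨t, rfl⟩).2, fun t t' h2 h3 => ?_⟩
  have h4 : ∀ y (h5 : f t' = y), e y ⟨t', h5⟩ = e (f t') ⟨t', rfl⟩ := by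
    intro y h5; subst h5; rfl
  have h5 := (e (f t)).injective ((Fin.ext h3).trans (h4 _ h2.symm).symm)
  exact congrArg Subtype.val h5

theorem mod_fibre (R m s : ℕ) (hm : 0 < m) : #{j : Fin R | m * (j : ℕ) % R = s} ≤ m := by
  conv_rhs => rw [← card_range m]
  refine card_le_card_of_injOn (fun j => m * (j : ℕ) / R) ?_ ?_
  · intro j _
    simp only [coe_range, Set.mem_Iio]
    exact Nat.div_lt_of_lt_mul (by rw [mul_comm R]; exact Nat.mul_lt_mul_of_pos_left j.2 hm)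
  · intro j h1 j' h2 h3
    simp only [coe_filter, mem_univ, true_and, Set.mem_setOf_eq] at h1 h2 h3
    have h4 := Nat.div_add_mod (m * j) R
    have h5 := Nat.div_add_mod (m * j') R
    rw [h1, h3] at h4
    rw [h2, h4] at h5
    exact Fin.ext (Nat.eq_of_mul_eq_mul_left hm h5)

end Vale.Agent.P110
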