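import Vale.Agent.P110.Core

/-! The combinatorial configuration: slots, time windows and phases. -/

namespace Vale.Agent.P110

open Finset Complex

theorem core_config (ε : ℝ) (hε : 0 < ε) :
    ∃ (Nc : ℕ) (T ι : Type) (_ : Fintype T) (_ : DecidableEq T) (_ : Fintype ι) (X len : ι → ℕ)
      (win : ι → T) (ϑ : ι → ℝ), 0 < Nc ∧ 2 ∣ Nc ∧ 0 < Fintype.card T ∧ PTile Nc X len ∧
      (1 - ε) * Nc ≤ 2 * ∑ S, (len S : ℝ) ∧ ∀ t (k : ℤ) (y : ℝ),
        |∑ S with win S = t, 2 * (√(len S * Fintype.card T / Nc) *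
          (ee (ϑ S - k * X S / Nc + len S * y)).re)| ≤ 1 + ε := by
  classical
  obtain ⟨S, w, ph, h1, h2, h3, h4, h5⟩ := exists_func (ε / 2) (by positivity)
  have hm : ∀ n : S, ((n.1.1.toNat : ℕ) : ℤ) = n.1.1 := fun n =>
    Int.toNat_of_nonneg (h1 _ n.2).le
  have hs : 2 * ∑ n : S, w n = 1 := by rw [sum_coe_sort S w]; exact h4
  set e := ε / (4 * (#S + 1)) with he
  have he0 : 0 < e := by positivity
  obtain ⟨Nc, T, _, Mn, X, u0, u1, β0, β1, ϑ, hN, hN2, hT, hX, hw, hϑ, hXz⟩ :=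
    core_pack (Λ := S) (fun n => n.1.1.toNat) (fun n => n.1.2)
      (fun n => by have := h1 _ n.2; omega)
      (fun n n' h => by rw [hm, hm]; exact h2 _ n.2 _ n'.2 (fun h' => h (Subtype.ext h')))
      (fun n => w n) (fun n => h3 _ n.2) hs e he0
  have hN' : (0 : ℝ) < Nc := by exact_mod_cast hN
  have hw1 : ∀ n : S, w n ≤ 1 := by
    intro n
    have := single_le_sum (f := fun n : S => w n) (fun n _ => (h3 _ n.2).le) (mem_univ n)
    have := h3 _ n.2
    linarith
  have he1 : 2 * (#S * e) + 2 * e = ε / 2 := by rw [he]; field_simp; ring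
  refine ⟨Nc, T, T × (Σ n, Fin (Mn n)), inferInstance, inferInstance, inferInstance, X, _,
    Prod.fst, fun s => ph s.2.1 + ϑ s.2.1 s.2.2, hN, hN2, hT, hX, ?_, ?_⟩
  · rw [Fintype.sum_prod_type]
    simp only [Fintype.sum_sigma, sum_const, card_univ, Fintype.card_fin, nsmul_eq_mul]
    have h6 : ∀ n : S, (1 - ε) * Nc * w n ≤ Fintype.card T * (Mn n * (n.1.1.toNat : ℝ)) := by
      intro n
      have h7 := (hw n).2
      have h8 := h3 _ n.2
      have h9 : (Fintype.card T : ℝ) * (Mn n * (n.1.1.toNat : ℝ)) =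
          Nc * ((n.1.1.toNat : ℝ) * Fintype.card T / Nc * Mn n) := by field_simp
      rw [h9, mul_comm (1 - ε), mul_assoc]
      refine mul_le_mul_of_nonneg_left ?_ hN'.le
      have h10 : 0 ≤ (n.1.1.toNat : ℝ) * Fintype.card T / Nc * Mn n := by positivity
      generalize (n.1.1.toNat : ℝ) * Fintype.card T / Nc * Mn n = x at h7 h10 ⊢
      have h11 : (0 : ℝ) ≤ #S * e := by positivity
      by_cases h12 : 0 ≤ 1 - 2 * e
      · have h13 := mul_le_mul_of_nonneg_left h7 h12
        have h14 : (1 - 2 * e) * (1 + e) ^ 2 ≤ 1 := by nlinarith [mul_pos he0 he0]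
        nlinarith [mul_le_mul_of_nonneg_right h14 h10]
      · nlinarith
    have h7 := sum_le_sum (fun n (_ : n ∈ univ) => h6 n)
    rw [← mul_sum, ← mul_sum] at h7
    calc (1 - ε) * Nc = 2 * ((1 - ε) * Nc * ∑ n : S, w n) := by
          linear_combination -((1 - ε) * Nc) * hs
      _ ≤ _ := by linarith
  · intro t k y
    rw [sum_filter, Fintype.sum_prod_type, sum_comm]
    simp only [sum_ite_eq', mem_univ, if_true, Fintype.sum_sigma]
    have h6 : ∀ n : S, ∑ i : Fin (Mn n), 2 * (√((n.1.1.toNat : ℝ) * Fintype.card T / Nc) *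
        (ee (ph n + ϑ n i - k * X (t, ⟨n, i⟩) / Nc + (n.1.1.toNat : ℝ) * y)).re) =
        2 * (√((n.1.1.toNat : ℝ) * Fintype.card T / Nc * Mn n) *
          (ee (ph n + (n.1.1 * (u0 * k ^ 2 - k * β0 t + y) +
            n.1.2 * (u1 * k ^ 2 - k * β1 t)))).re) := by
      intro n
      have hm' : ((n.1.1.toNat : ℕ) : ℝ) = n.1.1 := by exact_mod_cast hm n
      rw [line_sum (Mn n) _ _ (ph n - k * (n.1.1 * β0 t + n.1.2 * β1 t) + n.1.1 * y) _ _
        (by positivity) (hϑ n k)]
      · congr 4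
        rw [hm']; ring
      · intro i
        obtain ⟨z, hz⟩ := hXz (t, ⟨n, i⟩)
        refine ee_congr (-(k * z)) ?_
        rw [mul_div_assoc, hz, hm']
        push_cast; ring
    simp only [h6]
    have h7 := h5 (u0 * k ^ 2 - k * β0 t + y) (u1 * k ^ 2 - k * β1 t)
    rw [← sum_coe_sort S] at h7
    have h8 : ∀ (f g : S → ℝ), (∀ n, |f n - g n| ≤ 2 * e) → |∑ n, g n| ≤ 1 + ε / 2 →
        |∑ n, f n| ≤ 1 + ε := by
      intro f g h9 h10
      have h11 : |∑ n, f n - ∑ n, g n| ≤ #S * (2 * e) := by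
        rw [← sum_sub_distrib]
        refine (abs_sum_le_sum_abs _ _).trans ((sum_le_sum (fun n _ => h9 n)).trans ?_)
        rw [sum_const, card_univ, Fintype.card_coe, nsmul_eq_mul]
      have := abs_sub_abs_le_abs_sub (∑ n, f n) (∑ n, g n)
      linarith
    refine h8 _ _ (fun n => ?_) h7
    rw [← mul_sub, ← sub_mul, abs_mul, abs_mul, abs_two]
    refine mul_le_mul_of_nonneg_left ?_ (by norm_num)
    refine (mul_le_of_le_one_right (abs_nonneg _)
      ((abs_re_le_norm _).trans (norm_ee _).le)).trans ?_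
    exact sqrt_close _ _ _ (h3 _ n.2) (hw1 n) he0 (hw n).1 (hw n).2

theorem config (ε : ℝ) (hε : 0 < ε) :
    ∃ (Nc : ℕ) (ι W : Type) (_ : Fintype ι) (_ : Fintype W) (_ : DecidableEq W) (X len : ι → ℕ)
      (win : ι → W) (pos wid amp : W → ℝ) (ϑ : ι → ℝ), 0 < Nc ∧ Tiling Nc X len ∧
      (∀ w, 0 < wid w ∧ -1 / 2 ≤ pos w ∧ pos w + wid w ≤ 1 / 2) ∧
      (∀ x, ∑ w with pos w ≤ x ∧ x < pos w + wid w, amp w ≤ 1 + ε) ∧
      ∀ w (k : ℤ) (y : ℝ), |∑ S with win S = w, 2 * (√(len S / (Nc * wid w)) *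
          (ee (ϑ S - k * X S / Nc + len S * y)).re)| ≤ amp w := by
  classical
  set e := min (ε / 2) (ε ^ 2 / 16) with he
  have he0 : 0 < e := by positivity
  have he1 : e ≤ ε / 2 := min_le_left _ _
  have he2 : e ≤ ε ^ 2 / 16 := min_le_right _ _
  obtain ⟨Nc, T, ι, _, _, _, X, len, win, ϑ, hN, hN2, hT, hX, hc, hb⟩ := core_config e he0
  obtain ⟨Fr, _, Xf, hF⟩ := hX.fill hN2
  have hN' : (0 : ℝ) < Nc := by exact_mod_cast hN
  have hcount := hF.count
  simp only [Fintype.sum_sum_type, Sum.elim_inl, Sum.elim_inr, sum_const, card_univ,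
    smul_eq_mul, mul_one] at hcount
  have hcount' : 2 * (∑ S, (len S : ℝ) + Fintype.card Fr) = Nc := by exact_mod_cast hcount
  have hwin : ∀ (A : Type) [Fintype A] (a : A), 0 < 1 / (Fintype.card A : ℝ) ∧
      -1 / 2 ≤ -1 / 2 + ((Fintype.equivFin A a : ℕ) : ℝ) / Fintype.card A ∧
      -1 / 2 + ((Fintype.equivFin A a : ℕ) : ℝ) / Fintype.card A + 1 / Fintype.card A ≤ 1 / 2 := by
    intro A _ a
    have h1 := (Fintype.equivFin A a).2
    have h0 : (0 : ℝ) < Fintype.card A := by exact_mod_cast lt_of_le_of_lt (Nat.zero_le _) h1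
    refine ⟨by positivity, le_add_of_nonneg_right (by positivity), ?_⟩
    have h2 : ((Fintype.equivFin A a : ℕ) : ℝ) + 1 ≤ Fintype.card A := by exact_mod_cast h1
    rw [add_assoc, ← add_div]
    have := (div_le_one h0).2 h2
    linarith
  refine ⟨Nc, ι ⊕ Fr, T ⊕ Fr, inferInstance, inferInstance, inferInstance, _, _,
    Sum.map win id,
    Sum.elim (fun t => -1 / 2 + ((Fintype.equivFin T t : ℕ) : ℝ) / Fintype.card T)
      (fun t => -1 / 2 + ((Fintype.equivFin Fr t : ℕ) : ℝ) / Fintype.card Fr),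
    Sum.elim (fun _ => 1 / Fintype.card T) (fun _ => 1 / Fintype.card Fr),
    Sum.elim (fun _ => 1 + e) (fun _ => ε / 2), Sum.elim ϑ 0, hN, hF, ?_, ?_, ?_⟩
  · rintro (t | f)
    · exact hwin T t
    · exact hwin Fr f
  · intro x
    rw [sum_filter, Fintype.sum_sum_type]
    refine (add_le_add (window_sum x (1 + e) (by positivity) _ (fun _ h => h))
      (window_sum x (ε / 2) (by positivity) _ (fun _ h => h))).trans ?_
    linarith
  · rintro (t | f) k y
    · rw [sum_filter, Fintype.sum_sum_type]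
      simp only [Sum.elim_inl, Sum.elim_inr, Sum.map_inl, Sum.map_inr, Sum.inl.injEq,
        reduceCtorEq, if_false, sum_const_zero, add_zero, ← sum_filter]
      have := hb t k y
      simpa only [mul_one_div, div_div_eq_mul_div] using this
    · rw [sum_filter, Fintype.sum_sum_type]
      simp only [Sum.elim_inl, Sum.elim_inr, Sum.map_inl, Sum.map_inr, Sum.inr.injEq,
        reduceCtorEq, if_false, sum_const_zero, zero_add, id, sum_ite_eq', mem_univ, if_true]
      rw [abs_mul, abs_mul, abs_two, abs_of_nonneg (Real.sqrt_nonneg _)]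
      have h1 : √(((1 : ℕ) : ℝ) / (Nc * (1 / Fintype.card Fr))) ≤ ε / 4 := by
        apply Real.sqrt_le_iff.2 ⟨by positivity, ?_⟩
        rw [mul_one_div, div_div_eq_mul_div, div_le_iff₀ hN']
        push_cast
        nlinarith
      have h2 := mul_le_of_le_one_right (Real.sqrt_nonneg (((1 : ℕ) : ℝ) /
        (Nc * (1 / Fintype.card Fr)))) ((abs_re_le_norm _).trans
          (norm_ee ((0 : Fr → ℝ) f - k * Xf f / Nc + (1 : ℕ) * y)).le)
      linarith

end Vale.Agent.P110
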