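import Mathlib

/-! The additive character `e(x) = exp(2 pi i x)` and its basic properties. -/

namespace Vale.Agent.P110

open Finset Complex

/-- `e(x) = exp(2 pi i x)`. -/
noncomputable def ee (x : ℝ) : ℂ := Complex.exp (((2 * Real.pi * x : ℝ) : ℂ) * I)

theorem ee_add (x y : ℝ) : ee (x + y) = ee x * ee y := by
  unfold ee; rw [← Complex.exp_add]; congr 1; push_cast; ring

@[simp] theorem ee_zero : ee 0 = 1 := by simp [ee]

@[simp] theorem norm_ee (x : ℝ) : ‖ee x‖ = 1 := by
  unfold ee; exact Complex.norm_exp_ofReal_mul_I _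

theorem ee_ne_zero (x : ℝ) : ee x ≠ 0 := Complex.exp_ne_zero _

theorem ee_int (n : ℤ) : ee n = 1 := by
  unfold ee
  have := Complex.exp_int_mul_two_pi_mul_I n
  rw [← this]; congr 1; push_cast; ring

theorem ee_add_int (x : ℝ) (n : ℤ) : ee (x + n) = ee x := by rw [ee_add, ee_int, mul_one]

theorem ee_congr {x y : ℝ} (n : ℤ) (h : x = y + n) : ee x = ee y := by rw [h, ee_add_int]

theorem conj_ee (x : ℝ) : (starRingEnd ℂ) (ee x) = ee (-x) := by
  unfold ee; rw [← Complex.exp_conj]; congr 1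
  simp only [map_mul, conj_ofReal, conj_I]; push_cast; ring

theorem ee_mul_neg (x : ℝ) : ee x * ee (-x) = 1 := by rw [← ee_add]; simp

theorem ee_sub (x y : ℝ) : ee (x - y) = ee x * (starRingEnd ℂ) (ee y) := by
  rw [conj_ee, ← ee_add]; ring_nf

theorem ee_pow (x : ℝ) (n : ℕ) : ee x ^ n = ee (n * x) := by
  unfold ee; rw [← Complex.exp_nat_mul]; congr 1; push_cast; ring

@[fun_prop] theorem continuous_ee : Continuous ee := by unfold ee; fun_prop

theorem hasDerivAt_ee {f : ℝ → ℝ} {f' x : ℝ} (h : HasDerivAt f f' x) :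
    HasDerivAt (fun y => ee (f y)) (((2 * Real.pi * f' : ℝ) : ℂ) * I * ee (f x)) x := by
  unfold ee
  have h1 : HasDerivAt (fun y => ((2 * Real.pi * f y : ℝ) : ℂ) * I)
      (((2 * Real.pi * f' : ℝ) : ℂ) * I) x :=
    ((h.const_mul (2 * Real.pi)).ofReal_comp).mul_const I
  exact h1.cexp.congr_deriv (mul_comm _ _)

theorem norm_ee_sub_one (x : ℝ) : ‖ee x - 1‖ ≤ 2 * Real.pi * |x| := by
  unfold ee
  rw [mul_comm _ I]
  refine (Real.norm_exp_I_mul_ofReal_sub_one_le).trans (le_of_eq ?_)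
  rw [Real.norm_eq_abs, abs_mul, abs_of_pos (by positivity : (0 : ℝ) < 2 * Real.pi)]

theorem norm_ee_sub (x y : ℝ) : ‖ee x - ee y‖ ≤ 2 * Real.pi * |x - y| := by
  have : ee x - ee y = ee y * (ee (x - y) - 1) := by
    rw [mul_sub, ← ee_add]; simp
  rw [this, norm_mul, norm_ee, one_mul]
  exact norm_ee_sub_one _

/-- Lower bound for `|e(u) - 1|` on `|u| ≤ 1/2`. -/
theorem le_norm_ee_sub_one (u : ℝ) (hu : |u| ≤ 1 / 2) : 4 * |u| ≤ ‖ee u - 1‖ := by
  unfold ee
  rw [mul_comm _ I, Complex.norm_exp_I_mul_ofReal_sub_one, Real.norm_eq_abs, abs_mul]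
  have h1 : 2 * Real.pi * u / 2 = Real.pi * u := by ring
  rw [h1]
  have h2 : |Real.sin (Real.pi * u)| = Real.sin (Real.pi * |u|) ∨
      |Real.sin (Real.pi * u)| = - Real.sin (Real.pi * |u|) := by
    rcases abs_choice u with h | h
    · rw [h]; exact abs_choice _
    · rw [h, mul_neg, Real.sin_neg, neg_neg]; exact (abs_choice _).symm
  have h3 := Real.mul_le_sin (x := Real.pi * |u|) (by positivity)
    (by nlinarith [Real.pi_pos])
  have h4 : 2 / Real.pi * (Real.pi * |u|) = 2 * |u| := by field_simp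
  rw [h4] at h3
  have h5 := abs_nonneg u
  have h6 := abs_nonneg (Real.sin (Real.pi * u))
  rw [abs_two]
  rcases h2 with h | h <;> linarith

theorem exists_ee (z : ℂ) (hz : ‖z‖ = 1) : ∃ x : ℝ, ee x = z := by
  refine ⟨z.arg / (2 * Real.pi), ?_⟩
  unfold ee
  have h := Complex.norm_mul_exp_arg_mul_I z
  rw [hz] at h
  have : 2 * Real.pi * (z.arg / (2 * Real.pi)) = z.arg := by field_simp
  rw [this]; simpa using h

theorem exists_polar (z : ℂ) : ∃ x : ℝ, z = (‖z‖ : ℂ) * ee x := by
  refine ⟨z.arg / (2 * Real.pi), ?_⟩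
  unfold ee
  have h := Complex.norm_mul_exp_arg_mul_I z
  have : 2 * Real.pi * (z.arg / (2 * Real.pi)) = z.arg := by field_simp
  rw [this, h]

/-- Orthogonality of the characters of the cyclic group of order `M`. -/
theorem sum_ee (M : ℕ) (hM : 0 < M) (h : ℤ) :
    ∑ j ∈ range M, ee (h * j / M) = if (M : ℤ) ∣ h then (M : ℂ) else 0 := by
  have hM' : (M : ℝ) ≠ 0 := by positivity
  split_ifs with hd
  · obtain ⟨c, rfl⟩ := hd
    rw [sum_congr rfl (g := fun _ => (1 : ℂ))]
    · simp
    · intro j _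
      rw [← ee_int (c * j)]; congr 1; push_cast; field_simp
  · have h1 : ∀ j : ℕ, ee (h * j / M) = ee (h / M) ^ j := by
      intro j; rw [ee_pow]; congr 1; ring
    simp only [h1]
    have h2 : ee (h / M) ≠ 1 := by
      intro h3
      unfold ee at h3
      rw [Complex.exp_eq_one_iff] at h3
      obtain ⟨n, hn⟩ := h3
      apply hd
      have h4 : (2 * Real.pi * (h / M) : ℝ) = n * (2 * Real.pi) := by
        have := congrArg Complex.im hn
        simpa using this
      have h5 : (h : ℝ) = M * n := by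
        have := Real.pi_pos
        field_simp at h4
        linarith
      exact ⟨n, by exact_mod_cast h5⟩
    rw [geom_sum_eq h2, ee_pow]
    have : ee (M * (h / M)) = 1 := by
      rw [← ee_int h]; congr 1; field_simp
    rw [this]; simp

end Vale.Agent.P110
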