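import Vale.Agent.P110.Round
import Vale.Agent.P110.Basic

/-! Discrete Parseval identity, interpolation from roots of unity, and the rounding theorem. -/

namespace Vale.Agent.P110

open Finset Complex

theorem dparseval {A : Type} (M : ℕ) (hM : 0 < M) (s : Finset A) (f : A → ℤ) (c : A → ℂ)
    (hf : ∀ a ∈ s, ∀ b ∈ s, (M : ℤ) ∣ f a - f b → a = b) (θ : ℝ) :
    ∑ j ∈ range M, ‖∑ a ∈ s, c a * ee (f a * (θ - j / M))‖ ^ 2 = M * ∑ a ∈ s, ‖c a‖ ^ 2 := by
  classical
  have h1 : ∀ z : ℂ, ((‖z‖ ^ 2 : ℝ) : ℂ) = z * (starRingEnd ℂ) z := fun z => by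
    rw [Complex.mul_conj, Complex.normSq_eq_norm_sq]
  apply Complex.ofReal_injective
  rw [ofReal_sum, ofReal_mul, ofReal_sum]
  simp only [h1, map_sum, sum_mul_sum, map_mul, conj_ee]
  rw [sum_comm, mul_sum]
  refine sum_congr rfl (fun a ha => ?_)
  rw [sum_comm]
  have h2 : ∀ b ∈ s, ∑ j ∈ range M, c a * ee (f a * (θ - j / M)) *
      ((starRingEnd ℂ) (c b) * ee (-(f b * (θ - j / M)))) =
      if a = b then (M : ℂ) * (c a * (starRingEnd ℂ) (c b)) else 0 := by
    intro b hb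
    have h3 : ∀ j : ℕ, c a * ee (f a * (θ - j / M)) *
        ((starRingEnd ℂ) (c b) * ee (-(f b * (θ - j / M)))) =
        c a * (starRingEnd ℂ) (c b) * ee ((f a - f b) * θ) * ee ((f b - f a : ℤ) * j / M) := by
      intro j
      rw [mul_mul_mul_comm, ← ee_add, mul_assoc _ (ee _), ← ee_add]
      congr 2; push_cast; ring
    simp only [h3, ← mul_sum]
    rw [sum_ee M hM]
    split_ifs with h4 h5 h5
    · subst h5; simp; ring
    · exact absurd (hf b hb a ha h4).symm h5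
    · subst h5; simp at h4
    · simp
  rw [sum_congr rfl h2, sum_ite_eq, if_pos ha]
  simp

theorem interp (N : ℕ) (hN : 0 < N) (c : ℕ → ℂ) (B : ℝ)
    (hB : ∀ j ∈ range (2 * N), ‖∑ k ∈ range N, c k * ee (k * (j / (2 * N : ℕ)))‖ ≤ B) (θ : ℝ) :
    ‖∑ k ∈ range N, c k * ee (k * θ)‖ ≤ 3 / 2 * B := by
  set M := 2 * N with hM
  have hM0 : 0 < M := by omega
  have hB0 : 0 ≤ B := (norm_nonneg _).trans (hB 0 (mem_range.2 hM0))
  have h1 : ∑ j ∈ range M, (∑ k ∈ range N, c k * ee (k * (j / M))) *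
      ((∑ α ∈ Ioo (-(N : ℤ)) N, 1 * ee (α * (θ - j / M))) *
      ∑ β ∈ range N, 1 * ee ((β : ℤ) * (θ - j / M))) =
      (M * N : ℕ) * ∑ k ∈ range N, c k * ee (k * θ) := by
    simp only [sum_mul_sum, one_mul]
    simp only [sum_mul, mul_sum]
    rw [sum_comm]
    refine sum_congr rfl (fun k hk => ?_)
    rw [sum_comm]
    have h2 : ∀ α ∈ Ioo (-(N : ℤ)) N, ∑ j ∈ range M, ∑ β ∈ range N, c k * ee (k * (j / M)) *
        (ee (α * (θ - j / M)) * ee ((β : ℤ) * (θ - j / M))) =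
        ∑ β ∈ range N, if (k : ℤ) - β = α then M * (c k * ee (k * θ)) else 0 := by
      intro α hα
      rw [sum_comm]
      refine sum_congr rfl (fun β hβ => ?_)
      have h3 : ∀ j : ℕ, c k * ee (k * (j / M)) *
          (ee (α * (θ - j / M)) * ee ((β : ℤ) * (θ - j / M))) =
          c k * ee ((α + β) * θ) * ee ((k - β - α : ℤ) * j / M) := by
        intro j
        rw [← ee_add, mul_assoc, mul_assoc, ← ee_add, ← ee_add]
        congr 2; push_cast; ring
      simp only [h3, ← mul_sum]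
      rw [sum_ee M hM0]
      rw [mem_Ioo] at hα
      rw [mem_range] at hβ hk
      split_ifs with h4 h5 h5
      · rw [← h5]; push_cast; rw [sub_add_cancel]; ring
      · exfalso
        have := Int.eq_zero_of_abs_lt_dvd h4 (by rw [abs_lt]; constructor <;> omega)
        omega
      · exfalso; apply h4; rw [h5]; simp
      · simp
    rw [sum_congr rfl h2, sum_comm]
    rw [sum_congr rfl (g := fun _ => M * (c k * ee (k * θ)))]
    · rw [sum_const, card_range, nsmul_eq_mul]; push_cast; ring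
    · intro β hβ
      rw [sum_ite_eq, if_pos]
      rw [mem_range] at hβ hk
      rw [mem_Ioo]; omega
  have h2 := dparseval M hM0 (Ioo (-(N : ℤ)) N) id (fun _ => 1) (by
    intro a ha b hb h
    rw [mem_Ioo] at ha hb
    have := Int.eq_zero_of_abs_lt_dvd h (by rw [abs_lt]; simp only [id]; constructor <;> omega)
    simp only [id] at this
    omega) θ
  have h3 := dparseval M hM0 (range N) (fun β => (β : ℤ)) (fun _ => 1) (by
    intro a ha b hb h
    rw [mem_range] at ha hb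
    have := Int.eq_zero_of_abs_lt_dvd h (by rw [abs_lt]; constructor <;> omega)
    omega) θ
  simp only [norm_one, one_pow, sum_const, nsmul_eq_mul, mul_one, card_range, id] at h2 h3
  have h4 : (#(Ioo (-(N : ℤ)) N) : ℝ) ≤ 2 * N := by
    rw [Int.card_Ioo]
    exact_mod_cast (show ((N : ℤ) - -(N : ℤ) - 1).toNat ≤ 2 * N by omega)
  have h5 := congrArg norm h1
  rw [norm_mul, norm_natCast] at h5
  have hMN : (0 : ℝ) < (M * N : ℕ) := by positivity
  refine le_of_mul_le_mul_left ?_ hMN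
  rw [← h5]
  refine (norm_sum_le _ _).trans ((sum_le_sum (g := fun j : ℕ => B / 2 *
    (‖∑ α ∈ Ioo (-(N : ℤ)) N, 1 * ee (α * (θ - j / M))‖ ^ 2 +
      ‖∑ β ∈ range N, 1 * ee ((β : ℤ) * (θ - j / M))‖ ^ 2)) (fun j hj => ?_)).trans ?_)
  · rw [norm_mul, norm_mul]
    refine (mul_le_mul_of_nonneg_right (hB j hj) (by positivity)).trans ?_
    have := mul_le_mul_of_nonneg_left (two_mul_le_add_sq
      ‖∑ α ∈ Ioo (-(N : ℤ)) N, 1 * ee (α * (θ - j / M))‖
      ‖∑ β ∈ range N, 1 * ee ((β : ℤ) * (θ - j / M))‖) (show 0 ≤ B / 2 by positivity)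
    linarith
  · rw [← mul_sum, sum_add_distrib, h2, h3]
    push_cast
    have : (0 : ℝ) ≤ B / 2 * M := by positivity
    nlinarith [mul_le_mul_of_nonneg_left h4 this]

/-- Rounding a nearly flat polynomial with coefficients in `[-1, 1]` to a Littlewood polynomial. -/
theorem flat_of_real (c : ℝ) (hc : 0 < c) : ∃ ε : ℝ, 0 < ε ∧ ε ≤ 1 ∧ ∀ (N : ℕ) (a : ℕ → ℝ), 0 < N →
    (∀ k, |a k| ≤ 1) →
    (∀ θ : ℝ, |‖∑ k ∈ range N, (a k : ℂ) * ee (k * θ)‖ - √N| ≤ ε * √N) →
    ∃ s : ℕ → ℝ, (∀ k ∈ range N, s k = 1 ∨ s k = -1) ∧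
      ∀ θ : ℝ, |‖∑ k ∈ range N, (s k : ℂ) * ee (k * θ)‖ - √N| ≤ c * √N := by
  set ε := min 1 (min (c / 2) ((c / 30) ^ 6 / (3136 * 60 ^ 6 * 32))) with hε
  have hε0 : 0 < ε := by positivity
  have hε1 : ε ≤ 1 := min_le_left _ _
  have hε2 : ε ≤ c / 2 := (min_le_right _ _).trans (min_le_left _ _)
  have hε3 : ε ≤ (c / 30) ^ 6 / (3136 * 60 ^ 6 * 32) := (min_le_right _ _).trans (min_le_right _ _)
  refine ⟨ε, hε0, hε1, fun N a hN ha hA => ?_⟩
  have hN' : (0 : ℝ) < N := by exact_mod_cast hN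
  have hs : 0 < √N := Real.sqrt_pos.2 hN'
  have hV : ∑ k ∈ range N, (1 - a k ^ 2) ≤ 2 * ε * N := by
    have h1 := dparseval N hN (range N) (fun β => (β : ℤ)) (fun k => (a k : ℂ)) (by
      intro a ha b hb h
      rw [mem_range] at ha hb
      have := Int.eq_zero_of_abs_lt_dvd h (by rw [abs_lt]; constructor <;> omega)
      omega) 0
    simp only [norm_real, Real.norm_eq_abs, sq_abs, Int.cast_natCast] at h1
    have h2 : ∑ j ∈ range N, ((1 - ε) * √N) ^ 2 ≤
        ∑ j ∈ range N, ‖∑ k ∈ range N, (a k : ℂ) * ee (k * (0 - j / N))‖ ^ 2 := by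
      refine sum_le_sum (fun j _ => pow_le_pow_left₀ (mul_nonneg (by linarith) hs.le) ?_ 2)
      linarith [(abs_le.1 (hA (0 - j / N))).1]
    rw [h1, sum_const, card_range, nsmul_eq_mul, mul_pow, Real.sq_sqrt hN'.le] at h2
    have h3 := le_of_mul_le_mul_left h2 hN'
    rw [sum_sub_distrib, sum_const, card_range, nsmul_eq_mul]
    nlinarith [mul_pos hN' (mul_pos hε0 hε0)]
  obtain ⟨s, h1, h2⟩ := round_real (J := Fin (2 * N) × Bool)
    (fun j (k : ℕ) => if j.2 then (ee (k * ((j.1 : ℕ) / (2 * N : ℕ)))).re else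
      (ee (k * ((j.1 : ℕ) / (2 * N : ℕ)))).im)
    (fun j k => by
      split_ifs
      · exact (abs_re_le_norm _).trans (norm_ee _).le
      · exact (abs_im_le_norm _).trans (norm_ee _).le)
    (range N) (by simp; omega) (2 * ε * N) (c / 30 * √N) (by positivity) (by positivity) (by
      rw [le_div_iff₀ (by positivity)] at hε3
      rw [mul_pow, show √N ^ 6 = (√N ^ 2) ^ 3 by ring, Real.sq_sqrt hN'.le]
      simp only [Fintype.card_prod, Fintype.card_fin, Fintype.card_bool]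
      push_cast
      nlinarith [mul_le_mul_of_nonneg_right hε3 (show (0 : ℝ) ≤ N ^ 3 by positivity)])
    a (fun k _ => ha k) hV
  refine ⟨s, h1, fun θ => ?_⟩
  have h3 := interp N hN (fun k => ((s k - a k : ℝ) : ℂ)) (10 * (c / 30 * √N)) (fun j hj => by
    refine (norm_le_abs_re_add_abs_im _).trans ?_
    have h4 := h2 (⟨j, mem_range.1 hj⟩, true)
    have h5 := h2 (⟨j, mem_range.1 hj⟩, false)
    simp only [if_true, Bool.false_eq_true, if_false] at h4 h5
    simp only [re_sum, im_sum, re_ofReal_mul, im_ofReal_mul]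
    linarith) θ
  have h4 : ∑ k ∈ range N, ((s k - a k : ℝ) : ℂ) * ee (k * θ) =
      ∑ k ∈ range N, (s k : ℂ) * ee (k * θ) - ∑ k ∈ range N, (a k : ℂ) * ee (k * θ) := by
    rw [← sum_sub_distrib]
    exact sum_congr rfl (fun k _ => by push_cast; ring)
  rw [h4] at h3
  have h5 := abs_norm_sub_norm_le (∑ k ∈ range N, (s k : ℂ) * ee (k * θ))
    (∑ k ∈ range N, (a k : ℂ) * ee (k * θ))
  have h6 := hA θ
  have h7 := mul_le_mul_of_nonneg_right hε2 hs.le
  rw [abs_le] at h5 h6 ⊢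
  constructor <;> linarith [h5.1, h5.2, h6.1, h6.2]

end Vale.Agent.P110
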