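import Vale.Agent.P110.Osc1

/-! Approximation of a locally pure frequency by a trapezoid mean of its Fourier series. -/

namespace Vale.Agent.P110

open Complex Finset MeasureTheory

theorem int_ee (k : ℤ) : ∫ u in (-1 / 2 : ℝ)..(1 / 2), ee (k * u) = if k = 0 then 1 else 0 := by
  split_ifs with h
  · subst h; simp; norm_num
  · have hk : ((2 * Real.pi * k : ℝ) : ℂ) * I ≠ 0 :=
      mul_ne_zero (by exact_mod_cast mul_ne_zero (by positivity) (by exact_mod_cast h)) I_ne_zero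
    rw [intervalIntegral.integral_eq_sub_of_hasDerivAt
      (f := fun u => (((2 * Real.pi * k : ℝ) : ℂ) * I)⁻¹ * ee (k * u)) (fun u _ => ?_)
      (Continuous.intervalIntegrable (by fun_prop) _ _)]
    · rw [ee_congr (x := k * (1 / 2)) (y := k * (-1 / 2)) k (by ring), sub_self]
    · refine ((hasDerivAt_ee ((hasDerivAt_id u).const_mul (k : ℝ))).const_mul _).congr_deriv ?_
      rw [mul_one, ← mul_assoc, inv_mul_cancel₀ hk, one_mul, id]

theorem int_normsq (P : ℕ) (c : ℤ) :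
    ∫ u in (-1 / 2 : ℝ)..(1 / 2), ‖∑ α ∈ range P, ee (-((α - c : ℤ) * u))‖ ^ 2 = P := by
  have h1 : ∀ z : ℂ, ((‖z‖ ^ 2 : ℝ) : ℂ) = z * (starRingEnd ℂ) z := fun z => by
    rw [Complex.mul_conj, Complex.normSq_eq_norm_sq]
  apply Complex.ofReal_injective
  rw [← intervalIntegral.integral_ofReal]
  simp only [h1, map_sum, sum_mul_sum, conj_ee, ← ee_add]
  rw [intervalIntegral.integral_finsetSum (fun _ _ => Continuous.intervalIntegrable (by fun_prop) _ _)]
  rw [sum_congr rfl (g := fun _ => 1)]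
  · simp
  · intro α hα
    rw [intervalIntegral.integral_finsetSum
      (fun _ _ => Continuous.intervalIntegrable (by fun_prop) _ _)]
    rw [sum_congr rfl (g := fun β => if α = β then 1 else 0), sum_ite_eq, if_pos hα]
    intro β _
    have := int_ee (β - α)
    simp only [sub_eq_zero, Nat.cast_inj, eq_comm (a := β)] at this
    rw [← this]
    congr 1; ext u; congr 1; push_cast; ring

theorem dirichlet_le (n : ℕ) (u : ℝ) (hu : |u| ≤ 1 / 2) :
    ‖∑ β ∈ range n, ee (-(β * u))‖ * |u| ≤ 1 / 2 := by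
  have h1 : ∀ β : ℕ, ee (-(β * u)) = ee (-u) ^ β := fun β => by rw [ee_pow]; congr 1; ring
  simp only [h1]
  have h2 := congrArg norm (geom_sum_mul (ee (-u)) n)
  rw [norm_mul] at h2
  have h3 := le_norm_ee_sub_one (-u) (by rwa [abs_neg])
  rw [abs_neg] at h3
  have h4 := norm_sub_le (ee (-u) ^ n) 1
  rw [norm_pow, norm_ee, one_pow, norm_one] at h4
  nlinarith [mul_le_mul_of_nonneg_left h3 (norm_nonneg (∑ i ∈ range n, ee (-u) ^ i))]

theorem err_point (e1 e2 D u μ : ℝ) (hμ : 0 < μ) (hD0 : 0 ≤ D) (hD : D * |u| ≤ 1 / 2)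
    (h0 : 0 ≤ e1) (h1 : e1 ≤ 2) (h2 : e1 ≤ u ^ 2 / μ ^ 2) (h0' : 0 ≤ e2) (h3 : e2 ≤ Real.pi * |u|) :
    ((e1 + e2) * D) ^ 2 ≤ 4 / (u ^ 2 + μ ^ 2) + 5 := by
  have h4 : e2 * D ≤ 1.575 := by
    have := mul_le_mul_of_nonneg_right h3 hD0
    nlinarith [Real.pi_lt_d2, Real.pi_pos, mul_nonneg hD0 (abs_nonneg u)]
  have h5 : (e1 * D) ^ 2 ≤ 2 / (u ^ 2 + μ ^ 2) := by
    rw [le_div_iff₀ (by positivity)]
    have h6 : D ^ 2 * u ^ 2 ≤ 1 / 4 := by
      rw [← sq_abs u, ← mul_pow]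
      nlinarith [mul_nonneg hD0 (abs_nonneg u)]
    rcases le_total (μ ^ 2) (u ^ 2) with h | h
    · have h7 : e1 ^ 2 ≤ 4 := by nlinarith
      calc (e1 * D) ^ 2 * (u ^ 2 + μ ^ 2) ≤ (e1 * D) ^ 2 * (2 * u ^ 2) := by gcongr; linarith
        _ = 2 * (e1 ^ 2 * (D ^ 2 * u ^ 2)) := by ring
        _ ≤ 2 * (4 * (1 / 4)) := by gcongr
        _ = 2 := by norm_num
    · rw [le_div_iff₀ (by positivity)] at h2
      have h7 : e1 ≤ 1 := by
        by_contra h8
        push Not at h8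
        nlinarith [pow_pos hμ 2]
      calc (e1 * D) ^ 2 * (u ^ 2 + μ ^ 2) ≤ (e1 * D) ^ 2 * (2 * μ ^ 2) := by gcongr; linarith
        _ = 2 * (e1 * (D ^ 2 * (e1 * μ ^ 2))) := by ring
        _ ≤ 2 * (1 * (D ^ 2 * u ^ 2)) := by gcongr
        _ ≤ 2 := by linarith
  have h6 : 0 ≤ e2 * D := by positivity
  rw [show 4 / (u ^ 2 + μ ^ 2) = 2 * (2 / (u ^ 2 + μ ^ 2)) by ring, add_mul]
  nlinarith [sq_nonneg (e1 * D - e2 * D)]

theorem int_lorentz (μ : ℝ) (hμ : 0 < μ) :
    ∫ u in (-1 / 2 : ℝ)..(1 / 2), (4 / (u ^ 2 + μ ^ 2) + 5) ≤ 13 / μ + 5 := by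
  have h0 : ∀ u : ℝ, 0 < u ^ 2 + μ ^ 2 := fun u => by positivity
  have hlor : Continuous fun u : ℝ => 4 / (u ^ 2 + μ ^ 2) + 5 :=
    Continuous.add (continuous_const.div (by fun_prop) (fun u => (h0 u).ne')) continuous_const
  rw [intervalIntegral.integral_eq_sub_of_hasDerivAt
    (f := fun u => 4 / μ * Real.arctan (u / μ) + 5 * u) (fun u _ => ?_)
    (hlor.intervalIntegrable _ _)]
  · have h4 := Real.arctan_lt_pi_div_two (1 / 2 / μ)
    have h5 := Real.neg_pi_div_two_lt_arctan (-1 / 2 / μ)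
    have h8 := Real.pi_lt_d2
    have h9 : 4 / μ * Real.arctan (1 / 2 / μ) - 4 / μ * Real.arctan (-1 / 2 / μ) ≤
        4 / μ * 3.15 := by
      rw [← mul_sub]
      exact mul_le_mul_of_nonneg_left (by linarith) (by positivity)
    have h11 : 4 / μ = 4 * (1 / μ) := by field_simp
    have h12 : 13 / μ = 13 * (1 / μ) := by field_simp
    have h13 : 0 < 1 / μ := by positivity
    rw [h11] at h9 ⊢
    rw [h12]
    linarith
  · refine (((((hasDerivAt_id u).div_const μ).arctan).const_mul (4 / μ)).add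
      ((hasDerivAt_id u).const_mul 5)).congr_deriv ?_
    have := h0 u
    simp only [id]
    field_simp
    ring

theorem kernel (a n : ℕ) (ha : 1 ≤ a) (hn : 0 < n) (g : ℝ → ℂ) (hc : Continuous g)
    (hp : Function.Periodic g 1) (hg : ∀ θ, ‖g θ‖ = 1) (μ : ℝ) (hμ : 0 < μ)
    (hl : ∀ θ, ∃ σ : ℝ, |σ| ≤ (a - 1) * n - 1 ∧
      ∀ u, ‖g (θ + u) - g θ * ee (σ * u)‖ ≤ u ^ 2 / μ ^ 2) (t : ℝ) (ht : 0 < t) :
    ∃ w : ℕ → ℝ, (∀ j, 0 ≤ w j ∧ w j ≤ 1) ∧ ∀ θ : ℝ,
      ‖∑ j ∈ range (2 * a * n), (w j : ℂ) * ((∫ x in (0 : ℝ)..1, g x * ee (-((j - a * n : ℤ) * x))) *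
        ee ((j - a * n : ℤ) * θ)) - g θ‖ ≤ t * a + (13 / μ + 5) / (2 * t * n) := by
  obtain ⟨a, rfl⟩ : ∃ a', a = a' + 1 := ⟨a - 1, by omega⟩
  set P := (2 * a + 1) * n + 1 with hP
  have hn' : (0 : ℝ) < n := by exact_mod_cast hn
  have hn'' : (n : ℂ) ≠ 0 := by exact_mod_cast hn.ne'
  refine ⟨fun j => #{x ∈ range P ×ˢ range n | x.1 + x.2 = j} / n, fun j => ⟨by positivity, ?_⟩,
    fun θ => ?_⟩
  · rw [div_le_one hn', Nat.cast_le]
    conv_rhs => rw [← card_range n]
    refine card_le_card_of_injOn Prod.snd (fun x hx => ?_) (fun x hx y hy h => ?_)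
    · simp only [coe_filter, mem_product, Set.mem_setOf_eq] at hx
      exact hx.1.2
    · simp only [coe_filter, mem_product, Set.mem_setOf_eq] at hx hy
      exact Prod.ext (by omega) h
  set c : ℤ := ((a + 1 : ℕ) : ℤ) * n with hcdef
  have h1 : ∀ T : ℕ → ℂ, ∑ j ∈ range (2 * (a + 1) * n),
      ((#{x ∈ range P ×ˢ range n | x.1 + x.2 = j} / n : ℝ) : ℂ) * T j =
      (n : ℂ)⁻¹ * ∑ α ∈ range P, ∑ β ∈ range n, T (α + β) := by
    intro T
    rw [← sum_product' (f := fun α β => T (α + β)), ← sum_fiberwise_of_maps_to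
      (g := fun x : ℕ × ℕ => x.1 + x.2) (t := range (2 * (a + 1) * n)), mul_sum]
    · refine sum_congr rfl (fun j _ => ?_)
      rw [sum_congr rfl (g := fun _ => T j) (fun x hx => by rw [(mem_filter.1 hx).2]), sum_const,
        nsmul_eq_mul]
      push_cast; ring
    · intro x hx
      simp only [mem_product, mem_range] at hx ⊢
      nlinarith [hx.1, hx.2]
  rw [h1]
  have h2 : ∀ k : ℤ, (∫ x in (0 : ℝ)..1, g x * ee (-(k * x))) * ee (k * θ) =
      ∫ u in (-1 / 2 : ℝ)..(1 / 2), g (θ + u) * ee (-(k * u)) := by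
    intro k
    have h3 : Function.Periodic (fun x => g x * ee (-(k * x))) 1 := fun x => by
      simp only [hp x]
      rw [ee_congr (x := -(k * (x + 1))) (y := -(k * x)) (-k) (by push_cast; ring)]
    have h4 := h3.intervalIntegral_add_eq 0 (θ + -1 / 2)
    rw [zero_add, show θ + -1 / 2 + 1 = θ + 1 / 2 by ring,
      ← intervalIntegral.integral_comp_add_left (fun x => g x * ee (-(k * x)))] at h4
    rw [h4, ← intervalIntegral.integral_mul_const]
    congr 1; ext u
    rw [mul_assoc, ← ee_add]; congr 2; ring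
  simp only [h2]
  have h3 : ∀ F : ℝ → ℂ, Continuous F → ∑ α ∈ range P, ∑ β ∈ range n,
      ∫ u in (-1 / 2 : ℝ)..(1 / 2), F u * ee (-((((α + β : ℕ) : ℤ) - c : ℤ) * u)) =
      ∫ u in (-1 / 2 : ℝ)..(1 / 2), F u * ((∑ α ∈ range P, ee (-((α - c : ℤ) * u))) *
        ∑ β ∈ range n, ee (-(β * u))) := by
    intro F hF
    simp only [sum_mul_sum]
    simp only [mul_sum]
    rw [intervalIntegral.integral_finsetSum
      (fun _ _ => Continuous.intervalIntegrable (by fun_prop) _ _)]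
    refine sum_congr rfl (fun α _ => ?_)
    rw [intervalIntegral.integral_finsetSum
      (fun _ _ => Continuous.intervalIntegrable (by fun_prop) _ _)]
    refine sum_congr rfl (fun β _ => ?_)
    congr 1; ext u
    rw [← ee_add]; congr 2; push_cast; ring
  obtain ⟨σ, hσ, hσ2⟩ := hl θ
  have hs := abs_sub_round σ
  have h4 : (n : ℂ)⁻¹ * ∑ α ∈ range P, ∑ β ∈ range n, ∫ u in (-1 / 2 : ℝ)..(1 / 2),
      g θ * ee (round σ * u) * ee (-((((α + β : ℕ) : ℤ) - c : ℤ) * u)) = g θ := by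
    rw [sum_comm, sum_congr rfl (g := fun _ => g θ), sum_const, card_range, nsmul_eq_mul,
      ← mul_assoc, inv_mul_cancel₀ hn'', one_mul]
    intro β hβ
    rw [mem_range] at hβ
    have h5 : |round σ| < (a : ℤ) * n := by
      have h6 := abs_sub_abs_le_abs_sub (round σ : ℝ) σ
      rw [abs_sub_comm] at h6
      push_cast at hσ
      have : |(round σ : ℝ)| < a * n := by linarith
      exact_mod_cast this
    rw [abs_lt] at h5
    obtain ⟨α0, hα0⟩ : ∃ α0 : ℕ, (α0 : ℤ) = round σ + c - β :=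
      ⟨(round σ + c - β).toNat, Int.toNat_of_nonneg (by rw [hcdef]; push_cast; nlinarith)⟩
    rw [sum_congr rfl (g := fun α => if α0 = α then g θ else 0), sum_ite_eq, if_pos]
    · rw [mem_range, ← Nat.cast_lt (α := ℤ), hα0, hP, hcdef]; push_cast; nlinarith
    · intro α _
      have h6 := int_ee (α0 - α)
      simp only [sub_eq_zero, Nat.cast_inj] at h6
      simp only [mul_assoc]
      rw [intervalIntegral.integral_const_mul, ← mul_boole, ← h6, hα0]
      congr 2; ext u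
      rw [← ee_add]; congr 1; push_cast; ring
  have hc1 : Continuous fun u => g (θ + u) := by fun_prop
  have hc2 : Continuous fun u => g θ * ee (round σ * u) := by fun_prop
  conv_lhs => rw [← h4]
  rw [h3 _ hc1, h3 _ hc2, ← mul_sub, ← intervalIntegral.integral_sub
    (Continuous.intervalIntegrable (by fun_prop) _ _)
    (Continuous.intervalIntegrable (by fun_prop) _ _), norm_mul, norm_inv, norm_natCast]
  have hlor : Continuous fun u : ℝ => 4 / (u ^ 2 + μ ^ 2) + 5 :=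
    Continuous.add (continuous_const.div (by fun_prop) (fun u => by positivity)) continuous_const
  have h5 := intervalIntegral.norm_integral_le_of_norm_le (a := (-1 / 2 : ℝ)) (b := 1 / 2)
    (μ := volume) (f := fun u => g (θ + u) * ((∑ α ∈ range P, ee (-((α - c : ℤ) * u))) *
        ∑ β ∈ range n, ee (-(β * u))) - g θ * ee (round σ * u) *
        ((∑ α ∈ range P, ee (-((α - c : ℤ) * u))) * ∑ β ∈ range n, ee (-(β * u))))
    (g := fun u => t / 2 * ‖∑ α ∈ range P, ee (-((α - c : ℤ) * u))‖ ^ 2 +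
      1 / (2 * t) * (4 / (u ^ 2 + μ ^ 2) + 5)) (by norm_num)
    (Filter.Eventually.of_forall (fun u hu => by
      have hu' : |u| ≤ 1 / 2 := abs_le.2 ⟨by linarith [hu.1], hu.2⟩
      have h6 : ‖g (θ + u) - g θ * ee (σ * u)‖ ≤ 2 := by
        refine (norm_sub_le _ _).trans ?_
        rw [norm_mul, hg, hg, norm_ee]; norm_num
      have h7 : ‖g θ * ee (σ * u) - g θ * ee (round σ * u)‖ ≤ Real.pi * |u| := by
        rw [← mul_sub, norm_mul, hg, one_mul]
        refine (norm_ee_sub _ _).trans ?_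
        rw [← sub_mul, abs_mul]
        nlinarith [mul_le_mul_of_nonneg_right hs (mul_nonneg Real.pi_pos.le (abs_nonneg u))]
      have h8 := err_point _ _ _ u μ hμ (norm_nonneg _) (dirichlet_le n u hu') (norm_nonneg _) h6
        (hσ2 u) (norm_nonneg _) h7
      have h9 := norm_sub_le_norm_sub_add_norm_sub (g (θ + u)) (g θ * ee (σ * u))
        (g θ * ee (round σ * u))
      rw [← sub_mul, norm_mul, norm_mul]
      refine (mul_le_mul_of_nonneg_right h9 (by positivity)).trans ?_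
      generalize ‖g (θ + u) - g θ * ee (σ * u)‖ + ‖g θ * ee (σ * u) - g θ * ee (round σ * u)‖ = E
        at h8 ⊢
      generalize ‖∑ α ∈ range P, ee (-((α - c : ℤ) * u))‖ = DA
      generalize ‖∑ β ∈ range n, ee (-(β * u))‖ = DB at h8 ⊢
      refine le_trans ?_ (add_le_add_right (mul_le_mul_of_nonneg_left h8 (by positivity)) _)
      have : t / 2 * DA ^ 2 + 1 / (2 * t) * (E * DB) ^ 2 - E * (DA * DB) =
          1 / (2 * t) * (t * DA - E * DB) ^ 2 := by field_simp; ring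
      have h10 : 0 ≤ 1 / (2 * t) * (t * DA - E * DB) ^ 2 := by positivity
      linarith))
    (Continuous.intervalIntegrable (by fun_prop) _ _)
  rw [intervalIntegral.integral_add (Continuous.intervalIntegrable (by fun_prop) _ _)
    (Continuous.intervalIntegrable (by fun_prop) _ _), intervalIntegral.integral_const_mul,
    intervalIntegral.integral_const_mul, int_normsq] at h5
  have h6 := mul_le_mul_of_nonneg_left (int_lorentz μ hμ) (show 0 ≤ 1 / (2 * t) by positivity)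
  rw [inv_mul_le_iff₀ hn']
  refine h5.trans ?_
  have h7 : (P : ℝ) ≤ 2 * (a + 1) * n := by
    have : (1 : ℝ) ≤ n := by exact_mod_cast hn
    rw [hP]; push_cast; linarith
  have h8 : n * (t * ((a + 1 : ℕ) : ℝ) + (13 / μ + 5) / (2 * t * n)) =
      t / 2 * (2 * (a + 1) * n) + 1 / (2 * t) * (13 / μ + 5) := by push_cast; field_simp
  rw [h8]
  exact add_le_add (mul_le_mul_of_nonneg_left h7 (by positivity)) h6

end Vale.Agent.P110
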