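import Vale.Agent.P110.Glue
import Vale.Agent.P110.Kernel
import Vale.Agent.P110.Config
import Vale.Agent.P110.Interp

/-! Assembly of the construction. -/

namespace Vale.Agent.P110

open Complex Finset MeasureTheory

theorem main_term (I J : ℂ) (τ D m α θ0 ξ Φ k x d η E : ℝ) (hτ : 0 < τ) (hD : 0 < D) (hm : 0 < m)
    (hl : m * τ ≤ 1) (hη : 0 ≤ η)
    (h1 : ‖J - ((m * τ : ℝ) : ℂ) * ee (θ0 - ξ - k * (x + d)) * I‖ ≤ E)
    (h2 : ‖I - ((α / √(τ * D * m) : ℝ) : ℂ) * ee (ξ + τ * D * m * Φ)‖ ≤ η) :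
    |J.re - α * (√(m * τ / D) * (ee (θ0 - k * x + (τ * D * m * Φ - k * d))).re)| ≤ E + η := by
  have h3 : √(m * τ / D) = m * τ / √(τ * D * m) := by
    rw [eq_div_iff (Real.sqrt_pos.2 (by positivity)).ne', ← Real.sqrt_mul (by positivity),
      show m * τ / D * (τ * D * m) = (m * τ) ^ 2 by field_simp, Real.sqrt_sq (by positivity)]
  have h4 : ((α * √(m * τ / D) : ℝ) : ℂ) * ee (θ0 - k * x + (τ * D * m * Φ - k * d)) =
      ((m * τ : ℝ) : ℂ) * ee (θ0 - ξ - k * (x + d)) *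
        (((α / √(τ * D * m) : ℝ) : ℂ) * ee (ξ + τ * D * m * Φ)) := by
    rw [mul_mul_mul_comm, ← ee_add, h3, ← ofReal_mul]
    congr 2 <;> ring
  rw [← mul_assoc, ← re_ofReal_mul, ← sub_re, h4]
  refine (abs_re_le_norm _).trans ((norm_sub_le_norm_sub_add_norm_sub _ _ _).trans
    (add_le_add h1 ?_))
  rw [← mul_sub, norm_mul, norm_mul, norm_ee, mul_one, norm_real, Real.norm_eq_abs,
    abs_of_pos (by positivity)]
  exact (mul_le_mul hl h2 (norm_nonneg _) zero_le_one).trans (by rw [one_mul])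

theorem window_total {ι W : Type} [Fintype ι] [Fintype W] [DecidableEq W] (win : ι → W)
    (f : ι → ℝ) (α amp : W → ℝ) (P : W → Prop) [DecidablePred P] (c C : ℝ) (hc : 0 ≤ c)
    (hα : ∀ w, 0 ≤ α w ∧ α w ≤ c ∧ (α w ≠ 0 → P w)) (hP : ∑ w with P w, amp w ≤ C)
    (hf : ∀ w, |∑ S with win S = w, f S| ≤ amp w) : |∑ S, α (win S) * f S| ≤ c * C := by
  rw [← sum_fiberwise univ win]
  refine (abs_sum_le_sum_abs _ _).trans (le_trans ?_ (mul_le_mul_of_nonneg_left hP hc))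
  rw [sum_filter P, mul_sum]
  refine sum_le_sum (fun w _ => ?_)
  rw [sum_congr rfl (g := fun S => α w * f S) (fun S hS => by rw [(mem_filter.1 hS).2]), ← mul_sum,
    abs_mul, abs_of_nonneg (hα w).1]
  split_ifs with h
  · exact mul_le_mul (hα w).2.1 (hf w) (abs_nonneg _) hc
  · have : α w = 0 := by by_contra h'; exact h ((hα w).2.2 h')
    rw [this]; simp

set_option maxHeartbeats 2000000 in
theorem exists_chirp (e : ℝ) (he : 0 < e) (he1 : e ≤ 1) :
    ∃ (A : ℕ) (C n0 : ℝ), 1 ≤ A ∧ 0 ≤ C ∧ ∀ n : ℕ, n0 ≤ n → ∃ g : ℝ → ℂ, Continuous g ∧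
      Function.Periodic g 1 ∧ (∀ θ, ‖g θ‖ = 1) ∧
      (∀ θ, ∃ s : ℝ, |s| ≤ (A - 1) * n - 1 ∧
        ∀ u, ‖g (θ + u) - g θ * ee (s * u)‖ ≤ C * n * u ^ 2) ∧
      ∀ k : ℤ, ∃ r : ℝ, ∫ x in (0 : ℝ)..1, g x * ee (-(k * x)) = r ∧
        |r| * √(2 * A * n : ℕ) ≤ 1 + 9 * e := by
  obtain ⟨Nc, ι, W, _, _, _, X, len, win, pos, wid, amp, ϑ, hN, hT, hw, hamp, hsum⟩ := config e he
  have hN' : (0 : ℝ) < Nc := by exact_mod_cast hN
  obtain ⟨A, hA⟩ := exists_nat_ge (3 + 3 / e)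
  have hA6 : (6 : ℝ) ≤ A := by
    have : 3 ≤ 3 / e := by rw [le_div_iff₀ he]; linarith
    linarith
  have hA3 : (A : ℝ) ≤ (1 + e) * (A - 3) := by
    have : 3 / e ≤ A - 3 := by linarith
    rw [div_le_iff₀ he] at this
    linarith
  have hlen1 : ∀ S, (1 : ℝ) ≤ len S := fun S => by exact_mod_cast hT.pos S
  have hlen2 : ∀ S, (len S : ℝ) ≤ Nc := fun S => by
    exact_mod_cast (Nat.le_add_left _ _).trans (hT.le S)
  have hw1 : ∀ w, wid w ≤ 1 := fun w => by linarith [(hw w).2.1, (hw w).2.2]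
  -- the length of the connectors
  obtain ⟨δ, hδ0, hδ1, hδ2⟩ : ∃ δ : ℝ, 0 < δ ∧ δ ≤ 1 / 4 ∧
      Fintype.card ι * (32 * √(A * δ)) ≤ e := by
    refine ⟨min (1 / 4) ((e / (32 * (Fintype.card ι + 1))) ^ 2 / A), by positivity,
      min_le_left _ _, ?_⟩
    have h1 : √(A * min (1 / 4) ((e / (32 * (Fintype.card ι + 1))) ^ 2 / A)) ≤
        e / (32 * (Fintype.card ι + 1)) := by
      refine Real.sqrt_le_iff.2 ⟨by positivity, ?_⟩
      rw [mul_comm, ← le_div_iff₀ (by positivity)]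
      exact min_le_right _ _
    rw [le_div_iff₀ (by positivity)] at h1
    nlinarith [Real.sqrt_nonneg (A * min (1 / 4) ((e / (32 * (Fintype.card ι + 1))) ^ 2 / A))]
  -- the accuracy of the stationary phase
  obtain ⟨η, hη0, hη1, hη2⟩ : ∃ η : ℝ, 0 < η ∧ η ≤ e ∧
      ∑ S, 2 * (η * √(8 * Nc / wid (win S))) ≤ e := by
    have h1 : 0 ≤ ∑ S, √(8 * Nc / wid (win S)) := by positivity
    refine ⟨e / (1 + 2 * ∑ S, √(8 * Nc / wid (win S))), by positivity,
      div_le_self he.le (by linarith), ?_⟩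
    rw [← mul_sum, ← mul_sum, ← mul_assoc, mul_comm 2, mul_assoc, div_mul_eq_mul_div,
      div_le_iff₀ (by positivity)]
    nlinarith
  obtain ⟨Ω, ω, B, ξ, l0, h0, hω, hB, hl0, hsp⟩ := profile_exists η Nc hη0 (by exact_mod_cast hN)
  have hB0 : 0 ≤ B := by
    have := (abs_nonneg _).trans (hB 1 (by simp) 0 (by simp))
    simpa using this
  set τ := (1 - 2 * δ) / Nc with hτ
  have hτ0 : 0 < τ := div_pos (by linarith) hN'
  have hτ1 : 1 / (2 * Nc) ≤ τ := by
    rw [hτ, div_le_div_iff₀ (by positivity) hN']; nlinarith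
  have hτ2 : ∀ S, len S * τ ≤ 1 := fun S => by
    rw [hτ, mul_div_assoc', div_le_one hN']; nlinarith [hlen1 S, hlen2 S]
  have hd0 : ∀ S, 0 < len S * (δ / Nc) := fun S => by have := hlen1 S; positivity
  have hd1 : ∀ S, len S * (δ / Nc) ≤ δ := fun S => by
    rw [mul_div_assoc', div_le_iff₀ hN']; nlinarith [hlen2 S]
  set C1 := ∑ S, 3 * (2 * A / (len S * (δ / Nc)) + 6 / (len S * (δ / Nc)) ^ 2 +
    2 * A * B / (len S * τ)) with hC1
  have hC10 : 0 ≤ C1 := by positivity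
  refine ⟨A, 7 * (Fintype.card ι * (2 * C1)), 2 + ∑ S, 12 / (len S * (δ / Nc)) +
    ∑ w, 8 * Nc * l0 / wid w, by exact_mod_cast (show (1 : ℝ) ≤ A by linarith), by positivity,
    fun n hn => ?_⟩
  have hs1 : 0 ≤ ∑ S, 12 / (len S * (δ / Nc)) := by positivity
  have hs2 : 0 ≤ ∑ w, 8 * Nc * l0 / wid w := sum_nonneg (fun w _ => by
    have := (hw w).1; positivity)
  have hn1 : (2 : ℝ) ≤ n := by linarith
  have hn2 : ∀ S, 2 + 12 / (len S * (δ / Nc)) ≤ n := fun S => by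
    have := single_le_sum (f := fun S => 12 / (len S * (δ / Nc))) (fun _ _ => by positivity)
      (mem_univ S)
    linarith
  have hn3 : ∀ w, 8 * Nc * l0 / wid w ≤ n := fun w => by
    have := single_le_sum (f := fun w => 8 * Nc * l0 / wid w) (fun w _ => by
      have := (hw w).1; positivity) (mem_univ w)
    linarith
  set K : ℝ := 2 * (A - 3) * n with hK
  have hK0 : 0 < K := mul_pos (by linarith) (by linarith)
  have hD0 : ∀ w, 0 < K * wid w / (1 + η) := fun w => by have := (hw w).1; positivity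
  have hσ : ((((A : ℤ) - 2) * n : ℤ) : ℝ) = (A - 2) * n := by push_cast; rfl
  choose b b1 b2 b3 b4 b5 using fun S => slot_exists h0 hB hB0 (X S / Nc) (len S * (δ / Nc))
    (len S * τ) ((A - 2) * n) (K * pos (win S)) (K * wid (win S) / (1 + η)) n (ϑ S - ξ) (hd0 S)
    (by have := hlen1 S; positivity) (hD0 _) (by linarith [hn2 S]) (fun v hv => by
      have h1 := hω v hv
      have h2 := hw (win S)
      have h3 : K * wid (win S) / (1 + η) * ω v ≤ K * wid (win S) := by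
        rw [div_mul_eq_mul_div, div_le_iff₀ (by positivity)]
        exact mul_le_mul_of_nonneg_left h1.2 (mul_pos hK0 h2.1).le
      have h4 : 0 ≤ K * wid (win S) / (1 + η) * ω v := mul_nonneg (hD0 _).le h1.1
      have h5 := mul_le_mul_of_nonneg_left h2.2.1 hK0.le
      have h6 := mul_le_mul_of_nonneg_left h2.2.2 hK0.le
      rw [abs_le]
      constructor <;> linarith)
  have hend : ∀ S, (X S / Nc : ℝ) + len S * (δ / Nc) + len S * τ + len S * (δ / Nc) =
      (X S + len S) / Nc := fun S => by rw [hτ]; field_simp; ring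
  simp only [hend] at b2 b4 b5
  obtain ⟨g, g1, g2, g3, g4, g5⟩ := glue hT hN (((A : ℤ) - 2) * n) b (C1 * n) ((A - 1) * n - 1)
    (by positivity) (fun S x y => (b1 S x y).trans (mul_le_mul_of_nonneg_right (by
      have h1 := single_le_sum (f := fun S => 3 * (2 * A / (len S * (δ / Nc)) +
        6 / (len S * (δ / Nc)) ^ 2 + 2 * A * B / (len S * τ))) (fun _ _ => by positivity)
        (mem_univ S)
      refine le_trans ?_ (mul_le_mul_of_nonneg_right h1 (by positivity))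
      have h2 := hd0 S
      have h3 := hlen1 S
      rw [mul_assoc 3 _ (n : ℝ), add_mul, add_mul, div_mul_eq_mul_div (2 * (A : ℝ)),
        div_mul_eq_mul_div (2 * A * B)]
      have h4 : K * wid (win S) / (1 + η) ≤ 2 * A * n := by
        refine (div_le_self (mul_pos hK0 (hw _).1).le (by linarith)).trans ?_
        refine (mul_le_of_le_one_right hK0.le (hw1 _)).trans ?_
        rw [hK]; nlinarith
      refine mul_le_mul_of_nonneg_left (add_le_add (add_le_add ?_ ?_) ?_) (by norm_num)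
      · exact div_le_div_of_nonneg_right (by nlinarith) h2.le
      · exact le_mul_of_one_le_right (by positivity) (by linarith)
      · refine div_le_div_of_nonneg_right ?_ (by positivity)
        nlinarith [mul_le_mul_of_nonneg_right h4 hB0]) (abs_nonneg _))) b2
    (fun S x => by
      rw [hσ]
      refine (b3 S x).trans ?_
      have h1 := hn2 S
      have h2 : 2 / (len S * (δ / Nc)) ≤ 12 / (len S * (δ / Nc)) :=
        div_le_div_of_nonneg_right (by norm_num) (hd0 S).le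
      linarith)
    (by rw [hσ, abs_of_nonneg (by nlinarith)]; linarith) b4
  refine ⟨g, g1, g2, g3, fun θ => ?_, fun k => ⟨_, g5 k, ?_⟩⟩
  · obtain ⟨s, h1, h2⟩ := g4 θ
    exact ⟨s, h1, fun u => (h2 u).trans (le_of_eq (by ring))⟩
  rw [hσ]
  have hNN : ((2 * A * n : ℕ) : ℝ) = 2 * A * n := by push_cast; rfl
  rw [hNN]
  have hNp : (0 : ℝ) < 2 * A * n := by positivity
  have hlam : ∀ w, 2 * A * n * (wid w / (8 * Nc)) ≤ τ * (K * wid w / (1 + η)) := fun w => by
    have h1 := (hw w).1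
    have h2 : A * n * wid w / 2 ≤ K * wid w / (1 + η) := by
      refine le_trans ?_ (div_le_div_of_nonneg_left (mul_pos hK0 h1).le (by positivity)
        (show 1 + η ≤ 2 by linarith))
      refine div_le_div_of_nonneg_right (mul_le_mul_of_nonneg_right ?_ h1.le) (by norm_num)
      rw [hK]; nlinarith
    refine le_trans (le_of_eq ?_) (mul_le_mul hτ1 h2 (by positivity) hτ0.le)
    field_simp; ring
  choose α Φ hα using fun w => hsp (τ * (K * wid w / (1 + η))) (by
    refine le_trans ?_ (hlam w)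
    have h1 := hn3 w
    have h2 := (hw w).1
    rw [div_le_iff₀ h2] at h1
    rw [mul_div_assoc', le_div_iff₀ (by positivity)]
    nlinarith [mul_pos (show (0 : ℝ) < n by linarith) h2]) ((k - K * pos w) / (K * wid w / (1 + η)))
  set ρ := √((1 - 2 * δ) * (1 + η) / K) with hρ
  have hmain : ∀ S, |2 * (∫ θ in (X S / Nc : ℝ)..((X S + len S) / Nc),
      ee ((A - 2) * n * θ + (∫ x in (X S / Nc : ℝ)..θ, b S x) - k * θ)).re -
      α (win S) * ρ * (2 * (√(len S / (Nc * wid (win S))) * (ee (ϑ S - k * X S / Nc + len S *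
        (τ * (K * wid (win S) / (1 + η)) * Φ (win S) - k * (δ / Nc)))).re))| * √(2 * A * n) ≤
      32 * √(A * δ) + 2 * (η * √(8 * Nc / wid (win S))) := by
    intro S
    have hwS := (hw (win S)).1
    have h1 := b5 S k
    rw [show len S * τ * (K * wid (win S) / (1 + η)) = τ * (K * wid (win S) / (1 + η)) * len S by
      ring] at h1
    have h2 := main_term _ _ τ _ (len S) (α (win S)) (ϑ S) ξ (Φ (win S)) k _ _ _ _ hτ0 (hD0 _)
      (by linarith [hlen1 S]) (hτ2 S) (by positivity) h1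
      ((hα (win S)).2.2.2 (len S) (hlen1 S) (hlen2 S))
    have h3 : √(len S * τ / (K * wid (win S) / (1 + η))) = ρ * √(len S / (Nc * wid (win S))) := by
      rw [hρ, ← Real.sqrt_mul (div_nonneg (mul_nonneg (by linarith) (by linarith)) hK0.le), hτ]
      congr 1; field_simp
    rw [h3, show ϑ S - k * (X S / Nc) + (τ * (K * wid (win S) / (1 + η)) * len S * Φ (win S) -
      k * (len S * (δ / Nc))) = ϑ S - k * X S / Nc + len S *
        (τ * (K * wid (win S) / (1 + η)) * Φ (win S) - k * (δ / Nc)) by ring] at h2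
    have h4 : 8 / √(n / (2 * (len S * (δ / Nc)))) * √(2 * A * n) ≤ 16 * √(A * δ) := by
      have h5 := hd0 S
      rw [div_mul_eq_mul_div, mul_div_assoc, ← Real.sqrt_div hNp.le,
        show (16 : ℝ) * √(A * δ) = 8 * √(2 ^ 2 * (A * δ)) by
          rw [Real.sqrt_mul (sq_nonneg 2), Real.sqrt_sq (by norm_num)]; ring]
      refine mul_le_mul_of_nonneg_left (Real.sqrt_le_sqrt ?_) (by norm_num)
      rw [show 2 * (A : ℝ) * n / (n / (2 * (len S * (δ / Nc)))) = 4 * (A * (len S * (δ / Nc))) by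
        field_simp; ring]
      nlinarith [mul_le_mul_of_nonneg_left (hd1 S) (show (0 : ℝ) ≤ A by positivity)]
    have h5 : η / √(τ * (K * wid (win S) / (1 + η))) * √(2 * A * n) ≤
        η * √(8 * Nc / wid (win S)) := by
      rw [div_mul_eq_mul_div, mul_div_assoc, ← Real.sqrt_div hNp.le]
      refine mul_le_mul_of_nonneg_left (Real.sqrt_le_sqrt ?_) hη0.le
      refine (div_le_div_of_nonneg_left hNp.le (by positivity) (hlam _)).trans (le_of_eq ?_)
      field_simp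
    have h6 := mul_le_mul_of_nonneg_right h2 (Real.sqrt_nonneg (2 * A * n))
    rw [add_mul] at h6
    rw [mul_left_comm _ (2 : ℝ), ← mul_sub, abs_mul, abs_two, mul_assoc (α (win S)),
      ← mul_assoc ρ, mul_assoc (2 : ℝ)]
    linarith
  have hρ1 : ρ * √(2 * A * n) ≤ 1 + e := by
    rw [hρ, ← Real.sqrt_mul' _ hNp.le]
    refine Real.sqrt_le_iff.2 ⟨by positivity, ?_⟩
    rw [div_mul_eq_mul_div, div_le_iff₀ hK0, hK]
    have h1 : (1 - 2 * δ) * (1 + η) ≤ 1 + e := by nlinarith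
    have h2 := mul_le_mul_of_nonneg_left hA3 (show (0 : ℝ) ≤ 2 * n by positivity)
    calc (1 - 2 * δ) * (1 + η) * (2 * A * n) ≤ (1 + e) * (2 * n * A) := by
          rw [show 2 * (n : ℝ) * A = 2 * A * n by ring]; gcongr
      _ ≤ (1 + e) * (2 * n * ((1 + e) * (A - 3))) := by gcongr
      _ = _ := by ring
  have htot := window_total win (fun S => 2 * (√(len S / (Nc * wid (win S))) *
      (ee (ϑ S - k * X S / Nc + len S *
        (τ * (K * wid (win S) / (1 + η)) * Φ (win S) - k * (δ / Nc)))).re))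
    (fun w => α w * ρ) amp (fun w => pos w ≤ k / K ∧ k / K < pos w + wid w) ((1 + e) * ρ) (1 + e)
    (by positivity) (fun w => by
      obtain ⟨h1, h2, h3, -⟩ := hα w
      refine ⟨by positivity, mul_le_mul_of_nonneg_right (by linarith) (by positivity), fun h => ?_⟩
      obtain ⟨h4, h5⟩ := h3 (left_ne_zero_of_mul h)
      rw [div_lt_iff₀ (hD0 w), mul_div_cancel₀ _ (by positivity)] at h5
      rw [le_div_iff₀ (hD0 w), zero_mul] at h4
      rw [le_div_iff₀ hK0, div_lt_iff₀ hK0]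
      constructor <;> linarith) (hamp _) (fun w => by
      refine le_trans (le_of_eq ?_) (hsum w k (τ * (K * wid w / (1 + η)) * Φ w - k * (δ / Nc)))
      congr 1
      exact sum_congr rfl (fun S hS => by rw [(mem_filter.1 hS).2]))
  have hfin : ∀ (f f' : ι → ℝ) (q : ℝ), 0 ≤ q → (∀ S, |f S - f' S| * q ≤
      32 * √(A * δ) + 2 * (η * √(8 * Nc / wid (win S)))) →
      |∑ S, f S| * q ≤ |∑ S, f' S| * q + 2 * e := by
    intro f f' q hq h
    have h1 := sum_le_sum (fun S (_ : S ∈ univ) => h S)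
    rw [sum_add_distrib, sum_const, card_univ, nsmul_eq_mul, ← sum_mul] at h1
    have h2 := abs_sum_le_sum_abs (fun S => f S - f' S) univ
    rw [sum_sub_distrib] at h2
    have h3 := mul_le_mul_of_nonneg_right ((abs_sub_abs_le_abs_sub _ _).trans h2) hq
    linarith
  refine (hfin _ _ _ (Real.sqrt_nonneg _) hmain).trans ?_
  have h1 := mul_le_mul_of_nonneg_right htot (Real.sqrt_nonneg (2 * A * n))
  have h2 := mul_le_mul_of_nonneg_left hρ1 (show 0 ≤ (1 + e) * (1 + e) by positivity)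
  have h3 : (1 + e) * (1 + e) * (1 + e) ≤ 1 + 7 * e := by nlinarith [mul_pos he he]
  linarith

theorem exists_real0 (ε : ℝ) (hε : 0 < ε) (hε1 : ε ≤ 1) :
    ∃ A n1 : ℕ, 1 ≤ A ∧ ∀ n, n1 ≤ n → ∃ a : ℕ → ℝ, (∀ k, |a k| ≤ 1) ∧
      ∀ θ : ℝ, |‖∑ k ∈ range (2 * A * n), (a k : ℂ) * ee (k * θ)‖ - √(2 * A * n : ℕ)| ≤
        ε * √(2 * A * n : ℕ) := by
  set e := ε / 10 with he
  have he0 : 0 < e := by positivity
  obtain ⟨A, C, n0, hA, hC, h⟩ := exists_chirp e he0 (by linarith)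
  have hA' : (1 : ℝ) ≤ A := by exact_mod_cast hA
  obtain ⟨n1, hn1⟩ := exists_nat_ge (1 + |n0| + ((13 * √(C + 1) + 5) * (2 * A) / e ^ 2) ^ 2)
  refine ⟨A, n1, hA, fun n hn => ?_⟩
  have hn' : (n1 : ℝ) ≤ n := by exact_mod_cast hn
  have hq : 0 ≤ ((13 * √(C + 1) + 5) * (2 * A) / e ^ 2) ^ 2 := by positivity
  have hn2 : (1 : ℝ) ≤ n := by linarith [abs_nonneg n0]
  have hm0 : 0 < n := by exact_mod_cast (show (0 : ℝ) < n by linarith)
  obtain ⟨m, hm1, hm2, hm3⟩ : ∃ m : ℝ, 1 ≤ m ∧ (n : ℝ) = m ^ 2 ∧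
      (13 * √(C + 1) + 5) * (2 * A) / e ^ 2 ≤ m :=
    ⟨√n, Real.one_le_sqrt.2 hn2, (Real.sq_sqrt (by linarith)).symm,
      Real.le_sqrt_of_sq_le (by linarith [abs_nonneg n0])⟩
  obtain ⟨g, g1, g2, g3, g4, g5⟩ := h n (by linarith [le_abs_self n0])
  choose r hr1 hr2 using g5
  have hs : 0 < √(C + 1) := Real.sqrt_pos.2 (by linarith)
  obtain ⟨w, hw1, hw2⟩ := kernel A n hA hm0 g g1 g2 g3 (1 / (√(C + 1) * m)) (by positivity)
    (fun θ => by
      obtain ⟨s, h1, h2⟩ := g4 θ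
      refine ⟨s, h1, fun u => (h2 u).trans ?_⟩
      rw [div_pow, one_pow, div_div_eq_mul_div, div_one, mul_pow, Real.sq_sqrt (by linarith), hm2]
      nlinarith [mul_nonneg (sq_nonneg u) (sq_nonneg (m : ℝ))]) (e / (2 * A)) (by positivity)
  have herr : e / (2 * A) * A + (13 / (1 / (√(C + 1) * m)) + 5) / (2 * (e / (2 * A)) * n) ≤
      e := by
    rw [div_le_iff₀ (by positivity)] at hm3
    have h2 : (13 / (1 / (√(C + 1) * m)) + 5) / (2 * (e / (2 * A)) * n) ≤ e / 2 := by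
      rw [div_le_iff₀ (by positivity), div_div_eq_mul_div, div_one,
        show e / 2 * (2 * (e / (2 * A)) * n) = m * e ^ 2 * m / (2 * A) by
          rw [hm2]; field_simp, le_div_iff₀ (by positivity)]
      refine le_trans ?_ (mul_le_mul_of_nonneg_right hm3 (by positivity))
      nlinarith
    have h3 : e / (2 * A) * A = e / 2 := by field_simp
    linarith
  set N := 2 * A * n with hN
  have hNpos : 0 < N := by positivity
  have hsN : 0 < √N := Real.sqrt_pos.2 (by exact_mod_cast hNpos)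
  refine ⟨fun j => √N / (1 + 9 * e) * (w j * r (j - A * n)), fun j => ?_, fun θ => ?_⟩
  · rw [abs_mul, abs_mul, abs_of_nonneg (hw1 j).1, abs_of_pos (by positivity), div_mul_eq_mul_div,
      div_le_one (by positivity)]
    have h1 := hr2 (j - A * n)
    have h2 := mul_le_of_le_one_left (mul_nonneg (abs_nonneg (r (j - A * n))) hsN.le)
      (hw1 j).2
    linarith
  · have h1 := (hw2 θ).trans herr
    simp only [hr1] at h1
    have h2 : ∑ j ∈ range N, ((√N / (1 + 9 * e) * (w j * r (j - A * n)) : ℝ) : ℂ) *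
        ee (j * θ) = ((√N / (1 + 9 * e) : ℝ) : ℂ) * ee ((A * n : ℤ) * θ) *
        ∑ j ∈ range N, (w j : ℂ) * (r (j - A * n) * ee ((j - A * n : ℤ) * θ)) := by
      rw [mul_sum]
      refine sum_congr rfl (fun j _ => ?_)
      have : ee (j * θ) = ee ((A * n : ℤ) * θ) * ee ((j - A * n : ℤ) * θ) := by
        rw [← ee_add]; congr 1; push_cast; ring
      rw [this, ofReal_mul, ofReal_mul]; ring
    rw [h2, norm_mul, norm_mul, norm_ee, mul_one, norm_real, Real.norm_eq_abs (√N / _),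
      abs_of_pos (show 0 < √N / (1 + 9 * e) by positivity)]
    have h3 := (abs_norm_sub_norm_le _ _).trans h1
    rw [g3] at h3
    generalize ‖∑ j ∈ range N, (w j : ℂ) * (r (j - A * n) * ee ((j - A * n : ℤ) * θ))‖ = Z at h3 ⊢
    rw [show √N / (1 + 9 * e) * Z - √N = (Z / (1 + 9 * e) - 1) * √N by ring, abs_mul,
      abs_of_pos hsN]
    refine mul_le_mul_of_nonneg_right ?_ hsN.le
    rw [abs_le] at h3 ⊢
    rw [le_sub_iff_add_le, sub_le_iff_le_add, le_div_iff₀ (by positivity),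
      div_le_iff₀ (by positivity)]
    constructor <;> nlinarith [mul_pos he0 he0]

theorem exists_real (ε : ℝ) (hε : 0 < ε) (hε1 : ε ≤ 1) :
    ∃ N0 : ℕ, ∀ N, N0 ≤ N → 0 < N ∧ ∃ a : ℕ → ℝ, (∀ k, |a k| ≤ 1) ∧
      ∀ θ : ℝ, |‖∑ k ∈ range N, (a k : ℂ) * ee (k * θ)‖ - √N| ≤ ε * √N := by
  obtain ⟨A, n1, hA, h⟩ := exists_real0 (ε / 2) (by positivity) (by linarith)
  obtain ⟨n2, hn2⟩ := exists_nat_ge (4 * A / ε)
  refine ⟨2 * A * n1 + n2 + 1, fun N hN => ⟨by omega, ?_⟩⟩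
  have hA2 : 0 < 2 * A := by omega
  obtain ⟨a, h1, h2⟩ := h (N / (2 * A)) ((Nat.le_div_iff_mul_le hA2).2 (by rw [mul_comm]; omega))
  have h3 := Nat.div_add_mod N (2 * A)
  have h4 := Nat.mod_lt N hA2
  generalize 2 * A * (N / (2 * A)) = M at h2 h3
  refine ⟨fun k => if k < M then a k else 0, fun k => ?_, fun θ => ?_⟩
  · beta_reduce
    split_ifs
    · exact h1 k
    · simp
  · have h5 : ∑ k ∈ range N, (((if k < M then a k else 0 : ℝ)) : ℂ) * ee (k * θ) =
        ∑ k ∈ range M, (a k : ℂ) * ee (k * θ) := by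
      symm
      refine sum_subset_zero_on_sdiff (range_subset_range.2 (by omega)) (fun k hk => ?_)
        (fun k hk => by rw [if_pos (mem_range.1 hk)])
      rw [if_neg (by simpa using (mem_sdiff.1 hk).2)]; simp
    rw [h5]
    have h6 : √M ≤ √N := Real.sqrt_le_sqrt (by exact_mod_cast (by omega))
    have h7 : (1 - ε / 2) * √N ≤ √M := by
      apply Real.le_sqrt_of_sq_le
      rw [mul_pow, Real.sq_sqrt (by positivity)]
      have h8 : (N : ℝ) ≤ M + 2 * A := by exact_mod_cast (by omega)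
      have h9 : (n2 : ℝ) ≤ N := by exact_mod_cast (by omega)
      have h10 := hn2.trans h9
      rw [div_le_iff₀ hε] at h10
      have h11 : (1 - ε / 2) ^ 2 ≤ 1 - ε / 2 := by nlinarith
      nlinarith [mul_le_mul_of_nonneg_right h11 (show (0 : ℝ) ≤ N by positivity)]
    have h8 := h2 θ
    have h9 := mul_le_mul_of_nonneg_left h6 hε.le
    rw [abs_le] at h8 ⊢
    constructor <;> nlinarith [h8.1, h8.2, mul_nonneg hε.le (Real.sqrt_nonneg N)]

theorem exists_littlewood (c : ℝ) (hc : 0 < c) :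
    ∃ N0 : ℕ, ∀ N, N0 ≤ N → 0 < N ∧ ∃ s : Fin N → ℤ, (∀ k, s k = 1 ∨ s k = -1) ∧
      ∀ z : ℂ, ‖z‖ = 1 → |‖∑ k, (s k : ℂ) * z ^ (k : ℕ)‖ - √N| ≤ c * √N := by
  obtain ⟨ε, h0, h1, h⟩ := flat_of_real c hc
  obtain ⟨N0, h2⟩ := exists_real ε h0 h1
  refine ⟨N0, fun N hN => ?_⟩
  obtain ⟨h3, a, h4, h5⟩ := h2 N hN
  obtain ⟨s, h6, h7⟩ := h N a h3 h4 h5
  refine ⟨h3, fun k => if s k = 1 then 1 else -1, fun k => by beta_reduce; split_ifs <;> simp, fun z hz => ?_⟩
  obtain ⟨θ, rfl⟩ := exists_ee z hz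
  have h8 := h7 θ
  rw [← Fin.sum_univ_eq_sum_range (fun k => (s k : ℂ) * ee (k * θ))] at h8
  have h9 : ∀ k : Fin N, (((if s k = 1 then 1 else -1 : ℤ)) : ℂ) = (s k : ℝ) := by
    intro k
    rcases h6 k (mem_range.2 k.2) with h | h
    · simp [h]
    · rw [if_neg (by rw [h]; norm_num), h]; simp
  simp only [ee_pow, h9]
  exact h8

theorem exists_sequence : ∃ s : (N : ℕ) → Fin N → ℤ, (∀ N k, s N k = 1 ∨ s N k = -1) ∧
    ∀ δ : ℝ, 0 < δ → ∃ N0 : ℕ, ∀ N, N0 ≤ N → ∀ z : ℂ, ‖z‖ = 1 →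
      |‖∑ k, (s N k : ℂ) * z ^ (k : ℕ)‖ / √N - 1| ≤ δ := by
  classical
  let P : ℕ → ℕ → Prop := fun N j => ∃ s : Fin N → ℤ, (∀ k, s k = 1 ∨ s k = -1) ∧
    ∀ z : ℂ, ‖z‖ = 1 → |‖∑ k, (s k : ℂ) * z ^ (k : ℕ)‖ - √N| ≤ 1 / ((j : ℝ) + 1) * √N
  refine ⟨fun N => if h : P N (Nat.findGreatest (P N) N) then h.choose else fun _ => 1,
    fun N k => ?_, fun δ hδ => ?_⟩
  · beta_reduce
    split_ifs with h
    · exact h.choose_spec.1 k
    · simp
  · obtain ⟨j, hj⟩ := exists_nat_one_div_lt hδ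
    obtain ⟨N0, h⟩ := exists_littlewood (1 / ((j : ℝ) + 1)) (by positivity)
    refine ⟨N0 + j, fun N hN z hz => ?_⟩
    obtain ⟨h1, h2⟩ := h N (by omega)
    have h3 : P N (Nat.findGreatest (P N) N) := Nat.findGreatest_spec (m := j) (by omega) h2
    have h4 : j ≤ Nat.findGreatest (P N) N := Nat.le_findGreatest (by omega) h2
    simp only [dif_pos h3]
    have h5 := h3.choose_spec.2 z hz
    have hs : 0 < √N := Real.sqrt_pos.2 (by exact_mod_cast h1)
    rw [div_sub_one hs.ne', abs_div, abs_of_pos hs, div_le_iff₀ hs]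
    refine h5.trans (mul_le_mul_of_nonneg_right (le_trans ?_ hj.le) hs.le)
    exact one_div_le_one_div_of_le (by positivity) (by exact_mod_cast Nat.succ_le_succ h4)

end Vale.Agent.P110
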