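import Vale.Agent.P110.Basic

/-! A real trigonometric polynomial on the two-torus, bounded by one, with energy almost one and
pairwise non-collinear frequencies. -/

namespace Vale.Agent.P110

open Finset Complex

/-- The character of the two-torus with frequency `n`. -/
noncomputable def chi (y0 y1 : ℝ) (n : ℤ × ℤ) : ℂ := ee (n.1 * y0 + n.2 * y1)

theorem chi_add (y0 y1 : ℝ) (n n' : ℤ × ℤ) : chi y0 y1 (n + n') = chi y0 y1 n * chi y0 y1 n' := by
  unfold chi; rw [← ee_add]; congr 1; simp; ring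

theorem chi_neg (y0 y1 : ℝ) (n : ℤ × ℤ) : chi y0 y1 (-n) = (starRingEnd ℂ) (chi y0 y1 n) := by
  unfold chi; rw [conj_ee]; congr 1; simp; ring

theorem chi_zero (y0 y1 : ℝ) : chi y0 y1 0 = 1 := by simp [chi]

theorem norm_chi (y0 y1 : ℝ) (n : ℤ × ℤ) : ‖chi y0 y1 n‖ = 1 := norm_ee _

theorem sep_det (W w1 w2 z : ℤ) (hW : 0 ≤ W) (hw : ¬(w1 = 0 ∧ w2 = 0)) (h1 : |w1| ≤ 2 * W)
    (h2 : |w2| ≤ 2 * W) (hz : |z| ≤ 2 * W ^ 2) :
    (2 * W ^ 2 + 2 * W + 1) * w2 -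
      (2 * (2 * W ^ 2 + 2 * W + 1) * W + 2 * W ^ 2 + 1) * w1 + z ≠ 0 := by
  intro h
  rw [abs_le] at h1 h2 hz
  have ha : 0 < 2 * W ^ 2 + 2 * W + 1 := by positivity
  rcases lt_trichotomy w1 0 with h3 | h3 | h3
  · nlinarith [mul_le_mul_of_nonneg_left h2.1 ha.le,
      mul_le_mul_of_nonneg_left (show w1 ≤ -1 by omega)
        (show 0 ≤ 2 * (2 * W ^ 2 + 2 * W + 1) * W + 2 * W ^ 2 + 1 by positivity)]
  · subst h3
    rcases lt_trichotomy w2 0 with h4 | h4 | h4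
    · nlinarith [mul_le_mul_of_nonneg_left (show w2 ≤ -1 by omega) ha.le]
    · exact hw ⟨rfl, h4⟩
    · nlinarith [mul_le_mul_of_nonneg_left (show 1 ≤ w2 by omega) ha.le]
  · nlinarith [mul_le_mul_of_nonneg_left h2.2 ha.le,
      mul_le_mul_of_nonneg_left (show 1 ≤ w1 by omega)
        (show 0 ≤ 2 * (2 * W ^ 2 + 2 * W + 1) * W + 2 * W ^ 2 + 1 by positivity)]

theorem abs_det_le (W a b c d : ℤ) (ha : |a| ≤ W) (hb : |b| ≤ W) (hc : |c| ≤ W) (hd : |d| ≤ W) :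
    |a * b - c * d| ≤ 2 * W ^ 2 := by
  have h1 : |a * b| ≤ W * W := by
    rw [abs_mul]; exact mul_le_mul ha hb (abs_nonneg _) ((abs_nonneg _).trans ha)
  have h2 : |c * d| ≤ W * W := by
    rw [abs_mul]; exact mul_le_mul hc hd (abs_nonneg _) ((abs_nonneg _).trans hc)
  have := abs_sub (a * b) (c * d)
  linarith

/-- Expansion of `1 - F ^ 2`. -/
theorem exists_sq (S : Finset (ℤ × ℤ)) (c : ℤ × ℤ → ℂ) (hS : ∀ n ∈ S, 0 < n.1) :
    ∃ (T : Finset (ℤ × ℤ)) (d : ℤ × ℤ → ℂ), 0 ∈ T ∧ d 0 = 1 - 2 * ∑ n ∈ S, ((‖c n‖ ^ 2 : ℝ) : ℂ) ∧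
      ∀ y0 y1 : ℝ, ∑ s ∈ T, d s * chi y0 y1 s =
        ((1 - (∑ n ∈ S, 2 * (c n * chi y0 y1 n).re) ^ 2 : ℝ) : ℂ) := by
  classical
  let T : Finset (ℤ × ℤ) := insert 0 (((S ×ˢ S).image fun p => p.1 + p.2) ∪
    ((S ×ˢ S).image fun p => p.1 + -p.2) ∪ ((S ×ˢ S).image fun p => -p.1 + -p.2))
  let cc : ℤ × ℤ → ℂ := fun n => (starRingEnd ℂ) (c n)
  let d : ℤ × ℤ → ℂ := fun s => (if 0 = s then 1 else 0) - ∑ p ∈ S ×ˢ S,
    ((if p.1 + p.2 = s then c p.1 * c p.2 else 0) +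
      (if p.1 + -p.2 = s then 2 * c p.1 * cc p.2 else 0) +
      (if -p.1 + -p.2 = s then cc p.1 * cc p.2 else 0))
  refine ⟨T, d, mem_insert_self _ _, ?_, ?_⟩
  · simp only [d, if_true]
    congr 1
    rw [sum_product, mul_sum]
    refine sum_congr rfl (fun n hn => ?_)
    rw [sum_congr rfl (g := fun n' => if n = n' then 2 * c n * cc n' else 0)]
    · rw [sum_ite_eq, if_pos hn]
      simp only [cc]
      rw [mul_assoc, Complex.mul_conj, Complex.normSq_eq_norm_sq]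
    · intro n' hn'
      have h1 := hS n hn
      have h2 := hS n' hn'
      have h3 : ¬(n + n' = 0) := by
        intro h; have := congrArg Prod.fst h; simp at this; omega
      have h4 : ¬(-n + -n' = 0) := by
        intro h; have := congrArg Prod.fst h; simp at this; omega
      simp only [if_neg h3, if_neg h4, zero_add, add_zero]
      simp only [add_neg_eq_zero]
  · intro y0 y1
    have hG : ((∑ n ∈ S, 2 * (c n * chi y0 y1 n).re : ℝ) : ℂ) =
        ∑ n ∈ S, c n * chi y0 y1 n + ∑ n ∈ S, cc n * chi y0 y1 (-n) := by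
      rw [← sum_add_distrib, ofReal_sum]
      refine sum_congr rfl (fun n _ => ?_)
      rw [chi_neg, ← Complex.add_conj]; simp [cc]
    push_cast at hG ⊢
    rw [hG]
    simp only [d, sub_mul, sum_sub_distrib, ite_mul, one_mul, zero_mul, sum_ite_eq,
      mem_insert_self, T, if_true, chi_zero, sum_mul]
    congr 1
    rw [sum_comm]
    have hsq : (∑ n ∈ S, c n * chi y0 y1 n + ∑ n ∈ S, cc n * chi y0 y1 (-n)) ^ 2 =
        ∑ p ∈ S ×ˢ S, (c p.1 * c p.2 * chi y0 y1 (p.1 + p.2) +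
          2 * c p.1 * cc p.2 * chi y0 y1 (p.1 + -p.2) +
          cc p.1 * cc p.2 * chi y0 y1 (-p.1 + -p.2)) := by
      rw [add_sq, sq, sq, mul_assoc, sum_mul_sum, sum_mul_sum, sum_mul_sum, sum_product]
      simp only [mul_sum, ← sum_add_distrib, chi_add]
      refine sum_congr rfl (fun n _ => sum_congr rfl (fun n' _ => ?_))
      ring
    rw [hsq]
    refine sum_congr rfl (fun p hp => ?_)
    simp only [add_mul, sum_add_distrib, ite_mul, zero_mul, sum_ite_eq]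
    rw [if_pos, if_pos, if_pos]
    · exact mem_insert_of_mem (mem_union_right _ (mem_image_of_mem _ hp))
    · exact mem_insert_of_mem (mem_union_left _ (mem_union_right _ (mem_image_of_mem _ hp)))
    · exact mem_insert_of_mem (mem_union_left _ (mem_union_left _ (mem_image_of_mem _ hp)))

theorem exists_bound (U : Finset (ℤ × ℤ)) : ∃ W : ℤ, 0 ≤ W ∧ ∀ n ∈ U, |n.1| ≤ W ∧ |n.2| ≤ W := by
  refine ⟨∑ n ∈ U, (|n.1| + |n.2|), sum_nonneg (fun _ _ => by positivity), fun n hn => ?_⟩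
  have := single_le_sum (f := fun n : ℤ × ℤ => |n.1| + |n.2|) (fun _ _ => by positivity) hn
  have h1 := abs_nonneg n.1
  have h2 := abs_nonneg n.2
  constructor <;> linarith

/-- The admissible families. -/
def Adm (S : Finset (ℤ × ℤ)) (c : ℤ × ℤ → ℂ) : Prop :=
  (∀ n ∈ S, 0 < n.1) ∧ (∀ n ∈ S, ∀ n' ∈ S, n ≠ n' → n.1 * n'.2 ≠ n'.1 * n.2) ∧
    ∀ y0 y1 : ℝ, |∑ n ∈ S, 2 * (c n * chi y0 y1 n).re| ≤ 1

theorem adm_step (S : Finset (ℤ × ℤ)) (c : ℤ × ℤ → ℂ) (h : Adm S c) :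
    ∃ S' c', Adm S' c' ∧ 2 * ∑ n ∈ S, ‖c n‖ ^ 2 + (1 - 2 * ∑ n ∈ S, ‖c n‖ ^ 2) ^ 2 / 8 ≤
      2 * ∑ n ∈ S', ‖c' n‖ ^ 2 := by
  classical
  obtain ⟨h1, h2, h3⟩ := h
  obtain ⟨T, d, hT0, hd0, hd⟩ := exists_sq S c h1
  obtain ⟨W, hW, hb⟩ := exists_bound (S ∪ T)
  have hbS := fun n hn => hb n (mem_union_left _ hn)
  have hbT := fun n hn => hb n (mem_union_right _ hn)
  let v : ℤ × ℤ := (2 * W ^ 2 + 2 * W + 1, 2 * (2 * W ^ 2 + 2 * W + 1) * W + 2 * W ^ 2 + 1)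
  have hnot : ∀ s ∈ T, s + v ∉ S := by
    intro s hs h
    have h4 := (hbS _ h).1
    have h5 := (hbT _ hs).1
    rw [abs_le] at h4 h5
    simp only [Prod.fst_add, v] at h4
    nlinarith [sq_nonneg W]
  have hdisj : Disjoint S (T.image (· + v)) := by
    rw [disjoint_right]
    intro x hx
    obtain ⟨s, hs, rfl⟩ := mem_image.1 hx
    exact hnot s hs
  let c' : ℤ × ℤ → ℂ := fun n => if n ∈ S then c n else d (n - v) / 4
  have hsum : ∀ f : ℂ → ℤ × ℤ → ℝ, ∑ n ∈ S ∪ T.image (· + v), f (c' n) n =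
      ∑ n ∈ S, f (c n) n + ∑ s ∈ T, f (d s / 4) (s + v) := by
    intro f
    rw [sum_union hdisj, sum_image (fun a _ b _ h => add_right_cancel h)]
    congr 1
    · exact sum_congr rfl (fun n hn => by simp only [c', if_pos hn])
    · exact sum_congr rfl (fun s hs => by simp only [c', if_neg (hnot s hs), add_sub_cancel_right])
  have hcross : ∀ n ∈ S, ∀ s ∈ T, n.1 * (s + v).2 ≠ (s + v).1 * n.2 := by
    intro n hn s hs h
    have h4 := hbS _ hn
    have h5 := hbT _ hs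
    have h6 := h1 n hn
    refine sep_det W n.1 n.2 (s.1 * n.2 - s.2 * n.1) hW (fun h => by omega) (by linarith [h4.1])
      (by linarith [h4.2]) (abs_det_le W _ _ _ _ h5.1 h4.2 h5.2 h4.1) ?_
    simp only [Prod.fst_add, Prod.snd_add, v] at h
    linear_combination -h
  refine ⟨S ∪ T.image (· + v), c', ⟨?_, ?_, ?_⟩, ?_⟩
  · intro n hn
    rcases mem_union.1 hn with hn | hn
    · exact h1 n hn
    · obtain ⟨s, hs, rfl⟩ := mem_image.1 hn
      have h5 := (hbT _ hs).1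
      rw [abs_le] at h5
      simp only [Prod.fst_add, v]
      nlinarith [sq_nonneg W]
  · intro n hn n' hn' hne
    rcases mem_union.1 hn with hn | hn <;> rcases mem_union.1 hn' with hn' | hn'
    · exact h2 n hn n' hn' hne
    · obtain ⟨s, hs, rfl⟩ := mem_image.1 hn'
      exact hcross n hn s hs
    · obtain ⟨s, hs, rfl⟩ := mem_image.1 hn
      intro h
      exact hcross n' hn' s hs (by linarith)
    · obtain ⟨s, hs, rfl⟩ := mem_image.1 hn
      obtain ⟨s', hs', rfl⟩ := mem_image.1 hn'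
      intro h
      have h4 := hbT _ hs
      have h5 := hbT _ hs'
      have h6 := abs_sub s'.1 s.1
      have h7 := abs_sub s'.2 s.2
      refine sep_det W (s'.1 - s.1) (s'.2 - s.2) (s.1 * s'.2 - s.2 * s'.1) hW ?_
        (by linarith [h4.1, h5.1]) (by linarith [h4.2, h5.2])
        (abs_det_le W _ _ _ _ h4.1 h5.2 h4.2 h5.1) ?_
      · rintro ⟨h8, h9⟩
        apply hne
        congr 1
        ext <;> omega
      · simp only [Prod.fst_add, Prod.snd_add, v] at h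
        linear_combination h
  · intro y0 y1
    rw [hsum (fun z n => 2 * (z * chi y0 y1 n).re)]
    have h4 : ∑ s ∈ T, 2 * (d s / 4 * chi y0 y1 (s + v)).re =
        (1 - (∑ n ∈ S, 2 * (c n * chi y0 y1 n).re) ^ 2) / 2 * (chi y0 y1 v).re := by
      rw [← mul_sum, ← re_sum]
      have : ∑ s ∈ T, d s / 4 * chi y0 y1 (s + v) =
          ((1 / 4 : ℝ) : ℂ) * ((∑ s ∈ T, d s * chi y0 y1 s) * chi y0 y1 v) := by
        rw [sum_mul, mul_sum]
        refine sum_congr rfl (fun s _ => ?_)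
        rw [chi_add]; push_cast; ring
      rw [this, hd, re_ofReal_mul, re_ofReal_mul]
      ring
    rw [h4]
    have h5 := h3 y0 y1
    have h6 : |(chi y0 y1 v).re| ≤ 1 := (abs_re_le_norm _).trans (norm_chi _ _ _).le
    generalize (∑ n ∈ S, 2 * (c n * chi y0 y1 n).re) = F at h5 ⊢
    generalize (chi y0 y1 v).re = x at h6 ⊢
    rw [abs_le] at h5 h6 ⊢
    have h7 : 0 ≤ 1 - F ^ 2 := by nlinarith
    constructor
    · nlinarith [mul_le_mul_of_nonneg_left h6.1 h7]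
    · nlinarith [mul_le_mul_of_nonneg_left h6.2 h7]
  · rw [hsum (fun z _ => ‖z‖ ^ 2)]
    have h4 := single_le_sum (f := fun s => ‖d s / 4‖ ^ 2) (fun _ _ => by positivity) hT0
    have h5 : d 0 = ((1 - 2 * ∑ n ∈ S, ‖c n‖ ^ 2 : ℝ) : ℂ) := by rw [hd0]; push_cast; ring
    have h6 : ‖d 0 / 4‖ ^ 2 = (1 - 2 * ∑ n ∈ S, ‖c n‖ ^ 2) ^ 2 / 16 := by
      rw [h5, norm_div, norm_real, div_pow, Real.norm_eq_abs, sq_abs]; norm_num
    linarith

theorem exists_adm (ε : ℝ) (hε : 0 < ε) :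
    ∃ S c, Adm S c ∧ 1 - ε ≤ 2 * ∑ n ∈ S, ‖c n‖ ^ 2 := by
  have key : ∀ k : ℕ, ∃ S c, Adm S c ∧
      (1 - ε ≤ 2 * ∑ n ∈ S, ‖c n‖ ^ 2 ∨ k * (ε ^ 2 / 8) ≤ 2 * ∑ n ∈ S, ‖c n‖ ^ 2) := by
    intro k
    induction k with
    | zero => exact ⟨∅, 0, ⟨by simp, by simp, by simp⟩, by simp⟩
    | succ k ih =>
      obtain ⟨S, c, h, h1⟩ := ih
      by_cases h2 : 1 - ε ≤ 2 * ∑ n ∈ S, ‖c n‖ ^ 2
      · exact ⟨S, c, h, Or.inl h2⟩
      · obtain ⟨S', c', h', h3⟩ := adm_step S c h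
        refine ⟨S', c', h', Or.inr ?_⟩
        have h4 := h1.resolve_left h2
        push_cast
        have : ε ^ 2 ≤ (1 - 2 * ∑ n ∈ S, ‖c n‖ ^ 2) ^ 2 :=
          pow_le_pow_left₀ hε.le (by linarith) 2
        linarith
  obtain ⟨k, hk⟩ := exists_nat_ge (1 / (ε ^ 2 / 8))
  obtain ⟨S, c, h, h1⟩ := key k
  refine ⟨S, c, h, ?_⟩
  rcases h1 with h1 | h1
  · exact h1
  · rw [div_le_iff₀ (by positivity)] at hk
    linarith

/-- The normalised form: energies `w n > 0` with `2 * ∑ w n = 1` and phases `ph n`. -/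
theorem exists_func (ε : ℝ) (hε : 0 < ε) :
    ∃ (S : Finset (ℤ × ℤ)) (w ph : ℤ × ℤ → ℝ), (∀ n ∈ S, 0 < n.1) ∧
      (∀ n ∈ S, ∀ n' ∈ S, n ≠ n' → n.1 * n'.2 ≠ n'.1 * n.2) ∧ (∀ n ∈ S, 0 < w n) ∧
      2 * ∑ n ∈ S, w n = 1 ∧
      ∀ y0 y1 : ℝ, |∑ n ∈ S, 2 * (√(w n) * (ee (ph n + (n.1 * y0 + n.2 * y1))).re)| ≤ 1 + ε := by
  classical
  obtain ⟨S, c, ⟨h1, h2, h3⟩, h4⟩ := exists_adm (1 - 1 / (1 + ε) ^ 2) (by
    have : 1 / (1 + ε) ^ 2 < 1 := by
      rw [div_lt_one (by positivity)]; nlinarith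
    linarith)
  choose ph hph using fun n => exists_polar (c n)
  set E := 2 * ∑ n ∈ S, ‖c n‖ ^ 2 with hE
  have hE0 : 0 < E := lt_of_lt_of_le (by simp only [sub_sub_cancel]; positivity) h4
  refine ⟨S.filter (fun n => c n ≠ 0), fun n => ‖c n‖ ^ 2 / E, ph,
    fun n hn => h1 n (mem_filter.1 hn).1,
    fun n hn n' hn' => h2 n (mem_filter.1 hn).1 n' (mem_filter.1 hn').1, ?_, ?_, ?_⟩
  · intro n hn
    have := norm_pos_iff.2 (mem_filter.1 hn).2
    positivity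
  · rw [sum_filter_of_ne, ← sum_div, mul_div_assoc', ← hE, div_self hE0.ne']
    intro n _ h5 h6
    apply h5; simp [h6]
  · intro y0 y1
    rw [sum_filter_of_ne]
    · have h5 : ∑ n ∈ S, 2 * (√(‖c n‖ ^ 2 / E) * (ee (ph n + (n.1 * y0 + n.2 * y1))).re) =
          (∑ n ∈ S, 2 * (c n * chi y0 y1 n).re) / √E := by
        rw [sum_div]
        refine sum_congr rfl (fun n _ => ?_)
        rw [Real.sqrt_div (sq_nonneg _), Real.sqrt_sq (norm_nonneg _), ee_add]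
        conv_rhs => rw [hph n, mul_assoc, re_ofReal_mul]
        unfold chi
        ring
      rw [h5, abs_div, abs_of_pos (Real.sqrt_pos.2 hE0), div_le_iff₀ (Real.sqrt_pos.2 hE0)]
      refine (h3 y0 y1).trans ?_
      have h6 : 1 / (1 + ε) ≤ √E := by
        apply Real.le_sqrt_of_sq_le
        rw [div_pow]; linarith
      rw [div_le_iff₀ (by positivity)] at h6
      linarith
    · intro n _ h5 h6
      apply h5; simp [h6]

end Vale.Agent.P110
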