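import Vale.Agent.P110.Pack1

/-! The second moment bound and the packing lemma. -/

set_option linter.unusedSectionVars false

namespace Vale.Agent.P110

open Finset

namespace Forms

variable {F Λ : Type} [Field F] [Fintype F] [DecidableEq F] [Fintype Λ] [DecidableEq Λ]
  (D : Forms F Λ) {w : Λ → ℝ}

theorem N_nonneg (κ : F → Λ × Bool) (n : Λ) (c : F) : 0 ≤ D.N κ n c :=
  sum_nonneg (fun _ _ => D.X_nonneg _ _ _)

theorem exp_N (hs : 2 * ∑ n, w n = 1) (n : Λ) :
    ∑ κ, pr w κ * ∑ c, D.N κ n c = #D.gen * ∏ n' ∈ univ.erase n, w n' := by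
  have h1 : ∀ κ, ∑ c, D.N κ n c = ∑ γ ∈ D.gen, D.X κ (univ.erase n) γ := by
    intro κ; unfold N; exact sum_fiberwise _ _ _
  simp_rw [h1, mul_sum]
  rw [sum_comm, sum_congr rfl (fun γ hγ => D.exp_X hs _ γ hγ), sum_const, nsmul_eq_mul]

theorem exp_N2 (hw : ∀ n, 0 < w n) (hs : 2 * ∑ n, w n = 1) (n : Λ) :
    ∑ κ, pr w κ * ∑ c, D.N κ n c ^ 2 ≤ (Fintype.card F : ℝ) ^ 2 *
      (Fintype.card F * (∏ n' ∈ univ.erase n, w n') ^ 2 + Fintype.card Λ ^ 2 * 2) := by
  set P := ∏ n' ∈ univ.erase n, w n' with hP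
  have h1 : ∀ κ, ∑ c, D.N κ n c ^ 2 = ∑ γ ∈ D.gen, ∑ γ' ∈ D.gen with D.pos n γ' = D.pos n γ,
      D.X κ (univ.erase n) γ * D.X κ (univ.erase n) γ' := by
    intro κ
    rw [← sum_fiberwise D.gen (D.pos n)]
    refine sum_congr rfl (fun c _ => ?_)
    unfold N
    rw [sq, sum_mul_sum]
    refine sum_congr rfl (fun γ hγ => ?_)
    rw [(mem_filter.1 hγ).2]
  simp_rw [h1, mul_sum]
  rw [sum_comm]
  have h2 : ∀ γ ∈ D.gen, ∑ κ, ∑ γ' ∈ D.gen with D.pos n γ' = D.pos n γ,
      pr w κ * (D.X κ (univ.erase n) γ * D.X κ (univ.erase n) γ') ≤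
      Fintype.card F * P ^ 2 + Fintype.card Λ ^ 2 * 2 := by
    intro γ hγ
    rw [sum_comm]
    have h3 : ∀ γ' ∈ D.gen.filter (fun γ' => D.pos n γ' = D.pos n γ),
        ∑ κ, pr w κ * (D.X κ (univ.erase n) γ * D.X κ (univ.erase n) γ') ≤
        P ^ 2 + if ¬ ∀ n1 ∈ univ.erase n, ∀ n2 ∈ univ.erase n,
          D.rep (D.pos n1 γ) ≠ D.rep (D.pos n2 γ') then 1 else 0 := by
      intro γ' hγ'
      split_ifs with hc
      · rw [D.exp_XX hs _ γ γ' hγ (mem_filter.1 hγ').1 hc, add_zero]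
      · have : ∑ κ, pr w κ * (D.X κ (univ.erase n) γ * D.X κ (univ.erase n) γ') ≤
            ∑ κ : F → Λ × Bool, pr w κ := by
          refine sum_le_sum (fun κ _ => mul_le_of_le_one_right (pr_nonneg hw κ) ?_)
          exact mul_le_one₀ (D.X_le_one _ _ _) (D.X_nonneg _ _ _) (D.X_le_one _ _ _)
        rw [pr_sum hs] at this
        nlinarith [sq_nonneg P]
    refine (sum_le_sum h3).trans ?_
    rw [sum_add_distrib, sum_const, nsmul_eq_mul, sum_boole, filter_filter]
    refine add_le_add (mul_le_mul_of_nonneg_right ?_ (sq_nonneg _)) ?_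
    · exact_mod_cast le_trans (card_le_card (filter_subset_filter _ (subset_univ _)))
        (D.pos_card n _)
    · exact_mod_cast le_trans (card_le_card (filter_subset_filter _ (subset_univ _)))
        (D.cross_card n γ _)
  refine (sum_le_sum h2).trans ?_
  rw [sum_const, nsmul_eq_mul]
  refine mul_le_mul_of_nonneg_right ?_ (by positivity)
  have := card_le_univ D.gen
  rw [Fintype.card_prod, ← sq] at this
  exact_mod_cast this

theorem prod_le_one' (hw : ∀ n, 0 < w n) (hs : 2 * ∑ n, w n = 1) (s : Finset Λ) :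
    ∏ n ∈ s, w n ≤ 1 := by
  refine prod_le_one (fun n _ => (hw n).le) (fun n _ => ?_)
  have := single_le_sum (f := w) (fun n _ => (hw n).le) (mem_univ n)
  have := hw n
  linarith

theorem exp_var (hw : ∀ n, 0 < w n) (hs : 2 * ∑ n, w n = 1) (n : Λ) :
    ∑ κ, pr w κ * ∑ c, (D.N κ n c - Fintype.card F * ∏ n' ∈ univ.erase n, w n') ^ 2 ≤
      (6 * Fintype.card Λ ^ 2 + 2 * Fintype.card Λ) * (Fintype.card F : ℝ) ^ 2 := by
  have h1 := D.exp_N hs n
  have h2 := D.exp_N2 hw hs n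
  have h3 := D.gen_card
  have h4 := prod_le_one' hw hs (univ.erase n)
  have h5 : 0 ≤ ∏ n' ∈ univ.erase n, w n' := prod_nonneg (fun n _ => (hw n).le)
  have h6 := pr_sum (F := F) hs
  generalize ∏ n' ∈ univ.erase n, w n' = P at h1 h2 h4 h5 ⊢
  have h7 : ∀ κ, pr w κ * ∑ c, (D.N κ n c - Fintype.card F * P) ^ 2 =
      pr w κ * ∑ c, D.N κ n c ^ 2 - 2 * (Fintype.card F * P) * (pr w κ * ∑ c, D.N κ n c) +
        Fintype.card F * (Fintype.card F * P) ^ 2 * pr w κ := by
    intro κ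
    simp only [sub_sq, sum_add_distrib, sum_sub_distrib, sum_const, card_univ, nsmul_eq_mul,
      ← sum_mul, ← mul_sum]
    ring
  simp only [h7, sum_add_distrib, sum_sub_distrib, ← mul_sum]
  rw [h1, h6]
  have hp0 : (0 : ℝ) ≤ Fintype.card F := by positivity
  have hL0 : (0 : ℝ) ≤ Fintype.card Λ := by positivity
  generalize (Fintype.card F : ℝ) = p at *
  generalize (Fintype.card Λ : ℝ) = L at *
  have h8 : P ^ 2 ≤ 1 := by nlinarith
  have h9 := mul_le_mul_of_nonneg_left h3 (show 0 ≤ 2 * p * P ^ 2 by positivity)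
  have h10 := mul_le_mul_of_nonneg_left h8 (show 0 ≤ (2 * L ^ 2 + L) * p ^ 2 by positivity)
  nlinarith

/-- The points kept. -/
noncomputable def good (w : Λ → ℝ) (ε : ℝ) (κ : F → Λ × Bool) : Finset (F × F) :=
  D.gen.filter (fun γ => D.X κ univ γ = 1 ∧
    ∀ n, D.N κ n (D.pos n γ) ≤ (1 + ε) * (Fintype.card F * ∏ n' ∈ univ.erase n, w n'))

theorem X_univ_le (κ : F → Λ × Bool) (n : Λ) (γ : F × F) :
    D.X κ univ γ ≤ D.X κ (univ.erase n) γ := by
  unfold X
  rw [← mul_prod_erase _ _ (mem_univ n)]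
  refine mul_le_of_le_one_left (D.X_nonneg _ _ _) ?_
  split_ifs <;> norm_num

theorem over_le (N μ ε : ℝ) (hμ : 0 < μ) (hε : 0 < ε) (hN : 0 ≤ N) :
    N * (if ¬ N ≤ (1 + ε) * μ then 1 else 0) ≤ (1 + ε) / (ε ^ 2 * μ) * (N - μ) ^ 2 := by
  split_ifs with h
  · rw [mul_zero]; positivity
  · push Not at h
    rw [mul_one, div_mul_eq_mul_div, le_div_iff₀ (by positivity)]
    have h1 : ε * μ ≤ N - μ := by linarith
    have h2 : ε * N ≤ (1 + ε) * (N - μ) := by linarith
    have h3 := mul_le_mul h1 h2 (by positivity) (le_trans (by positivity) h1)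
    nlinarith

theorem good_card (hw : ∀ n, 0 < w n) (ε : ℝ) (hε : 0 < ε) (κ : F → Λ × Bool) :
    ∑ γ ∈ D.gen, D.X κ univ γ - ∑ n, (1 + ε) / (ε ^ 2 * (Fintype.card F *
      ∏ n' ∈ univ.erase n, w n')) *
      ∑ c, (D.N κ n c - Fintype.card F * ∏ n' ∈ univ.erase n, w n') ^ 2 ≤ #(D.good w ε κ) := by
  have hμ : ∀ n, 0 < (Fintype.card F : ℝ) * ∏ n' ∈ univ.erase n, w n' := fun n =>
    mul_pos (by exact_mod_cast Fintype.card_pos) (prod_pos (fun n _ => hw n))
  unfold good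
  generalize hμd : (fun n => (Fintype.card F : ℝ) * ∏ n' ∈ univ.erase n, w n') = μ
  have hμe : ∀ n, (Fintype.card F : ℝ) * ∏ n' ∈ univ.erase n, w n' = μ n := fun n =>
    congrFun hμd n
  simp only [hμe] at hμ ⊢
  have h1 : ∀ n, ∑ γ ∈ D.gen, D.X κ (univ.erase n) γ *
      (if ¬ D.N κ n (D.pos n γ) ≤ (1 + ε) * μ n then 1 else 0) ≤
      (1 + ε) / (ε ^ 2 * μ n) * ∑ c, (D.N κ n c - μ n) ^ 2 := by
    intro n
    rw [← sum_fiberwise D.gen (D.pos n), mul_sum]
    refine sum_le_sum (fun c _ => le_trans (le_of_eq ?_)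
      (over_le _ _ _ (hμ n) hε (D.N_nonneg κ n c)))
    conv_rhs => rw [N, sum_mul]
    refine sum_congr rfl (fun γ hγ => ?_)
    rw [(mem_filter.1 hγ).2]
    rfl
  refine le_trans (sub_le_sub_left (sum_le_sum (fun n _ => h1 n)) _) ?_
  rw [sum_comm, ← sum_sub_distrib, ← sum_boole]
  refine sum_le_sum (fun γ _ => ?_)
  have h2 : ∀ n ∈ univ, 0 ≤ D.X κ (univ.erase n) γ *
      (if ¬ D.N κ n (D.pos n γ) ≤ (1 + ε) * μ n then 1 else 0) := fun n _ =>
    mul_nonneg (D.X_nonneg _ _ _) (by split_ifs <;> norm_num)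
  have h3 := sum_nonneg h2
  split_ifs with h
  · linarith [D.X_le_one κ univ γ]
  · rcases D.X_cases κ univ γ with h4 | h4
    · linarith
    · rw [not_and, not_forall] at h
      obtain ⟨n, hn⟩ := h h4
      have h5 := single_le_sum h2 (mem_univ n)
      rw [if_pos hn, mul_one] at h5
      linarith [D.X_univ_le κ n γ]

theorem exp_good (hw : ∀ n, 0 < w n) (hs : 2 * ∑ n, w n = 1) (ε : ℝ) (hε : 0 < ε) :
    (Fintype.card F : ℝ) ^ 2 * ∏ n, w n - ((2 * Fintype.card Λ ^ 2 + Fintype.card Λ) +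
      ∑ n, (1 + ε) / (ε ^ 2 * ∏ n' ∈ univ.erase n, w n') *
        (6 * Fintype.card Λ ^ 2 + 2 * Fintype.card Λ)) * Fintype.card F ≤
      ∑ κ, pr w κ * #(D.good w ε κ) := by
  refine le_trans ?_ (sum_le_sum (fun κ _ =>
    mul_le_mul_of_nonneg_left (D.good_card hw ε hε κ) (pr_nonneg hw κ)))
  simp only [mul_sub, sum_sub_distrib]
  have h1 : ∑ κ, pr w κ * ∑ γ ∈ D.gen, D.X κ univ γ = #D.gen * ∏ n, w n := by
    simp_rw [mul_sum]
    rw [sum_comm, sum_congr rfl (fun γ hγ => D.exp_X hs _ γ hγ), sum_const, nsmul_eq_mul]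
  have hp : (0 : ℝ) < Fintype.card F := by exact_mod_cast Fintype.card_pos
  have h2 : ∑ κ, pr w κ * ∑ n, (1 + ε) / (ε ^ 2 * (Fintype.card F *
      ∏ n' ∈ univ.erase n, w n')) *
      ∑ c, (D.N κ n c - Fintype.card F * ∏ n' ∈ univ.erase n, w n') ^ 2 ≤
      (∑ n, (1 + ε) / (ε ^ 2 * ∏ n' ∈ univ.erase n, w n') *
        (6 * Fintype.card Λ ^ 2 + 2 * Fintype.card Λ)) * Fintype.card F := by
    simp_rw [mul_sum (s := (univ : Finset Λ))]
    rw [sum_comm, sum_mul]
    refine sum_le_sum (fun n _ => ?_)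
    have h3 := D.exp_var hw hs n
    have h4 : 0 < ∏ n' ∈ univ.erase n, w n' := prod_pos (fun n _ => hw n)
    simp_rw [mul_left_comm (pr w _)]
    rw [← mul_sum]
    refine (mul_le_mul_of_nonneg_left h3 (by positivity)).trans (le_of_eq ?_)
    field_simp
  rw [h1]
  have h3 := D.gen_card
  have h4 := prod_le_one' hw hs univ
  have h5 : 0 ≤ ∏ n, w n := prod_nonneg (fun n _ => (hw n).le)
  have h6 := mul_le_mul_of_nonneg_right h3 h5
  have h7 := mul_le_mul_of_nonneg_left h4 (show (0 : ℝ) ≤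
    (2 * Fintype.card Λ ^ 2 + Fintype.card Λ) * Fintype.card F by positivity)
  linarith

theorem good_fibre (ε : ℝ) (hε : 0 < ε) (hw : ∀ n, 0 < w n) (κ : F → Λ × Bool) (n : Λ) (c : F) :
    (#((D.good w ε κ).filter (fun γ => D.pos n γ = c)) : ℝ) ≤
      (1 + ε) * (Fintype.card F * ∏ n' ∈ univ.erase n, w n') := by
  rcases ((D.good w ε κ).filter (fun γ => D.pos n γ = c)).eq_empty_or_nonempty with h | ⟨γ, hγ⟩
  · rw [h, card_empty, Nat.cast_zero]
    have : 0 < ∏ n' ∈ univ.erase n, w n' := prod_pos (fun n _ => hw n)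
    positivity
  · have h1 := (mem_filter.1 (mem_filter.1 hγ).1).2.2 n
    rw [(mem_filter.1 hγ).2] at h1
    refine le_trans ?_ h1
    rw [card_eq_sum_ones, Nat.cast_sum, N]
    refine le_trans (sum_le_sum (g := fun γ => D.X κ (univ.erase n) γ) (fun γ' hγ' => ?_))
      (sum_le_sum_of_subset_of_nonneg (filter_subset_filter _ (filter_subset _ _))
        (fun _ _ _ => D.X_nonneg _ _ _))
    have h2 := (mem_filter.1 (mem_filter.1 hγ').1).2.1
    have := D.X_univ_le κ n γ'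
    push_cast
    linarith

theorem good_col (ε : ℝ) (κ : F → Λ × Bool) (γ : F × F) (hγ : γ ∈ D.good w ε κ) (n : Λ) :
    D.pos n γ ≠ -1 - D.pos n γ ∧ κ (D.rep (D.pos n γ)) = (n, D.side (D.pos n γ)) := by
  have h1 := mem_filter.1 hγ
  refine ⟨(mem_filter.1 h1.1).2.2 n, ?_⟩
  have h2 := h1.2.1
  unfold X at h2
  rw [prod_boole] at h2
  by_contra h3
  rw [if_neg (fun h => h3 (h n (mem_univ n)))] at h2
  exact zero_ne_one h2

end Forms

theorem exists_rep (F : Type) [Field F] [Fintype F] [DecidableEq F] :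
    ∃ (rep : F → F) (side : F → Bool), (∀ x y, rep x = rep y → x = y ∨ x = -1 - y) ∧
      (∀ x, rep (-1 - x) = rep x) ∧ ∀ x, x ≠ -1 - x → side (-1 - x) ≠ side x := by
  let f : F → ℕ := fun x => (Fintype.equivFin F x : ℕ)
  have hf : Function.Injective f := fun x y h => (Fintype.equivFin F).injective (Fin.ext h)
  have hi : ∀ x : F, -1 - (-1 - x) = x := fun x => by ring
  refine ⟨fun x => if f x ≤ f (-1 - x) then x else -1 - x, fun x => decide (f x ≤ f (-1 - x)),
    ?_, ?_, ?_⟩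
  · intro x y h
    simp only at h
    split_ifs at h
    · exact Or.inl h
    · exact Or.inr h
    · right; rw [← h, hi]
    · left; linear_combination -h
  · intro x
    simp only [hi]
    split_ifs with h1 h2 h2
    · exact hf (le_antisymm h1 h2)
    · rfl
    · rfl
    · omega
  · intro x hx
    have : f x ≠ f (-1 - x) := fun h => hx (hf h)
    simp only [hi, ne_eq, decide_eq_decide]
    omega

/-- The packing lemma. -/
theorem pack {Λ Jx : Type} [Fintype Λ] [DecidableEq Λ] [Fintype Jx] [DecidableEq Jx] [Nonempty Jx]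
    (m l : Λ → ℤ) (hm : ∀ n, m n ≠ 0) (hdet : ∀ n n', n ≠ n' → m n * l n' ≠ m n' * l n)
    (w : Λ → ℝ) (hw : ∀ n, 0 < w n) (hs : 2 * ∑ n, w n = 1) (σ : Jx → Λ → ℤ)
    (ε : ℝ) (hε : 0 < ε) :
    ∃ p : ℕ, 0 < p ∧ ∃ (col : ZMod p → Option Λ) (G : Finset (Jx × ZMod p × ZMod p)),
      G.Nonempty ∧ (∀ b n, col b = some n → col (-1 - b) = none) ∧
      (∀ g ∈ G, ∀ n, col (m n * g.2.1 + l n * g.2.2 + σ g.1 n) = some n) ∧
      ∀ j n (b : ZMod p), (#(G.filter (fun g => g.1 = j ∧ m n * g.2.1 + l n * g.2.2 + σ g.1 n = b)) : ℝ) *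
        (Fintype.card Jx * p * w n) ≤ (1 + ε) * #G := by
  classical
  set e := ε / (2 + ε) with he
  have he0 : 0 < e := by positivity
  have he1 : e < 1 := by rw [he, div_lt_one (by positivity)]; linarith
  have he2 : 1 + e = (1 + ε) * (1 - e) := by rw [he]; field_simp; ring
  set C := (2 * (Fintype.card Λ : ℝ) ^ 2 + Fintype.card Λ) +
      ∑ n, (1 + e) / (e ^ 2 * ∏ n' ∈ univ.erase n, w n') *
        (6 * Fintype.card Λ ^ 2 + 2 * Fintype.card Λ) with hC
  have hP : 0 < ∏ n, w n := prod_pos (fun n _ => hw n)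
  obtain ⟨p0, hp0⟩ := exists_nat_ge (C / (e * ∏ n, w n))
  obtain ⟨p, hp1, hp⟩ := Nat.exists_infinite_primes (p0 + 1 + ∑ n, (2 * m n).natAbs +
    ∑ q : Λ × Λ, (m q.1 * l q.2 - m q.2 * l q.1).natAbs)
  haveI : Fact p.Prime := ⟨hp⟩
  have hne : ∀ x : ℤ, x ≠ 0 → x.natAbs < p → (x : ZMod p) ≠ 0 := by
    intro x hx h1 h2
    rw [ZMod.intCast_zmod_eq_zero_iff_dvd] at h2
    have := Nat.le_of_dvd (Int.natAbs_pos.2 hx) (Int.natCast_dvd.1 h2)
    omega
  obtain ⟨rep, side, hr1, hr2, hr3⟩ := exists_rep (ZMod p)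
  let D : Jx → Forms (ZMod p) Λ := fun j =>
    { a := fun n => m n, b := fun n => l n, sh := fun n => σ j n, rep := rep, side := side
      det := by
        intro n n' h h1
        apply hne (m n * l n' - m n' * l n) (sub_ne_zero.2 (hdet n n' h))
        · have := single_le_sum (f := fun q : Λ × Λ => (m q.1 * l q.2 - m q.2 * l q.1).natAbs)
            (fun _ _ => Nat.zero_le _) (mem_univ (n, n'))
          simp only at this
          omega
        · push_cast; rw [h1, sub_self]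
      two := by
        intro n h1
        apply hne (2 * m n) (mul_ne_zero two_ne_zero (hm n))
        · have := single_le_sum (f := fun n : Λ => (2 * m n).natAbs)
            (fun _ _ => Nat.zero_le _) (mem_univ n)
          omega
        · push_cast; exact h1
      rep_eq := hr1 }
  have hcard : (Fintype.card (ZMod p) : ℝ) = p := by rw [ZMod.card]
  have hpp : (0 : ℝ) < p := by exact_mod_cast hp.pos
  have hJ : (0 : ℝ) < Fintype.card Jx := by exact_mod_cast Fintype.card_pos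
  have h1 : ∀ j, (1 - e) * (p ^ 2 * ∏ n, w n) ≤
      ∑ κ, Forms.pr w κ * #((D j).good w e κ) := by
    intro j
    refine le_trans ?_ ((D j).exp_good hw hs e he0)
    rw [hcard, ← hC]
    rw [div_le_iff₀ (by positivity)] at hp0
    have h2 : (p0 : ℝ) ≤ p := by exact_mod_cast (show p0 ≤ p by omega)
    have h3 := mul_le_mul_of_nonneg_right h2 (show 0 ≤ e * ∏ n, w n by positivity)
    nlinarith [mul_le_mul_of_nonneg_right (hp0.trans h3) hpp.le]
  obtain ⟨κ, hκ⟩ : ∃ κ, Fintype.card Jx * ((1 - e) * (p ^ 2 * ∏ n, w n)) ≤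
      ∑ j, (#((D j).good w e κ) : ℝ) := by
    by_contra hcon
    push Not at hcon
    have h2 : ∑ κ, Forms.pr w κ * ∑ j, (#((D j).good w e κ) : ℝ) <
        ∑ κ : ZMod p → Λ × Bool, Forms.pr w κ *
          (Fintype.card Jx * ((1 - e) * (p ^ 2 * ∏ n, w n))) := by
      refine sum_lt_sum_of_nonempty ?_ (fun κ _ => mul_lt_mul_of_pos_left (hcon κ)
        (prod_pos (fun _ _ => hw _)))
      rcases isEmpty_or_nonempty Λ with h | h
      · simp at hs
      · exact univ_nonempty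
    rw [← sum_mul, Forms.pr_sum hs, one_mul] at h2
    simp_rw [mul_sum] at h2
    rw [sum_comm] at h2
    have h3 := sum_le_sum (fun j (_ : j ∈ univ) => h1 j)
    rw [sum_const, card_univ, nsmul_eq_mul] at h3
    linarith
  let G : Finset (Jx × ZMod p × ZMod p) := univ.filter (fun g => g.2 ∈ (D g.1).good w e κ)
  have hG : ∀ (j : Jx) (q : Jx × ZMod p × ZMod p → Prop) [DecidablePred q],
      #(G.filter (fun g => g.1 = j ∧ q g)) = #(((D j).good w e κ).filter (fun γ => q (j, γ))) := by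
    intro j q _
    refine card_bij (fun g _ => g.2) ?_ ?_ ?_
    · rintro ⟨j', γ⟩ hg
      simp only [G, mem_filter, mem_univ, true_and] at hg ⊢
      obtain ⟨h2, rfl, h3⟩ := hg
      exact ⟨h2, h3⟩
    · rintro ⟨j1, γ1⟩ h2 ⟨j2, γ2⟩ h3 h4
      simp only [mem_filter] at h2 h3 h4
      exact Prod.ext (h2.2.1.trans h3.2.1.symm) h4
    · intro γ hγ
      rw [mem_filter] at hγ
      exact ⟨(j, γ), by simp only [G, mem_filter, mem_univ, true_and]; exact hγ, rfl⟩
  have hGc : (#G : ℝ) = ∑ j, (#((D j).good w e κ) : ℝ) := by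
    rw [card_eq_sum_card_fiberwise (f := Prod.fst) (t := univ) (fun _ _ => mem_univ _)]
    push_cast
    refine sum_congr rfl (fun j _ => ?_)
    have := hG j (fun _ => True)
    simp only [and_true, filter_true] at this
    rw [this]
  rw [← hGc] at hκ
  refine ⟨p, hp.pos, fun b => if b ≠ -1 - b ∧ (κ (rep b)).2 = side b then some (κ (rep b)).1
    else none, G, ?_, ?_, ?_, ?_⟩
  · rw [← card_pos, ← Nat.cast_pos (α := ℝ)]
    refine lt_of_lt_of_le ?_ hκ
    have : 0 < 1 - e := by linarith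
    positivity
  · intro b n h
    simp only at h ⊢
    split_ifs at h with h2
    rw [if_neg]
    rintro ⟨-, h3⟩
    rw [hr2, h2.2] at h3
    exact hr3 b h2.1 h3.symm
  · intro g hg n
    have h2 := (D g.1).good_col e κ g.2 (mem_filter.1 hg).2 n
    have h3 : κ (rep (m n * g.2.1 + l n * g.2.2 + σ g.1 n)) =
      (n, side (m n * g.2.1 + l n * g.2.2 + σ g.1 n)) := h2.2
    simp only
    rw [if_pos ⟨h2.1, by rw [h3]⟩, h3]
  · intro j n b
    rw [hG j (fun g => m n * g.2.1 + l n * g.2.2 + σ g.1 n = b)]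
    have h2 := (D j).good_fibre e he0 hw κ n b
    rw [hcard] at h2
    have h3 := hw n
    refine le_trans (mul_le_mul_of_nonneg_right h2 (by positivity)) ?_
    refine le_trans (le_of_eq ?_) (mul_le_mul_of_nonneg_left hκ (by positivity))
    rw [← mul_prod_erase _ _ (mem_univ n), he2]
    ring

end Vale.Agent.P110
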