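import Vale.Agent.P110.Tile
import Vale.Agent.P110.Arith
import Vale.Agent.P110.Pack2
import Vale.Agent.P110.Func

/-! The packing of the core slots. -/

namespace Vale.Agent.P110

open Finset Complex

theorem core_tile {Λ T : Type} (p R M : ℕ) (hp : 0 < p) (hR : 0 < R) (hM : 0 < M)
    (m q Mn : Λ → ℕ) (hm : ∀ n, 0 < m n) (hmR : ∀ n, m n ∣ R) (hq : ∀ n, q n * Mn n = M)
    (col : ZMod p → Option Λ) (hcol : ∀ b n, col b = some n → col (-1 - b) = none)
    (j : T → ℕ) (Z : T → Λ → ℤ) (hZ : ∀ t n, col (Z t n) = some n)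
    (hinj : ∀ n t t', (Z t n : ZMod p) = Z t' n → m n * j t % R = m n * j t' % R →
      (q n : ℤ) ∣ Z t n - Z t' n → t = t') :
    ∃ X : T × (Σ n, Fin (Mn n)) → ℕ, PTile (M * p * R) X (fun S => m S.2.1) ∧
      ∀ S, ∃ z : ℤ, (X S : ℤ) = R * (p * q S.2.1 * (S.2.2 : ℕ) + Z S.1 S.2.1) +
        (m S.2.1 * j S.1 % R : ℕ) + z * (M * p * R) := by
  have hMp : (0 : ℤ) < M * p := by positivity
  let B : T × (Σ n, Fin (Mn n)) → ℕ := fun S =>
    ((p * q S.2.1 * (S.2.2 : ℕ) + Z S.1 S.2.1 : ℤ) % (M * p)).toNat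
  have hB : ∀ S, ∃ z : ℤ, (B S : ℤ) = p * q S.2.1 * (S.2.2 : ℕ) + Z S.1 S.2.1 + z * (M * p) := by
    intro S
    refine ⟨-((p * q S.2.1 * (S.2.2 : ℕ) + Z S.1 S.2.1 : ℤ) / (M * p)), ?_⟩
    simp only [B]
    rw [Int.toNat_of_nonneg (Int.emod_nonneg _ hMp.ne'), Int.emod_def]
    ring
  have hB2 : ∀ S, B S < M * p := by
    intro S
    have := Int.emod_lt_of_pos (p * q S.2.1 * (S.2.2 : ℕ) + Z S.1 S.2.1 : ℤ) hMp
    have h2 := Int.emod_nonneg (p * q S.2.1 * (S.2.2 : ℕ) + Z S.1 S.2.1 : ℤ) hMp.ne'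
    simp only [B]
    rw [Int.toNat_lt h2]
    exact_mod_cast this
  have hB3 : ∀ S, ((B S : ℕ) : ZMod p) = Z S.1 S.2.1 := by
    intro S
    obtain ⟨z, hz⟩ := hB S
    have := congrArg (Int.cast : ℤ → ZMod p) hz
    push_cast at this
    rw [this]; simp
  have hs : ∀ n t, m n * j t % R + m n ≤ R := by
    intro n t
    have h1 : m n ∣ m n * j t % R := (Nat.dvd_mod_iff (hmR n)).2 (dvd_mul_right _ _)
    obtain ⟨a, ha⟩ := h1
    obtain ⟨b, hb⟩ := hmR n
    have h2 := Nat.mod_lt (m n * j t) hR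
    rw [ha] at h2 ⊢
    rw [hb] at h2 ⊢
    have h3 := Nat.lt_of_mul_lt_mul_left h2
    rw [← Nat.mul_succ]
    exact Nat.mul_le_mul_left _ h3
  have hdiv : ∀ a b c d : ℕ, b < R → d < R → R * a + b = R * c + d → a = c ∧ b = d := by
    intro a b c d h1 h2 h3
    have h4 := congrArg (· % R) h3
    simp only [Nat.mul_add_mod, Nat.mod_eq_of_lt h1, Nat.mod_eq_of_lt h2] at h4
    subst h4
    exact ⟨Nat.eq_of_mul_eq_mul_left hR (by omega), rfl⟩
  refine ⟨fun S => R * B S + m S.2.1 * j S.1 % R, ⟨fun S => hm _, fun S => ?_, ?_, ?_⟩, fun S => ?_⟩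
  · have h1 := hs S.2.1 S.1
    have h2 := Nat.mul_le_mul_left R (Nat.succ_le_of_lt (hB2 S))
    rw [Nat.mul_succ, mul_comm R (M * p)] at h2
    omega
  · rintro ⟨t, n, i⟩ ⟨t', n', i'⟩ r r' h1 h2 h3
    simp only at h1 h2 h3
    have h4 := hs n t
    have h5 := hs n' t'
    obtain ⟨h6, h7⟩ := hdiv _ (m n * j t % R + r) _ (m n' * j t' % R + r') (by omega) (by omega)
      (by rw [← add_assoc, ← add_assoc]; exact h3)
    have h8 : (Z t n : ZMod p) = Z t' n' := by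
      rw [← hB3 (t, ⟨n, i⟩), ← hB3 (t', ⟨n', i'⟩), h6]
    obtain rfl : n = n' := by
      have := hZ t n
      rw [h8, hZ] at this
      exact (Option.some.inj this).symm
    have h9 : m n * j t % R = m n * j t' % R := by
      obtain ⟨a, ha⟩ : m n ∣ m n * j t % R := (Nat.dvd_mod_iff (hmR n)).2 (dvd_mul_right _ _)
      obtain ⟨b, hb⟩ : m n ∣ m n * j t' % R := (Nat.dvd_mod_iff (hmR n)).2 (dvd_mul_right _ _)
      rw [ha, hb] at h7 ⊢
      have := congrArg (· % m n) h7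
      simp only [Nat.mul_add_mod, Nat.mod_eq_of_lt h1, Nat.mod_eq_of_lt h2] at this
      omega
    obtain ⟨z, hz⟩ := hB (t, ⟨n, i⟩)
    obtain ⟨z', hz'⟩ := hB (t', ⟨n, i'⟩)
    rw [h6, hz'] at hz
    simp only at hz
    have hq' : (M : ℤ) = q n * Mn n := by exact_mod_cast (hq n).symm
    obtain rfl : t = t' := hinj n t t' h8 h9
      ⟨p * (i' : ℕ) - p * (i : ℕ) + (z' - z) * Mn n * p, by
        rw [hq'] at hz; linear_combination -hz⟩
    have h10 : ((i' : ℕ) : ℤ) - (i : ℕ) = (z - z') * Mn n := by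
      have hq0 : (q n : ℤ) ≠ 0 := by
        intro h; rw [h, zero_mul] at hq'; omega
      apply mul_left_cancel₀ (mul_ne_zero (show (p : ℤ) ≠ 0 by omega) hq0)
      rw [hq'] at hz; linear_combination hz
    obtain rfl : i = i' := by
      have h11 := i.2
      have h12 := i'.2
      have h13 : z - z' = 0 := by
        by_contra h
        rcases lt_or_gt_of_ne h with h | h
        · nlinarith
        · nlinarith
      rw [h13] at h10
      exact Fin.ext (by omega)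
    rfl
  · intro S S' r r' h1 h2 h3
    have h4 := hs S.2.1 S.1
    have h5 := hs S'.2.1 S'.1
    have h6 := hB2 S'
    obtain ⟨c, hc⟩ : ∃ c, M * p = B S' + c + 1 := ⟨M * p - B S' - 1, by omega⟩
    rw [hc] at h3
    obtain ⟨h7, -⟩ := hdiv (B S) (m S.2.1 * j S.1 % R + r) c (R - 1 - (m S'.2.1 * j S'.1 % R + r'))
      (by omega) (by omega) (by
        have : (B S' + c + 1) * R = R * B S' + R * c + R := by ring
        omega)
    have h8 := congrArg (Nat.cast : ℕ → ZMod p) hc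
    rw [← h7] at h8
    push_cast at h8
    rw [hB3, hB3, ZMod.natCast_self, mul_zero] at h8
    have h9 := hcol _ _ (hZ S.1 S.2.1)
    rw [show -1 - (Z S.1 S.2.1 : ZMod p) = Z S'.1 S'.2.1 by linear_combination h8, hZ] at h9
    exact absurd h9 (by simp)
  · obtain ⟨z, hz⟩ := hB S
    exact ⟨z, by rw [Nat.cast_add, Nat.cast_mul, hz]; ring⟩

theorem gauss_lines {Λ : Type} [Fintype Λ] [DecidableEq Λ] (m l : Λ → ℤ) (q : Λ → ℕ)
    (hq0 : ∀ n, 0 < q n) (hq : ∀ n n', n ≠ n' → IsCoprime (q n : ℤ) (q n'))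
    (h2 : ∀ n, IsCoprime 2 (q n : ℤ))
    (hd : ∀ n n', n ≠ n' → IsCoprime (m n * l n' - m n' * l n) (q n' : ℤ)) :
    ∃ (u0 u1 : ℝ) (ϑ : (n : Λ) → Fin (∏ n' ∈ univ.erase n, q n') → ℝ), ∀ n (k : ℤ),
      ∑ i : Fin (∏ n' ∈ univ.erase n, q n'),
        ee (ϑ n i - k * (i : ℕ) / (∏ n' ∈ univ.erase n, q n' : ℕ)) =
      ((√(∏ n' ∈ univ.erase n, q n' : ℕ) : ℝ) : ℂ) * ee ((m n * u0 + l n * u1) * k ^ 2) := by
  have h1 : ∀ n, IsCoprime (2 * ∑ n' ∈ univ.erase n, (m n * l n' - m n' * l n) *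
      ∏ n'' ∈ (univ.erase n).erase n', (q n'' : ℤ)) ((∏ n' ∈ univ.erase n, q n' : ℕ) : ℤ) := by
    intro n
    rw [Nat.cast_prod]
    refine IsCoprime.mul_left (IsCoprime.prod_right (fun n' _ => h2 n')) ?_
    exact coprime_sum _ (fun n => (q n : ℤ)) _ hq (fun n' hn' => hd _ _ (ne_of_mem_erase hn').symm)
  choose ϑ hϑ using fun n => gauss _ (prod_pos (fun n' _ => hq0 n')) _ (h1 n)
  refine ⟨∑ n, (l n : ℝ) / q n, -∑ n, (m n : ℝ) / q n, ϑ, fun n k => ?_⟩
  rw [hϑ]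
  congr 2
  rw [mul_div_right_comm]
  congr 1
  rw [mul_neg, mul_sum, mul_sum, ← sub_eq_add_neg, ← sum_sub_distrib,
    ← add_sum_erase _ _ (mem_univ n)]
  push_cast
  rw [sum_div, show (m n : ℝ) * (l n / q n) - l n * (m n / q n) = 0 by ring, zero_add]
  refine sum_congr rfl (fun n' hn' => ?_)
  rw [← mul_prod_erase _ _ hn']
  have h3 : (0 : ℝ) < q n' := by exact_mod_cast hq0 n'
  have h4 : (0 : ℝ) < ∏ n'' ∈ (univ.erase n).erase n', (q n'' : ℝ) :=
    prod_pos (fun x _ => by exact_mod_cast hq0 x)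
  field_simp

theorem sqrt_close (x w e : ℝ) (hw0 : 0 < w) (hw : w ≤ 1) (he : 0 < e) (h1 : x ≤ w)
    (h2 : w ≤ (1 + e) ^ 2 * x) : |√x - √w| ≤ e := by
  have h3 := Real.sqrt_le_sqrt h1
  have h4 := Real.sqrt_le_sqrt h2
  rw [Real.sqrt_mul (sq_nonneg _), Real.sqrt_sq (by positivity)] at h4
  have h5 : √w ≤ 1 := Real.sqrt_le_one.2 hw
  have h6 := Real.sqrt_nonneg x
  rw [abs_le]
  constructor <;> nlinarith

theorem line_sum (Mn : ℕ) (φ θ : Fin Mn → ℝ) (A U c : ℝ) (hc : 0 ≤ c)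
    (h : ∑ i, ee (φ i) = ((√Mn : ℝ) : ℂ) * ee U) (hθ : ∀ i, ee (θ i) = ee (φ i + A)) :
    ∑ i, 2 * (√c * (ee (θ i)).re) = 2 * (√(c * Mn) * (ee (U + A)).re) := by
  rw [← mul_sum, ← mul_sum, ← re_sum]
  simp only [hθ, ee_add]
  rw [← sum_mul, h, mul_assoc, re_ofReal_mul, Real.sqrt_mul hc, mul_assoc]

theorem fibre_bound {Jx Y : Type} [Fintype Jx] [DecidableEq Jx] [DecidableEq Y] (G : Finset (Jx × Y))
    (r m : ℕ) (P : Jx × Y → Prop) (P' : Jx → Prop) [DecidablePred P] [DecidablePred P']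
    (hm : #{j | P' j} ≤ m) (B : ℝ) (hB0 : 0 ≤ B)
    (hB : ∀ j, (#(G.filter (fun g => g.1 = j ∧ P g)) : ℝ) ≤ B) :
    (#{t : G × Fin r | P t.1 ∧ P' t.1.1.1} : ℝ) ≤ r * (m * B) := by
  have h1 : #{t : G × Fin r | P t.1 ∧ P' t.1.1.1} ≤
      #(((univ.filter P').biUnion fun j => G.filter (fun g => g.1 = j ∧ P g)) ×ˢ
        (univ : Finset (Fin r))) := by
    refine card_le_card_of_injOn (fun t => (t.1.1, t.2)) ?_ ?_
    · intro t ht
      simp only [coe_filter, mem_univ, true_and, Set.mem_setOf_eq] at ht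
      simp only [mem_coe, mem_product, mem_biUnion, mem_filter, mem_univ, true_and, and_true]
      exact ⟨_, ht.2, t.1.2, rfl, ht.1⟩
    · intro t _ t' _ h
      simp only [Prod.mk.injEq] at h
      exact Prod.ext (Subtype.ext h.1) h.2
  rw [card_product, card_univ, Fintype.card_fin] at h1
  have h2 := card_biUnion_le (s := univ.filter P')
    (t := fun j => G.filter (fun g => g.1 = j ∧ P g))
  have h3 : ((∑ j ∈ univ.filter P', #(G.filter (fun g => g.1 = j ∧ P g)) : ℕ) : ℝ) ≤ m * B := by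
    push_cast
    refine (sum_le_sum (fun j _ => hB j)).trans ?_
    rw [sum_const, nsmul_eq_mul]
    exact mul_le_mul_of_nonneg_right (by exact_mod_cast hm) hB0
  have h4 := h1.trans (Nat.mul_le_mul_right r h2)
  have h5 : (#{t : G × Fin r | P t.1 ∧ P' t.1.1.1} : ℝ) ≤
    ((∑ j ∈ univ.filter P', #(G.filter (fun g => g.1 = j ∧ P g)) : ℕ) : ℝ) * r := by
    exact_mod_cast h4
  refine h5.trans ?_
  rw [mul_comm]
  exact mul_le_mul_of_nonneg_left h3 (by positivity)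

/-- The arithmetic part of the packing. -/
theorem core_pack {Λ : Type} [Fintype Λ] [DecidableEq Λ] (m : Λ → ℕ) (l : Λ → ℤ)
    (hm : ∀ n, 0 < m n) (hdet : ∀ n n', n ≠ n' → m n * l n' ≠ m n' * l n)
    (w : Λ → ℝ) (hw : ∀ n, 0 < w n) (hs : 2 * ∑ n, w n = 1) (e : ℝ) (he : 0 < e) :
    ∃ (Nc : ℕ) (T : Type) (_ : Fintype T) (Mn : Λ → ℕ) (X : T × (Σ n, Fin (Mn n)) → ℕ)
      (u0 u1 : ℝ) (β0 β1 : T → ℝ) (ϑ : (n : Λ) → Fin (Mn n) → ℝ),
      0 < Nc ∧ 2 ∣ Nc ∧ 0 < Fintype.card T ∧ PTile Nc X (fun S => m S.2.1) ∧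
      (∀ n, (m n * Fintype.card T / Nc * Mn n : ℝ) ≤ w n ∧
        w n ≤ (1 + e) ^ 2 * (m n * Fintype.card T / Nc * Mn n)) ∧
      (∀ n (k : ℤ), ∑ i : Fin (Mn n), ee (ϑ n i - k * (i : ℕ) / Mn n) =
        ((√(Mn n) : ℝ) : ℂ) * ee ((m n * u0 + l n * u1) * k ^ 2)) ∧
      ∀ S, ∃ z : ℤ, (X S / Nc : ℝ) =
        (S.2.2 : ℕ) / Mn S.2.1 + (m S.2.1 * β0 S.1 + l S.2.1 * β1 S.1) + z := by
  classical
  let R := 2 * ∏ n, m n
  have hR : 0 < R := by have := prod_pos (s := univ) (fun n _ => hm n); positivity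
  have hmR : ∀ n, m n ∣ R := fun n => Dvd.dvd.mul_left (dvd_prod_of_mem _ (mem_univ n)) _
  have hR2 : 2 ∣ R := dvd_mul_right _ _
  clear_value R
  haveI : Nonempty (Fin R) := ⟨⟨0, hR⟩⟩
  obtain ⟨p, hp, col, G, hG, hcol, hGc, hGf⟩ := pack (Jx := Fin R) (fun n => (m n : ℤ)) l
    (fun n => by have := hm n; omega) hdet w hw hs (fun j n => ((m n * j / R : ℕ) : ℤ)) e he
  haveI : NeZero p := ⟨hp.ne'⟩
  have hG0 : (0 : ℝ) < #G := by exact_mod_cast hG.card_pos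
  have hR' : (0 : ℝ) < R := by exact_mod_cast hR
  have hp' : (0 : ℝ) < p := by exact_mod_cast hp
  have hm' : ∀ n, (0 : ℝ) < m n := fun n => by exact_mod_cast hm n
  obtain ⟨r, q, hr, hq1, hq2, hq3⟩ := exists_q (fun n => m n * ((1 + e) * #G / (R * p * w n)))
    (fun n => by have := hw n; have := hm' n; positivity) e he
    (2 + ∑ n, m n * p + ∑ x : Λ × Λ, (m x.1 * l x.2 - m x.2 * l x.1).natAbs)
  have hr' : (0 : ℝ) < r := by exact_mod_cast hr
  have hq0' : ∀ n, (0 : ℝ) < q n := fun n =>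
    lt_of_lt_of_le (by have := hw n; have := hm' n; positivity) (hq1 n).1
  have hq0 : ∀ n, 0 < q n := fun n => by exact_mod_cast hq0' n
  let Z0 : G × Fin r → Λ → ℤ := fun t n =>
    m n * (t.1.1.2.1.val : ℕ) + l n * (t.1.1.2.2.val : ℕ) + ((m n * t.1.1.1 / R : ℕ) : ℤ)
  have hZ0 : ∀ t n, (Z0 t n : ZMod p) = ((m n : ℤ) : ZMod p) * t.1.1.2.1 + l n * t.1.1.2.2 +
      (((m n * t.1.1.1 / R : ℕ) : ℤ) : ZMod p) := by
    intro t n
    simp only [Z0, Int.cast_add, Int.cast_mul, Int.cast_natCast, ZMod.natCast_zmod_val]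
  have hlab : ∀ n, ∃ lab : G × Fin r → ℕ, (∀ t, lab t < q n) ∧ ∀ t t',
      ((Z0 t n : ZMod p), m n * t.1.1.1 % R) = ((Z0 t' n : ZMod p), m n * t'.1.1.1 % R) →
      lab t = lab t' → t = t' := by
    intro n
    refine exists_label (fun t : G × Fin r => ((Z0 t n : ZMod p), m n * t.1.1.1 % R)) (q n) ?_
    rintro ⟨b, s⟩
    have h1 := fibre_bound G r (m n) (fun g => ((m n : ℤ) : ZMod p) * g.2.1 + l n * g.2.2 +
      (((m n * g.1 / R : ℕ) : ℤ) : ZMod p) = b) (fun j => m n * j % R = s)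
      (mod_fibre R (m n) s (hm n)) ((1 + e) * #G / (R * p * w n))
      (by have := hw n; positivity) (fun j => by
        have := hw n
        rw [le_div_iff₀ (by positivity)]
        have h2 := hGf j n b
        rwa [Fintype.card_fin] at h2)
    simp only [Prod.mk.injEq, hZ0]
    exact_mod_cast h1.trans (hq1 n).1
  choose lab hlab1 hlab2 using hlab
  have hb : ∀ t, ∃ b : ℤ, ∀ n, (q n : ℤ) ∣ (m n * p : ℕ) * b - (lab n t - Z0 t n) := by
    intro t
    refine crt (fun n => (q n : ℤ)) _ _ hq2 (fun n => hq3 n _ ?_ ?_)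
    · have := Nat.mul_pos (hm n) hp; omega
    · have := single_le_sum (f := fun n => m n * p) (fun _ _ => Nat.zero_le _) (mem_univ n)
      rw [Int.natAbs_natCast]; omega
  choose b hb using hb
  have hZ : ∀ t n, ((Z0 t n + (m n * p : ℕ) * b t : ℤ) : ZMod p) = Z0 t n := by
    intro t n; push_cast; simp
  have hM : 0 < ∏ n, q n := prod_pos (fun n _ => hq0 n)
  obtain ⟨X, hX1, hX2⟩ := core_tile p R (∏ n, q n) hp hR hM m q
    (fun n => ∏ n' ∈ univ.erase n, q n') hm hmR (fun n => mul_prod_erase _ _ (mem_univ n)) col hcol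
    (fun t : G × Fin r => t.1.1.1) (fun t n => Z0 t n + (m n * p : ℕ) * b t)
    (fun t n => by rw [hZ, hZ0]; exact hGc _ t.1.2 n) (by
      intro n t t' h1 h2 h3
      rw [hZ, hZ] at h1
      refine hlab2 n t t' (Prod.ext h1 h2) ?_
      have h4 : (q n : ℤ) ∣ lab n t - lab n t' := by
        have := dvd_add (dvd_sub h3 (hb t n)) (hb t' n)
        rwa [show Z0 t n + (m n * p : ℕ) * b t - (Z0 t' n + (m n * p : ℕ) * b t') -
          ((m n * p : ℕ) * b t - (lab n t - Z0 t n)) + ((m n * p : ℕ) * b t' -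
          (lab n t' - Z0 t' n)) = lab n t - lab n t' by ring] at this
      have h5 := hlab1 n t
      have h6 := hlab1 n t'
      have := Int.eq_zero_of_abs_lt_dvd h4 (by rw [abs_lt]; constructor <;> omega)
      omega)
  obtain ⟨u0, u1, ϑ, hϑ⟩ := gauss_lines (fun n => (m n : ℤ)) l q hq0 hq2
    (fun n => hq3 n 2 two_ne_zero (by simp only [Int.reduceAbs]; omega))
    (fun n n' h => hq3 n' _ (sub_ne_zero.2 (hdet n n' h)) (by
      have := single_le_sum (f := fun x : Λ × Λ => (m x.1 * l x.2 - m x.2 * l x.1).natAbs)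
        (fun _ _ => Nat.zero_le _) (mem_univ (n, n'))
      simp only at this
      omega))
  have hMn : ∀ n, ((∏ n, q n : ℕ) : ℝ) = q n * (∏ n' ∈ univ.erase n, q n' : ℕ) := fun n => by
    exact_mod_cast (mul_prod_erase _ _ (mem_univ n)).symm
  have hMn0 : ∀ n, (0 : ℝ) < (∏ n' ∈ univ.erase n, q n' : ℕ) := fun n => by
    exact_mod_cast prod_pos (fun n _ => hq0 n)
  refine ⟨(∏ n, q n) * p * R, G × Fin r, inferInstance, fun n => ∏ n' ∈ univ.erase n, q n', X,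
    u0, u1, fun t => (R * ((t.1.1.2.1.val : ℕ) + p * b t) + (t.1.1.1 : ℕ)) / ((∏ n, q n : ℕ) * p * R),
    fun t => (t.1.1.2.2.val : ℕ) / ((∏ n, q n : ℕ) * p), ϑ, by positivity,
    Dvd.dvd.mul_left hR2 _, ?_, hX1, fun n => ?_, fun n k => by exact_mod_cast hϑ n k, ?_⟩
  · rw [Fintype.card_prod, Fintype.card_coe, Fintype.card_fin]
    exact Nat.mul_pos hG.card_pos hr
  · rw [Fintype.card_prod, Fintype.card_coe, Fintype.card_fin, Nat.cast_mul, Nat.cast_mul,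
      Nat.cast_mul, hMn n]
    have h1 := hq1 n
    have h2 := hMn0 n
    have h3 := hq0' n
    have h4 := hw n
    have h5 := hm' n
    generalize ((∏ n' ∈ univ.erase n, q n' : ℕ) : ℝ) = Mn at h2 ⊢
    have h6 : (m n : ℝ) * (#G * r) / (q n * Mn * p * R) * Mn =
        w n * ((r * (m n * ((1 + e) * #G / (R * p * w n)))) / ((1 + e) * q n)) := by field_simp
    rw [h6]
    generalize (r : ℝ) * (m n * ((1 + e) * #G / (R * p * w n))) = Y at h1
    constructor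
    · refine mul_le_of_le_one_right h4.le ?_
      rw [div_le_one (by positivity)]
      nlinarith
    · rw [mul_left_comm]
      refine le_mul_of_one_le_right h4.le ?_
      rw [mul_div_assoc', le_div_iff₀ (by positivity)]
      nlinarith
  · rintro ⟨t, n, i⟩
    obtain ⟨z, hz⟩ := hX2 (t, ⟨n, i⟩)
    refine ⟨z, ?_⟩
    simp only [Z0] at hz ⊢
    have h1 : (R : ℝ) * ((m n * t.1.1.1 / R : ℕ) : ℝ) + ((m n * t.1.1.1 % R : ℕ) : ℝ) =
        m n * (t.1.1.1 : ℕ) := by exact_mod_cast Nat.div_add_mod (m n * t.1.1.1) R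
    have h2 := congrArg (Int.cast : ℤ → ℝ) hz
    simp only [Int.cast_add, Int.cast_mul, Int.cast_natCast] at h2
    rw [h2, Nat.cast_mul, Nat.cast_mul, Nat.cast_mul, hMn n]
    have h3 := hMn0 n
    have h4 := hq0' n
    generalize ((∏ n' ∈ univ.erase n, q n' : ℕ) : ℝ) = Mn at h3 ⊢
    field_simp
    linear_combination h1

end Vale.Agent.P110
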