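import Mathlib

/-! Tilings of `Nc` cells by slots and their mirror images. -/

namespace Vale.Agent.P110

open Finset

/-- Disjoint slots `[X S, X S + len S)`, disjoint from all mirror images. -/
structure PTile {ι : Type} (Nc : ℕ) (X len : ι → ℕ) : Prop where
  pos : ∀ S, 0 < len S
  le : ∀ S, X S + len S ≤ Nc
  inj : ∀ S S' r r', r < len S → r' < len S' → X S + r = X S' + r' → S = S'
  refl : ∀ S S' r r', r < len S → r' < len S' → X S + r + (X S' + r') + 1 ≠ Nc

/-- Slots which together with their mirror images cover all cells. -/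
structure Tiling {ι : Type} (Nc : ℕ) (X len : ι → ℕ) : Prop extends PTile Nc X len where
  cover : ∀ c < Nc, ∃ S r, r < len S ∧ (c = X S + r ∨ c + (X S + r) + 1 = Nc)

theorem PTile.disj {ι : Type} {Nc : ℕ} {X len : ι → ℕ} (h : PTile Nc X len) (S S' : ι)
    (hne : S ≠ S') : X S + len S ≤ X S' ∨ X S' + len S' ≤ X S := by
  by_contra hc
  have h1 := h.pos S
  have h2 := h.pos S'
  exact hne (h.inj S S' (max (X S) (X S') - X S) (max (X S) (X S') - X S') (by omega) (by omega)
    (by omega))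

theorem PTile.disj' {ι : Type} {Nc : ℕ} {X len : ι → ℕ} (h : PTile Nc X len) (S S' : ι) :
    X S + len S + (X S' + len S') ≤ Nc ∨ Nc ≤ X S + X S' := by
  by_contra hc
  have h1 := h.pos S
  have h2 := h.pos S'
  exact h.refl S S' (min (len S - 1) (Nc - 1 - X S - X S'))
    (Nc - 1 - X S - X S' - min (len S - 1) (Nc - 1 - X S - X S')) (by omega) (by omega) (by omega)

theorem Tiling.sum_eq {ι E : Type} [Fintype ι] [AddCommMonoid E] {Nc : ℕ} {X len : ι → ℕ}
    (h : Tiling Nc X len) (f : ℕ → E) :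
    ∑ c ∈ range Nc, f c = ∑ S, ∑ r ∈ range (len S), (f (X S + r) + f (Nc - 1 - (X S + r))) := by
  classical
  have h1 : ∑ x ∈ (univ.sigma fun S => range (len S)) ×ˢ (univ : Finset Bool),
      f (if x.2 then X x.1.1 + x.1.2 else Nc - 1 - (X x.1.1 + x.1.2)) = ∑ c ∈ range Nc, f c := by
    refine sum_nbij (fun x => if x.2 then X x.1.1 + x.1.2 else Nc - 1 - (X x.1.1 + x.1.2))
      ?_ ?_ ?_ (fun _ _ => rfl)
    · rintro ⟨⟨S, r⟩, s⟩ hx
      simp only [mem_product, mem_sigma, mem_univ, mem_range, true_and, and_true] at hx ⊢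
      have := h.le S
      split_ifs <;> omega
    · rintro ⟨⟨S, r⟩, s⟩ hx ⟨⟨S', r'⟩, s'⟩ hx' he
      simp only [coe_product, Set.mem_prod, mem_coe, mem_sigma, mem_univ, mem_range, true_and,
        and_true] at hx hx' he
      have h2 := h.le S
      have h3 := h.le S'
      cases s <;> cases s' <;> simp only [if_true, Bool.false_eq_true, if_false] at he
      · obtain rfl := h.inj S S' r r' hx hx' (by omega)
        obtain rfl : r = r' := by omega
        rfl
      · exact absurd (by omega) (h.refl S S' r r' hx hx')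
      · exact absurd (by omega) (h.refl S S' r r' hx hx')
      · obtain rfl := h.inj S S' r r' hx hx' he
        obtain rfl : r = r' := by omega
        rfl
    · intro c hc
      obtain ⟨S, r, h2, h3 | h3⟩ := h.cover c (by simpa using hc)
      · exact ⟨(⟨S, r⟩, true), by simpa using h2, by simp [h3]⟩
      · exact ⟨(⟨S, r⟩, false), by simpa using h2, by simp; omega⟩
  rw [← h1, sum_product, sum_sigma]
  simp

theorem Tiling.count {ι : Type} [Fintype ι] {Nc : ℕ} {X len : ι → ℕ} (h : Tiling Nc X len) :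
    2 * ∑ S, len S = Nc := by
  have := h.sum_eq (fun _ => (1 : ℕ))
  simp only [sum_const, card_range, smul_eq_mul, mul_one] at this
  rw [this, mul_sum]
  exact sum_congr rfl (fun _ _ => by ring)

theorem PTile.fill {ι : Type} {Nc : ℕ} {X len : ι → ℕ} (h : PTile Nc X len) (he : 2 ∣ Nc) :
    ∃ (Fr : Type) (_ : Fintype Fr) (Xf : Fr → ℕ),
      Tiling Nc (Sum.elim X Xf) (Sum.elim len (fun _ => 1)) := by
  classical
  refine ⟨{c : Fin Nc // 2 * (c : ℕ) + 1 < Nc ∧
    ¬ ∃ S r, r < len S ∧ ((c : ℕ) = X S + r ∨ c + (X S + r) + 1 = Nc)}, inferInstance,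
    fun c => c.1, ⟨?_, ?_, ?_, ?_⟩, ?_⟩
  · rintro (S | c)
    · exact h.pos S
    · simp
  · rintro (S | c)
    · exact h.le S
    · have := c.1.2
      simp only [Sum.elim_inr]; omega
  · rintro (S | c) (S' | c') r r' h1 h2 h3 <;> simp only [Sum.elim_inl, Sum.elim_inr] at h1 h2 h3
    · rw [h.inj S S' r r' h1 h2 h3]
    · exact absurd ⟨S, r, h1, Or.inl (by omega)⟩ c'.2.2
    · exact absurd ⟨S', r', h2, Or.inl (by omega)⟩ c.2.2
    · congr 1
      exact Subtype.ext (Fin.ext (by omega))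
  · rintro (S | c) (S' | c') r r' h1 h2 h3 <;> simp only [Sum.elim_inl, Sum.elim_inr] at h1 h2 h3
    · exact h.refl S S' r r' h1 h2 h3
    · exact absurd ⟨S, r, h1, Or.inr (by omega)⟩ c'.2.2
    · exact absurd ⟨S', r', h2, Or.inr (by omega)⟩ c.2.2
    · have := c.2.1
      have := c'.2.1
      omega
  · intro c hc
    by_cases h1 : ∃ S r, r < len S ∧ (c = X S + r ∨ c + (X S + r) + 1 = Nc)
    · obtain ⟨S, r, h2⟩ := h1
      exact ⟨Sum.inl S, r, h2⟩
    · by_cases h2 : 2 * c + 1 < Nc
      · exact ⟨Sum.inr ⟨⟨c, hc⟩, h2, h1⟩, 0, by simp, Or.inl rfl⟩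
      · refine ⟨Sum.inr ⟨⟨Nc - 1 - c, by omega⟩, by simp only; omega, ?_⟩, 0, by simp,
          Or.inr (by simp only [Sum.elim_inr]; omega)⟩
        rintro ⟨S, r, h3, h4⟩
        simp only at h4
        exact h1 ⟨S, r, h3, by omega⟩

theorem window_sum {A : Type} [Fintype A] (x c : ℝ) (hc : 0 ≤ c) (P : A → Prop) [DecidablePred P]
    (hP : ∀ a, P a → -1 / 2 + ((Fintype.equivFin A a : ℕ) : ℝ) / Fintype.card A ≤ x ∧
      x < -1 / 2 + ((Fintype.equivFin A a : ℕ) : ℝ) / Fintype.card A + 1 / Fintype.card A) :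
    ∑ a, (if P a then c else 0) ≤ c := by
  rw [← sum_filter, sum_const, nsmul_eq_mul]
  refine mul_le_of_le_one_left hc ?_
  rw [Nat.cast_le_one, card_le_one]
  intro a ha b hb
  replace ha := hP a (mem_filter.1 ha).2
  replace hb := hP b (mem_filter.1 hb).2
  have h0 : (0 : ℝ) < Fintype.card A := by
    exact_mod_cast lt_of_le_of_lt (Nat.zero_le _) (Fintype.equivFin A a).2
  apply (Fintype.equivFin A).injective
  apply Fin.ext
  have h1 := ha.1.trans_lt hb.2
  have h2 := hb.1.trans_lt ha.2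
  rw [add_assoc, add_lt_add_iff_left, ← add_div, div_lt_div_iff_of_pos_right h0] at h1 h2
  have h3 : (Fintype.equivFin A a : ℕ) < (Fintype.equivFin A b : ℕ) + 1 := by exact_mod_cast h1
  have h4 : (Fintype.equivFin A b : ℕ) < (Fintype.equivFin A a : ℕ) + 1 := by exact_mod_cast h2
  omega

end Vale.Agent.P110
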