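import Vale.Agent.P110.Slot
import Vale.Agent.P110.Tile

/-! Gluing the slots into one unimodular periodic function. -/

namespace Vale.Agent.P110

open Complex Finset MeasureTheory

theorem int_out {f : ℝ → ℝ} {p q : ℝ} (hf : Continuous f) (hz : ∀ x, x ≤ p ∨ q ≤ x → f x = 0)
    (hi : ∃ z : ℤ, ∫ x in p..q, f x = z) (u v : ℝ) (hu : u ≤ p ∨ q ≤ u) (hv : v ≤ p ∨ q ≤ v) :
    ∃ z : ℤ, ∫ x in u..v, f x = z := by
  have h1 : ∀ u, u ≤ p ∨ q ≤ u → ∃ z : ℤ, ∫ x in p..u, f x = z := by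
    rintro u (h | h)
    · refine ⟨0, ?_⟩
      rw [intervalIntegral.integral_congr (g := fun _ => 0)]
      · simp
      · intro x hx
        rw [Set.uIcc_of_ge h] at hx
        exact hz x (Or.inl hx.2)
    · obtain ⟨z, hz'⟩ := hi
      refine ⟨z, ?_⟩
      rw [← intervalIntegral.integral_add_adjacent_intervals (b := q) (hf.intervalIntegrable _ _)
        (hf.intervalIntegrable _ _), hz', intervalIntegral.integral_congr (g := fun _ => 0)]
      · simp
      · intro x hx
        rw [Set.uIcc_of_le h] at hx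
        exact hz x (Or.inr hx.1)
  obtain ⟨z1, h2⟩ := h1 u hu
  obtain ⟨z2, h3⟩ := h1 v hv
  refine ⟨z2 - z1, ?_⟩
  rw [← intervalIntegral.integral_interval_sub_left (a := p) (hf.intervalIntegrable _ _)
    (hf.intervalIntegrable _ _), h2, h3]
  push_cast; rfl

theorem fract_lip {f : ℝ → ℝ} {L : ℝ} (hL : 0 ≤ L) (hf : ∀ x y, |f x - f y| ≤ L * |x - y|)
    (h01 : f 0 = f 1) (x y : ℝ) : |f (Int.fract x) - f (Int.fract y)| ≤ L * |x - y| := by
  wlog h : x ≤ y generalizing x y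
  · rw [abs_sub_comm, abs_sub_comm x]; exact this y x (le_of_not_ge h)
  rcases (Int.floor_le_floor h).eq_or_lt with h1 | h1
  · refine (hf _ _).trans (le_of_eq ?_)
    rw [Int.fract, Int.fract, h1, sub_sub_sub_cancel_right]
  · have h2 : (⌊x⌋ : ℝ) + 1 ≤ ⌊y⌋ := by exact_mod_cast h1
    have h3 := hf (Int.fract x) 1
    have h4 := hf 0 (Int.fract y)
    have h5 := Int.fract_lt_one x
    have h6 := Int.fract_nonneg y
    rw [abs_sub_comm (Int.fract x), abs_of_nonneg (show 0 ≤ 1 - Int.fract x by linarith)] at h3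
    rw [zero_sub, abs_neg, abs_of_nonneg h6] at h4
    have h7 := abs_sub_le (f (Int.fract x)) (f 1) (f (Int.fract y))
    rw [h01] at h4
    rw [abs_sub_comm x, abs_of_nonneg (show 0 ≤ y - x by linarith)]
    have h8 : 1 - Int.fract x + Int.fract y ≤ y - x := by unfold Int.fract; linarith
    nlinarith [mul_le_mul_of_nonneg_left h8 hL]

/-- From a symmetric Lipschitz slope function on `[0, 1]` to a periodic unimodular function. -/
theorem periodize (β : ℝ → ℝ) (L W : ℝ) (hL : 0 ≤ L) (hβ : ∀ x y, |β x - β y| ≤ L * |x - y|)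
    (hs : ∀ x, β (1 - x) = β x) (hW : ∀ x, |β x| ≤ W) (hi : ∃ z : ℤ, ∫ x in (0 : ℝ)..1, β x = z) :
    ∃ g : ℝ → ℂ, Continuous g ∧ Function.Periodic g 1 ∧ (∀ θ, ‖g θ‖ = 1) ∧
      (∀ θ, ∃ s : ℝ, |s| ≤ W ∧ ∀ u, ‖g (θ + u) - g θ * ee (s * u)‖ ≤ 7 * L * u ^ 2) ∧
      (∀ θ ∈ Set.Icc (0 : ℝ) 1, g θ = ee (∫ x in (0 : ℝ)..θ, β x)) ∧
      ∀ θ ∈ Set.Icc (0 : ℝ) 1, g (1 - θ) = (starRingEnd ℂ) (g θ) := by
  have h01 : β 0 = β 1 := by rw [← hs 1, sub_self]
  have h1 := fract_lip hL hβ h01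
  have hc := cont_of_lip (b := fun x => β (Int.fract x)) h1
  have hc' := cont_of_lip hβ
  have h2 : ∀ θ ∈ Set.Icc (0 : ℝ) 1, ∫ x in (0 : ℝ)..θ, β (Int.fract x) =
      ∫ x in (0 : ℝ)..θ, β x := by
    intro θ hθ
    refine intervalIntegral.integral_congr (fun x hx => ?_)
    rw [Set.uIcc_of_le hθ.1] at hx
    rcases (hx.2.trans hθ.2).eq_or_lt with h | h
    · simp only [h, Int.fract_one, h01]
    · simp only [Int.fract_eq_self.2 ⟨hx.1, h⟩]
  obtain ⟨z, hz⟩ := hi
  refine ⟨fun θ => ee (∫ x in (0 : ℝ)..θ, β (Int.fract x)),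
    cont_ee (fun θ => (hc.integral_hasStrictDerivAt 0 θ).hasDerivAt), fun θ => ?_,
    fun _ => norm_ee _, fun θ => ⟨β (Int.fract θ), hW _, fun u => ?_⟩,
    fun θ hθ => by simp only [h2 θ hθ], fun θ hθ => ?_⟩
  · refine ee_congr z ?_
    have hp : Function.Periodic (fun x => β (Int.fract x)) 1 := fun x => by simp
    rw [← intervalIntegral.integral_add_adjacent_intervals (b := θ) (hc.intervalIntegrable _ _)
      (hc.intervalIntegrable _ _), hp.intervalIntegral_add_eq θ 0, zero_add, h2 1 (by simp), hz]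
  · rw [← ee_add]
    refine (norm_ee_sub _ _).trans ?_
    rw [← intervalIntegral.integral_add_adjacent_intervals (b := θ) (hc.intervalIntegrable _ _)
      (hc.intervalIntegrable _ _), add_sub_add_left_eq_sub]
    have h3 : (∫ x in θ..(θ + u), β (Int.fract x)) - β (Int.fract θ) * u =
        ∫ x in θ..(θ + u), (β (Int.fract x) - β (Int.fract θ)) := by
      rw [intervalIntegral.integral_sub (hc.intervalIntegrable _ _) (by simp)]
      simp [mul_comm]
    have h4 := intervalIntegral.norm_integral_le_of_norm_le_const (a := θ) (b := θ + u)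
      (f := fun x => β (Int.fract x) - β (Int.fract θ)) (C := L * |u|) (fun x hx => by
        refine (h1 x θ).trans (mul_le_mul_of_nonneg_left ?_ hL)
        have := Set.abs_sub_left_of_mem_uIcc (Set.uIoc_subset_uIcc hx)
        rwa [add_sub_cancel_left] at this)
    rw [add_sub_cancel_left, Real.norm_eq_abs, mul_assoc, ← sq, sq_abs] at h4
    rw [h3, mul_assoc 7]
    exact mul_le_mul (by linarith [Real.pi_lt_d2]) h4 (abs_nonneg _) (by norm_num)
  · simp only
    rw [h2 θ hθ, h2 (1 - θ) ⟨by linarith [hθ.2], by linarith [hθ.1]⟩, conj_ee]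
    refine ee_congr z ?_
    have h3 := intervalIntegral.integral_comp_sub_left β (a := 0) (b := θ) 1
    simp only [hs, sub_zero] at h3
    rw [← hz, h3, ← intervalIntegral.integral_add_adjacent_intervals (a := 0) (b := 1 - θ) (c := 1)
      (hc'.intervalIntegrable _ _) (hc'.intervalIntegrable _ _)]
    ring

theorem Tiling.integral {ι : Type} [Fintype ι] {Nc : ℕ} {X len : ι → ℕ} (hT : Tiling Nc X len)
    (hN : 0 < Nc) (G : ℝ → ℂ) (hG : Continuous G)
    (hr : ∀ θ ∈ Set.Icc (0 : ℝ) 1, G (1 - θ) = (starRingEnd ℂ) (G θ)) :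
    ∫ x in (0 : ℝ)..1, G x =
      ((∑ S, 2 * (∫ x in (X S / Nc : ℝ)..((X S + len S) / Nc), G x).re : ℝ) : ℂ) := by
  have hN' : (0 : ℝ) < Nc := by exact_mod_cast hN
  have h1 : ∀ p n : ℕ, ∑ r ∈ range n, ∫ x in ((p + r : ℕ) / Nc : ℝ)..((p + r + 1 : ℕ) / Nc), G x =
      ∫ x in (p / Nc : ℝ)..((p + n) / Nc), G x := by
    intro p n
    have := intervalIntegral.sum_integral_adjacent_intervals (f := G) (μ := volume)
      (a := fun r => ((p + r : ℕ) / Nc : ℝ)) (n := n) (fun _ _ => hG.intervalIntegrable _ _)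
    simpa [add_assoc] using this
  have h2 := h1 0 Nc
  simp only [zero_add, Nat.cast_zero, zero_div, div_self hN'.ne'] at h2
  rw [← h2, hT.sum_eq (fun c => ∫ x in (c / Nc : ℝ)..((c + 1 : ℕ) / Nc), G x), ofReal_sum]
  refine sum_congr rfl (fun S _ => ?_)
  rw [← h1, ← Complex.add_conj, map_sum, ← sum_add_distrib]
  refine sum_congr rfl (fun r hr' => ?_)
  congr 1
  have h3 := hT.le S
  rw [mem_range] at hr'
  obtain ⟨c, hc⟩ : ∃ c, Nc = X S + r + 1 + c := ⟨Nc - (X S + r + 1), by omega⟩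
  have hc' : (Nc : ℝ) = X S + r + 1 + c := by exact_mod_cast hc
  rw [show Nc - 1 - (X S + r) = c by omega, ← intervalIntegral.intervalIntegral_conj,
    show (c / Nc : ℝ) = 1 - (X S + r + 1 : ℕ) / Nc by push_cast; field_simp; linarith,
    show ((c + 1 : ℕ) / Nc : ℝ) = 1 - (X S + r : ℕ) / Nc by push_cast; field_simp; linarith,
    ← intervalIntegral.integral_comp_sub_left G 1]
  refine intervalIntegral.integral_congr (fun x hx => hr x ?_)
  rw [Set.uIcc_of_le (div_le_div_of_nonneg_right (by exact_mod_cast Nat.le_succ _) hN'.le)] at hx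
  refine ⟨le_trans (by positivity) hx.1, hx.2.trans ?_⟩
  rw [div_le_one hN']
  exact_mod_cast (by omega)

theorem glue {ι : Type} [Fintype ι] {Nc : ℕ} {X len : ι → ℕ} (hT : Tiling Nc X len) (hN : 0 < Nc)
    (σ : ℤ) (b : ι → ℝ → ℝ) (L W : ℝ) (hL0 : 0 ≤ L)
    (hL : ∀ S x y, |b S x - b S y| ≤ L * |x - y|)
    (hz : ∀ S (x : ℝ), x ≤ X S / Nc ∨ (X S + len S) / Nc ≤ x → b S x = 0)
    (hW : ∀ S x, |σ + b S x| ≤ W) (hW0 : |(σ : ℝ)| ≤ W)
    (hi : ∀ S, ∃ z : ℤ, ∫ x in (X S / Nc : ℝ)..((X S + len S) / Nc), b S x = z) :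
    ∃ g : ℝ → ℂ, Continuous g ∧ Function.Periodic g 1 ∧ (∀ θ, ‖g θ‖ = 1) ∧
      (∀ θ, ∃ s : ℝ, |s| ≤ W ∧
        ∀ u, ‖g (θ + u) - g θ * ee (s * u)‖ ≤ 7 * (Fintype.card ι * (2 * L)) * u ^ 2) ∧
      ∀ k : ℤ, ∫ x in (0 : ℝ)..1, g x * ee (-(k * x)) =
        ((∑ S, 2 * (∫ θ in (X S / Nc : ℝ)..((X S + len S) / Nc),
          ee (σ * θ + (∫ x in (X S / Nc : ℝ)..θ, b S x) - k * θ)).re : ℝ) : ℂ) := by
  classical
  have hN' : (0 : ℝ) < Nc := by exact_mod_cast hN
  have hc : ∀ S, Continuous (b S) := fun S => cont_of_lip (hL S)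
  have hp0 : ∀ S, (0 : ℝ) ≤ X S / Nc := fun S => by positivity
  have hp1 : ∀ S, ((X S + len S) / Nc : ℝ) ≤ 1 := fun S => by
    rw [div_le_one hN']; exact_mod_cast hT.le S
  have hd1 : ∀ S S', S ≠ S' → ∀ x ∈ Set.Icc (X S / Nc : ℝ) ((X S + len S) / Nc),
      x ≤ X S' / Nc ∨ (X S' + len S') / Nc ≤ x := by
    intro S S' h x hx
    rcases hT.disj S S' h with h1 | h1
    · exact Or.inl (hx.2.trans (by gcongr; exact_mod_cast h1))
    · exact Or.inr (le_trans (by gcongr; exact_mod_cast h1) hx.1)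
  have hd2 : ∀ S S', ∀ x ∈ Set.Icc (X S / Nc : ℝ) ((X S + len S) / Nc),
      1 - x ≤ X S' / Nc ∨ (X S' + len S') / Nc ≤ 1 - x := by
    intro S S' x hx
    rcases hT.disj' S S' with h1 | h1
    · right
      have h2 : ((X S + len S) / Nc + (X S' + len S') / Nc : ℝ) ≤ 1 := by
        rw [← add_div, div_le_one hN']; exact_mod_cast h1
      linarith [hx.2]
    · left
      have h2 : 1 ≤ (X S / Nc + X S' / Nc : ℝ) := by
        rw [← add_div, one_le_div hN']; exact_mod_cast h1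
      linarith [hx.1]
  let β : ℝ → ℝ := fun x => σ + ∑ S, (b S x + b S (1 - x))
  have hs : ∀ x, β (1 - x) = β x := fun x => by
    simp only [β, sub_sub_cancel, add_comm (b _ x)]
  have hloc : ∀ S, ∀ x ∈ Set.Icc (X S / Nc : ℝ) ((X S + len S) / Nc), β x = σ + b S x := by
    intro S x hx
    simp only [β]
    rw [sum_eq_single S, hz S _ (hd2 S S x hx), add_zero]
    · intro S' _ h
      rw [hz S' _ (hd2 S S' x hx), hz S' _ (hd1 S S' h.symm x hx), add_zero]
    · simp
  have hint : ∀ u : ℝ, (∀ S, u ≤ X S / Nc ∨ (X S + len S) / Nc ≤ u) →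
      (∀ S, 1 - u ≤ X S / Nc ∨ (X S + len S) / Nc ≤ 1 - u) →
      ∃ z : ℤ, ∫ x in (0 : ℝ)..u, β x = σ * u + z := by
    intro u h1 h2
    choose z1 hz1 using fun S => int_out (hc S) (hz S) (hi S) 0 u (Or.inl (hp0 S)) (h1 S)
    choose z2 hz2 using fun S => int_out (hc S) (hz S) (hi S) (1 - u) 1 (h2 S) (Or.inr (hp1 S))
    refine ⟨∑ S, (z1 S + z2 S), ?_⟩
    simp only [β]
    rw [intervalIntegral.integral_add (by simp) (Continuous.intervalIntegrable (by fun_prop) _ _),
      intervalIntegral.integral_finsetSum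
        (fun _ _ => Continuous.intervalIntegrable (by fun_prop) _ _)]
    push_cast
    congr 1
    · simp [mul_comm]
    · refine sum_congr rfl (fun S _ => ?_)
      rw [intervalIntegral.integral_add ((hc S).intervalIntegrable _ _)
        (Continuous.intervalIntegrable (by fun_prop) _ _), hz1,
        intervalIntegral.integral_comp_sub_left (b S) 1, sub_zero, hz2]
  have hβc : Continuous β := by simp only [β]; fun_prop
  obtain ⟨g, g1, g2, g3, g4, g5, g6⟩ := periodize β (Fintype.card ι * (2 * L)) W (by positivity)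
    (fun x y => by
      simp only [β]
      rw [add_sub_add_left_eq_sub, ← sum_sub_distrib]
      refine (abs_sum_le_sum_abs _ _).trans ((sum_le_sum (g := fun _ => 2 * L * |x - y|)
        (fun S _ => ?_)).trans (by rw [sum_const, card_univ, nsmul_eq_mul, mul_assoc _ (2 * L)]))
      have h1 := hL S x y
      have h2 := hL S (1 - x) (1 - y)
      rw [sub_sub_sub_cancel_left, abs_sub_comm y] at h2
      rw [add_sub_add_comm]
      linarith [abs_add_le (b S x - b S y) (b S (1 - x) - b S (1 - y))]) hs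
    (fun x => by
      have h1 : ∀ x, (∃ S, b S x ≠ 0) → |β x| ≤ W := by
        rintro x ⟨S, h⟩
        have h2 := mt (hz S x) h
        push Not at h2
        rw [hloc S x ⟨h2.1.le, h2.2.le⟩]
        exact hW S x
      by_cases h2 : ∃ S, b S x ≠ 0
      · exact h1 x h2
      by_cases h3 : ∃ S, b S (1 - x) ≠ 0
      · rw [← hs]; exact h1 _ h3
      push Not at h2 h3
      simpa [β, h2, h3] using hW0)
    (by
      obtain ⟨z, hz⟩ := hint 1 (fun S => Or.inr (hp1 S)) (fun S => Or.inl (by simpa using hp0 S))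
      exact ⟨σ + z, by rw [hz]; push_cast; ring⟩)
  refine ⟨g, g1, g2, g3, g4, fun k => ?_⟩
  rw [hT.integral hN _ (by fun_prop) (fun θ hθ => by
    rw [g6 θ hθ, map_mul, conj_ee]
    congr 1
    exact ee_congr (-k) (by push_cast; ring))]
  congr 1
  refine sum_congr rfl (fun S _ => ?_)
  congr 2
  have hle : (X S / Nc : ℝ) ≤ (X S + len S) / Nc := by gcongr; simp
  refine intervalIntegral.integral_congr (fun θ hθ => ?_)
  rw [Set.uIcc_of_le hle] at hθ
  obtain ⟨z, hz'⟩ := hint (X S / Nc) (fun S' => by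
    by_cases h : S = S'
    · subst h; exact Or.inl le_rfl
    · exact hd1 S S' h _ (Set.left_mem_Icc.2 hle)) (fun S' => hd2 S S' _ (Set.left_mem_Icc.2 hle))
  rw [g5 θ ⟨(hp0 S).trans hθ.1, hθ.2.trans (hp1 S)⟩, ← ee_add,
    ← intervalIntegral.integral_add_adjacent_intervals (b := (X S / Nc : ℝ))
      (hβc.intervalIntegrable _ _) (hβc.intervalIntegrable _ _), hz',
    intervalIntegral.integral_congr (g := fun x => σ + b S x) (fun x hx => by
      rw [Set.uIcc_of_le hθ.1] at hx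
      exact hloc S x ⟨hx.1, hx.2.trans hθ.2⟩),
    intervalIntegral.integral_add (by simp) ((hc S).intervalIntegrable _ _)]
  refine ee_congr z ?_
  simp only [intervalIntegral.integral_const, smul_eq_mul]
  ring

end Vale.Agent.P110
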