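import Mathlib

/-! Half colourings by the entropy method (fourth moment version). -/

namespace Vale.Agent.P110

open Finset

/-- The sign attached to a Boolean. -/
def sg (b : Bool) : ℝ := if b then 1 else -1

theorem fourth_moment (n : ℕ) (v : Fin n → ℝ) (hv : ∀ k, |v k| ≤ 1) (x : ℝ) :
    ∑ σ : Fin n → Bool, (x + ∑ k, sg (σ k) * v k) ^ 4 ≤
      2 ^ n * (x ^ 4 + 6 * n * x ^ 2 + 3 * n ^ 2) := by
  induction n generalizing x with
  | zero => simp
  | succ n ih =>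
    rw [← (Fin.consEquiv (fun _ : Fin (n + 1) => Bool)).sum_comp, Fintype.sum_prod_type]
    simp only [Fin.consEquiv_apply, Fin.sum_univ_succ, Fin.cons_zero, Fin.cons_succ,
      Fintype.sum_bool, ← add_assoc]
    have h1 := ih (fun k => v k.succ) (fun k => hv _) (x + sg true * v 0)
    have h2 := ih (fun k => v k.succ) (fun k => hv _) (x + sg false * v 0)
    have h3 : v 0 ^ 2 ≤ 1 := by
      have := hv 0
      rw [← sq_abs]; nlinarith [abs_nonneg (v 0)]
    have h4 : 0 ≤ v 0 ^ 2 := sq_nonneg _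
    simp only [sg, if_true, Bool.false_eq_true, if_false] at h1 h2 ⊢
    have h5 : (0 : ℝ) < 2 ^ n := by positivity
    have h6 : (x + 1 * v 0) ^ 4 + 6 * n * (x + 1 * v 0) ^ 2 + 3 * n ^ 2 +
        ((x + -1 * v 0) ^ 4 + 6 * n * (x + -1 * v 0) ^ 2 + 3 * n ^ 2) ≤
        2 * (x ^ 4 + 6 * (n + 1 : ℕ) * x ^ 2 + 3 * (n + 1 : ℕ) ^ 2) := by
      push_cast
      have hn : (0 : ℝ) ≤ n := Nat.cast_nonneg n
      nlinarith [sq_nonneg x, mul_le_mul_of_nonneg_left h3 (sq_nonneg x),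
        mul_le_mul_of_nonneg_left h3 hn, mul_le_mul_of_nonneg_left h3 h4]
    calc _ ≤ 2 ^ n * ((x + 1 * v 0) ^ 4 + 6 * n * (x + 1 * v 0) ^ 2 + 3 * n ^ 2 +
        ((x + -1 * v 0) ^ 4 + 6 * n * (x + -1 * v 0) ^ 2 + 3 * n ^ 2)) := by linarith
      _ ≤ 2 ^ n * (2 * (x ^ 4 + 6 * (n + 1 : ℕ) * x ^ 2 + 3 * (n + 1 : ℕ) ^ 2)) :=
        mul_le_mul_of_nonneg_left h6 h5.le
      _ = _ := by ring

theorem geom_int (δ : ℝ) (h0 : 0 ≤ δ) (h1 : δ ≤ 1 / 2) (L : ℕ) :
    ∑ t ∈ Icc (-(L : ℤ)) L, δ ^ t.natAbs ≤ 1 + 4 * δ - 4 * δ ^ (L + 1) := by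
  induction L with
  | zero => simp
  | succ L ih =>
    have e : Icc (-((L + 1 : ℕ) : ℤ)) (L + 1 : ℕ) =
        insert (-((L + 1 : ℕ) : ℤ)) (insert ((L + 1 : ℕ) : ℤ) (Icc (-(L : ℤ)) L)) := by
      ext t; simp only [mem_Icc, mem_insert]; push_cast; omega
    rw [e, sum_insert (by simp only [mem_Icc, mem_insert]; push_cast; omega),
      sum_insert (by simp only [mem_Icc]; push_cast; omega)]
    simp only [Int.natAbs_neg, Int.natAbs_natCast]
    have : 0 ≤ δ ^ (L + 1) := by positivity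
    have h2 : δ ^ (L + 1 + 1) = δ ^ (L + 1) * δ := pow_succ _ _
    nlinarith

/-- Gibbs inequality: a map whose fibres are small has a large cross entropy. -/
theorem gibbs {Ω β : Type} [Fintype Ω] [DecidableEq β] (b : Ω → β) (w : β → ℝ)
    (hw : ∀ t, 0 < w t) (hs : ∑ t ∈ univ.image b, w t ≤ 1) (B : ℝ) (hB : 0 < B)
    (hf : ∀ σ, ((univ.filter (fun τ => b τ = b σ)).card : ℝ) ≤ B) :
    (Fintype.card Ω : ℝ) * Real.log (Fintype.card Ω / B) ≤ ∑ σ, - Real.log (w (b σ)) := by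
  rcases isEmpty_or_nonempty Ω with h | h
  · simp
  have hc : (0 : ℝ) < Fintype.card Ω := by exact_mod_cast Fintype.card_pos
  set f : Ω → ℝ := fun σ => ((univ.filter (fun τ => b τ = b σ)).card : ℝ) with hfd
  have hf0 : ∀ σ, 0 < f σ := fun σ => by
    simp only [hfd]
    exact_mod_cast card_pos.2 ⟨σ, by simp⟩
  have h1 : ∀ σ, Real.log (w (b σ)) + Real.log (Fintype.card Ω / B) ≤
      w (b σ) * Fintype.card Ω / f σ - 1 := by
    intro σ
    have := hw (b σ)
    have := hf0 σ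
    rw [← Real.log_mul (by positivity) (by positivity)]
    refine le_trans (Real.log_le_log (by positivity) ?_)
      (Real.log_le_sub_one_of_pos (by positivity))
    rw [mul_div_assoc]
    exact mul_le_mul_of_nonneg_left (div_le_div_of_nonneg_left hc.le (hf0 σ) (hf σ)) (hw _).le
  have h2 : ∑ σ, w (b σ) * Fintype.card Ω / f σ = (∑ t ∈ univ.image b, w t) * Fintype.card Ω := by
    rw [← sum_fiberwise_of_maps_to (t := univ.image b) (g := b)
      (fun σ _ => mem_image_of_mem b (mem_univ σ)), sum_mul]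
    refine sum_congr rfl (fun t ht => ?_)
    obtain ⟨σ0, _, rfl⟩ := mem_image.1 ht
    rw [sum_congr rfl (g := fun _ => w (b σ0) * Fintype.card Ω / f σ0)]
    · rw [sum_const, nsmul_eq_mul]
      have := hf0 σ0
      change f σ0 * _ = _
      field_simp
    · intro σ hσ
      have := (mem_filter.1 hσ).2
      simp only [hfd, this]
  have h3 := sum_le_sum (s := univ) (fun σ _ => h1 σ)
  rw [sum_add_distrib, sum_sub_distrib, h2, sum_const, sum_const, card_univ, nsmul_eq_mul,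
    nsmul_eq_mul] at h3
  rw [sum_neg_distrib]
  nlinarith

theorem ball_card (n : ℕ) (σ : Fin n → Bool) :
    ((univ.filter (fun τ : Fin n → Bool =>
      10 * (univ.filter (fun k => τ k ≠ σ k)).card ≤ n)).card : ℝ) ≤
      Real.exp (n / 10 * Real.log 4) * (5 / 4) ^ n := by
  have h1 : ∑ τ : Fin n → Bool, ∏ k, (if τ k = σ k then (1 : ℝ) else 1 / 4) = (5 / 4) ^ n := by
    have := Finset.prod_univ_sum (fun _ : Fin n => (univ : Finset Bool))
      (fun k b => if b = σ k then (1 : ℝ) else 1 / 4)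
    rw [Fintype.piFinset_univ] at this
    rw [← this]
    have h2 : ∀ k, ∑ b : Bool, (if b = σ k then (1 : ℝ) else 1 / 4) = 5 / 4 := by
      intro k; cases σ k <;> simp <;> norm_num
    rw [prod_congr rfl (fun k _ => h2 k), prod_const, card_univ, Fintype.card_fin]
  rw [← h1, mul_sum, card_eq_sum_ones, Nat.cast_sum, sum_filter]
  refine sum_le_sum (fun τ _ => ?_)
  have h3 : ∏ k, (if τ k = σ k then (1 : ℝ) else 1 / 4) =
      Real.exp (-((univ.filter (fun k => τ k ≠ σ k)).card * Real.log 4)) := by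
    rw [prod_ite, prod_const_one, one_mul, prod_const, Real.exp_neg, Real.exp_nat_mul,
      Real.exp_log (by norm_num), one_div, inv_pow]
  rw [h3, ← Real.exp_add]
  split_ifs with h
  · rw [Nat.cast_one]
    refine Real.one_le_exp ?_
    have h4 : (10 : ℝ) * (univ.filter (fun k => τ k ≠ σ k)).card ≤ n := by exact_mod_cast h
    have h5 : 0 < Real.log 4 := Real.log_pos (by norm_num)
    nlinarith
  · positivity

theorem log_const : 1 / 4 < Real.log (8 / 5) - Real.log 4 / 10 := by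
  have h1 : Real.log 4 = 2 * Real.log 2 := by
    rw [show (4 : ℝ) = 2 ^ 2 by norm_num, Real.log_pow]; norm_num
  have h2 : Real.log (8 / 5) = Real.log 2 - Real.log (5 / 4) := by
    rw [← Real.log_div (by norm_num) (by norm_num)]; norm_num
  have h3 : Real.log (5 / 4) ≤ 5 / 4 - 1 := Real.log_le_sub_one_of_pos (by norm_num)
  have := Real.log_two_gt_d9
  linarith

theorem floor_le_pow (x : ℝ) : ((⌊x / 2 + 1 / 2⌋).natAbs : ℝ) ≤ x ^ 4 := by
  rw [Nat.cast_natAbs, Int.cast_abs]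
  have h1 := Int.floor_le (x / 2 + 1 / 2)
  have h2 := Int.lt_floor_add_one (x / 2 + 1 / 2)
  by_cases h : |x| < 1
  · have : ⌊x / 2 + 1 / 2⌋ = 0 := by
      rw [Int.floor_eq_zero_iff]
      rw [abs_lt] at h
      constructor <;> linarith [h.1, h.2]
    rw [this]; simp; positivity
  · have h3 : 1 ≤ |x| := not_lt.1 h
    have h4 : |(⌊x / 2 + 1 / 2⌋ : ℝ)| ≤ |x| := by
      rw [abs_le]
      constructor <;> cases abs_cases x <;> linarith
    have h5 : x ^ 4 = |x| ^ 4 := by rw [← abs_pow]; exact (abs_of_nonneg (by positivity)).symm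
    rw [h5]
    exact h4.trans (le_self_pow₀ h3 (by norm_num))

theorem weight_sum {Ω J : Type} [Fintype Ω] [Fintype J] [DecidableEq J] (b : Ω → J → ℤ) (δ : ℝ)
    (hδ0 : 0 < δ) (hδ1 : δ ≤ 1 / 2) :
    ∑ t ∈ univ.image b, ∏ j, (δ ^ (t j).natAbs / (1 + 4 * δ)) ≤ 1 := by
  obtain ⟨L, hL⟩ : ∃ L : ℕ, ∀ σ j, (b σ j).natAbs ≤ L :=
    ⟨univ.sup (fun p : Ω × J => (b p.1 p.2).natAbs), fun σ j =>
      le_sup (f := fun p : Ω × J => (b p.1 p.2).natAbs) (mem_univ (σ, j))⟩
  have h1 : univ.image b ⊆ Fintype.piFinset (fun _ : J => Icc (-(L : ℤ)) L) := by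
    intro t ht
    obtain ⟨σ, _, rfl⟩ := mem_image.1 ht
    rw [Fintype.mem_piFinset]
    intro j
    have := hL σ j
    rw [mem_Icc]; omega
  refine (sum_le_sum_of_subset_of_nonneg h1
    (fun t _ _ => prod_nonneg (fun j _ => by positivity))).trans ?_
  rw [← prod_univ_sum (fun _ : J => Icc (-(L : ℤ)) L) (fun _ t => δ ^ t.natAbs / (1 + 4 * δ))]
  refine prod_le_one (fun j _ => sum_nonneg (fun t _ => by positivity)) (fun j _ => ?_)
  rw [← sum_div, div_le_one (by positivity)]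
  have := geom_int δ hδ0.le hδ1 L
  have : 0 ≤ δ ^ (L + 1) := by positivity
  linarith

theorem cost_one (l x : ℝ) (hl0 : 0 < l) :
    - Real.log ((1 / l ^ 4) ^ (⌊x / 2 + 1 / 2⌋).natAbs / (1 + 4 * (1 / l ^ 4))) ≤
      4 * (1 / l ^ 4) + 4 * l * x ^ 4 := by
  have hlogδ : - Real.log (1 / l ^ 4) ≤ 4 * l := by
    rw [one_div, Real.log_inv, neg_neg, Real.log_pow]
    have := Real.log_le_sub_one_of_pos hl0
    push_cast
    linarith
  rw [Real.log_div (by positivity) (by positivity), Real.log_pow]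
  have h1 := Real.log_le_sub_one_of_pos (show 0 < 1 + 4 * (1 / l ^ 4) by positivity)
  have h2 := floor_le_pow x
  have h3 : (0 : ℝ) ≤ (⌊x / 2 + 1 / 2⌋).natAbs := Nat.cast_nonneg _
  have h4 := mul_le_mul_of_nonneg_left hlogδ h3
  have h5 := mul_le_mul_of_nonneg_left h2 (show 0 ≤ 4 * l by positivity)
  linarith

theorem cost_sum (n : ℕ) (v : Fin n → ℝ) (hv : ∀ k, |v k| ≤ 1) (l D : ℝ) (hl4 : 2 ≤ l)
    (hD : 0 < D) (hl2 : l ^ 2 * n = D ^ 2) :
    ∑ σ : Fin n → Bool, (4 * (1 / l ^ 4) + 4 * l * ((∑ k, sg (σ k) * v k) / D) ^ 4) ≤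
      2 ^ n * (14 / l ^ 3) := by
  have hl0 : 0 < l := by linarith
  have h2 := fourth_moment n v hv 0
  simp only [zero_add, ne_eq, OfNat.ofNat_ne_zero, not_false_eq_true, zero_pow, mul_zero,
    add_zero] at h2
  have hcard : (Fintype.card (Fin n → Bool) : ℝ) = 2 ^ n := by simp
  rw [sum_add_distrib, sum_const, card_univ, nsmul_eq_mul, hcard, ← mul_sum]
  simp only [div_pow, ← sum_div]
  have h3 : D ^ 4 = l ^ 4 * n ^ 2 := by
    rw [show D ^ 4 = (D ^ 2) ^ 2 by ring, ← hl2]; ring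
  generalize ∑ σ : Fin n → Bool, (∑ k, sg (σ k) * v k) ^ 4 = X at h2 ⊢
  have h4 : X / D ^ 4 ≤ 2 ^ n * (3 / l ^ 4) := by
    rw [div_le_iff₀ (by positivity), h3]
    refine h2.trans (le_of_eq ?_)
    field_simp
  have h5 : 4 * (1 / l ^ 4) + 4 * l * (3 / l ^ 4) ≤ 14 / l ^ 3 := by
    have : 4 * (1 / l ^ 4) + 4 * l * (3 / l ^ 4) = (4 / l + 12) / l ^ 3 := by field_simp; ring
    rw [this]
    refine div_le_div_of_nonneg_right ?_ (by positivity)
    have : 4 / l ≤ 2 := by rw [div_le_iff₀ hl0]; linarith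
    linarith
  have h6 : (0 : ℝ) < 2 ^ n := by positivity
  have h7 := mul_le_mul_of_nonneg_left h4 (show 0 ≤ 4 * l by positivity)
  have h8 := mul_le_mul_of_nonneg_left h5 h6.le
  linarith

theorem exists_l (n m D : ℝ) (hn : 1 ≤ n) (hm : n ≤ m) (hD0 : 0 ≤ D)
    (hD : 3136 * m ^ 2 * n ≤ D ^ 6) :
    0 < D ∧ ∃ l : ℝ, 2 ≤ l ∧ l ^ 2 * n = D ^ 2 ∧ 56 * m ≤ l ^ 3 * n := by
  have hm0 : 0 < m := by linarith
  have hn0 : 0 < n := by linarith
  have hDpos : 0 < D := by
    rcases hD0.lt_or_eq with h | h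
    · exact h
    · rw [← h] at hD
      have : 0 < 3136 * m ^ 2 * n := by positivity
      norm_num at hD
      linarith
  refine ⟨hDpos, D / Real.sqrt n, ?_⟩
  have hsq : Real.sqrt n ^ 2 = n := Real.sq_sqrt hn0.le
  have hs0 : 0 < Real.sqrt n := Real.sqrt_pos.2 hn0
  have hl0 : 0 < D / Real.sqrt n := by positivity
  have hl2 : (D / Real.sqrt n) ^ 2 * n = D ^ 2 := by rw [div_pow, hsq]; field_simp
  generalize D / Real.sqrt n = l at *
  have hl3 : 56 * m ≤ l ^ 3 * n := by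
    have h1 : (56 * m) ^ 2 * n ≤ (l ^ 3 * n) ^ 2 * n := by
      calc (56 * m) ^ 2 * n = 3136 * m ^ 2 * n := by ring
        _ ≤ D ^ 6 := hD
        _ = (D ^ 2) ^ 3 := by ring
        _ = _ := by rw [← hl2]; ring
    exact (pow_le_pow_iff_left₀ (by positivity) (by positivity) two_ne_zero).1
      (le_of_mul_le_mul_right h1 hn0)
  refine ⟨?_, hl2, hl3⟩
  by_contra hc
  have h1 : l ^ 3 ≤ 2 ^ 3 := pow_le_pow_left₀ hl0.le (by linarith) 3
  nlinarith

theorem half_colouring {J : Type} [Fintype J] (n : ℕ) (hn : 0 < n) (hm : n ≤ Fintype.card J)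
    (v : J → Fin n → ℝ) (hv : ∀ j k, |v j k| ≤ 1) (D : ℝ) (hD0 : 0 ≤ D)
    (hD : 3136 * (Fintype.card J : ℝ) ^ 2 * n ≤ D ^ 6) :
    ∃ σ τ : Fin n → Bool, n < 10 * (univ.filter (fun k => τ k ≠ σ k)).card ∧
      ∀ j, |∑ k, (sg (σ k) - sg (τ k)) / 2 * v j k| ≤ D := by
  classical
  have hn' : (1 : ℝ) ≤ n := by exact_mod_cast hn
  obtain ⟨hDpos, l, hl4, hl2, hl3⟩ := exists_l n (Fintype.card J) D hn'
    (by exact_mod_cast hm) hD0 hD
  have hl0 : 0 < l := by linarith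
  have hl16 : 16 ≤ l ^ 4 := by
    have := pow_le_pow_left₀ (by norm_num) hl4 4
    linarith
  have hδ1 : 1 / l ^ 4 ≤ 1 / 2 := one_div_le_one_div_of_le (by norm_num) (by linarith)
  obtain ⟨b, hb⟩ : ∃ b : (Fin n → Bool) → J → ℤ,
      ∀ σ j, b σ j = ⌊(∑ k, sg (σ k) * v j k) / D / 2 + 1 / 2⌋ := ⟨fun σ j => _, fun _ _ => rfl⟩
  by_contra hcon
  have hfib : ∀ σ, ((univ.filter (fun τ => b τ = b σ)).card : ℝ) ≤
      Real.exp (n / 10 * Real.log 4) * (5 / 4) ^ n := by
    intro σ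
    refine le_trans ?_ (ball_card n σ)
    refine Nat.cast_le.2 (card_le_card (fun τ hτ => ?_))
    simp only [mem_filter, mem_univ, true_and] at hτ ⊢
    by_contra hc
    refine hcon ⟨σ, τ, by omega, fun j => ?_⟩
    have h1 := congrFun hτ j
    rw [hb, hb] at h1
    have h2 := Int.abs_sub_lt_one_of_floor_eq_floor h1.symm
    have h3 : ∑ k, (sg (σ k) - sg (τ k)) / 2 * v j k =
        ((∑ k, sg (σ k) * v j k) - ∑ k, sg (τ k) * v j k) / 2 := by
      rw [← sum_sub_distrib, sum_div]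
      exact sum_congr rfl (fun k _ => by ring)
    rw [h3]
    generalize ∑ k, sg (σ k) * v j k = X at h2 ⊢
    generalize ∑ k, sg (τ k) * v j k = Y at h2 ⊢
    have : (X - Y) / 2 = D * (X / D / 2 + 1 / 2 - (Y / D / 2 + 1 / 2)) := by
      field_simp; ring
    rw [this, abs_mul, abs_of_pos hDpos]
    exact (mul_le_mul_of_nonneg_left h2.le hD0).trans (by rw [mul_one])
  have hg := gibbs b (fun t => ∏ j, ((1 / l ^ 4) ^ (t j).natAbs / (1 + 4 * (1 / l ^ 4))))
    (fun t => prod_pos (fun j _ => by positivity))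
    (weight_sum b _ (by positivity) hδ1) _ (by positivity) hfib
  have hcard : (Fintype.card (Fin n → Bool) : ℝ) = 2 ^ n := by simp
  rw [hcard] at hg
  have hlog : Real.log (2 ^ n / (Real.exp (n / 10 * Real.log 4) * (5 / 4) ^ n)) =
      n * (Real.log (8 / 5) - Real.log 4 / 10) := by
    have : (2 : ℝ) ^ n / (Real.exp (n / 10 * Real.log 4) * (5 / 4) ^ n) =
        (8 / 5) ^ n / Real.exp (n / 10 * Real.log 4) := by
      rw [show (2 : ℝ) ^ n = (8 / 5) ^ n * (5 / 4) ^ n by rw [← mul_pow]; norm_num]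
      field_simp
    rw [this, Real.log_div (by positivity) (by positivity), Real.log_exp, Real.log_pow]
    ring
  have hcost : ∀ σ, - Real.log (∏ j, ((1 / l ^ 4) ^ (b σ j).natAbs / (1 + 4 * (1 / l ^ 4)))) ≤
      ∑ j, (4 * (1 / l ^ 4) + 4 * l * ((∑ k, sg (σ k) * v j k) / D) ^ 4) := by
    intro σ
    rw [Real.log_prod (fun j _ => by positivity), ← sum_neg_distrib]
    refine sum_le_sum (fun j _ => ?_)
    rw [hb]
    exact cost_one l _ hl0
  have hsum : ∑ σ : Fin n → Bool,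
      ∑ j, (4 * (1 / l ^ 4) + 4 * l * ((∑ k, sg (σ k) * v j k) / D) ^ 4) ≤
      2 ^ n * (Fintype.card J * (14 / l ^ 3)) := by
    rw [sum_comm]
    refine (sum_le_sum (fun j _ => cost_sum n (v j) (hv j) l D hl4 hDpos hl2)).trans (le_of_eq ?_)
    rw [sum_const, card_univ, nsmul_eq_mul]; ring
  have h7 : Fintype.card J * (14 / l ^ 3) ≤ n * (1 / 4) := by
    rw [mul_div_assoc', div_le_iff₀ (by positivity)]
    linarith
  have h8 := (hg.trans (sum_le_sum (fun σ _ => hcost σ))).trans hsum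
  rw [hlog] at h8
  have h9 := le_of_mul_le_mul_left h8 (by positivity)
  have := mul_lt_mul_of_pos_left log_const (show (0 : ℝ) < n by linarith)
  linarith

end Vale.Agent.P110
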