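import Vale.Agent.P110.Basic

/-! Van der Corput type estimates and the Fresnel bound. -/

namespace Vale.Agent.P110

open Complex Set MeasureTheory

theorem ibp {a b : ℝ} (hab : a ≤ b) (f e H : ℝ → ℂ) (G G' : ℝ → ℝ) (hf : Continuous f)
    (hH : ∀ v ∈ Icc a b, HasDerivAt H (f v - e v) v) (hG : ∀ v ∈ Icc a b, HasDerivAt G (G' v) v)
    (he : ∀ v ∈ Icc a b, ‖e v‖ ≤ G' v) :
    ‖∫ v in a..b, f v‖ ≤ ‖H a‖ + ‖H b‖ + (G b - G a) := by
  have h1 : ∀ v ∈ Icc a b, HasDerivAt (fun x => (∫ v in a..x, f v) - H x + H a) (e v) v := by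
    intro v hv
    have := (((hf.integral_hasStrictDerivAt a v).hasDerivAt).sub (hH v hv)).add_const (H a)
    rw [sub_sub_cancel] at this
    exact this
  have h2 := image_norm_le_of_norm_deriv_right_le_deriv_boundary'
    (fun v hv => (h1 v hv).continuousAt.continuousWithinAt)
    (fun v hv => (h1 v (Ico_subset_Icc_self hv)).hasDerivWithinAt) (B := fun x => G x - G a)
    (B' := G') (by simp) (fun v hv => ((hG v hv).sub_const _).continuousAt.continuousWithinAt)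
    (fun v hv => ((hG v (Ico_subset_Icc_self hv)).sub_const _).hasDerivWithinAt)
    (fun v hv => he v (Ico_subset_Icc_self hv)) (right_mem_Icc.2 hab)
  have h3 : ∫ v in a..b, f v = ((∫ v in a..b, f v) - H b + H a) + H b - H a := by ring
  rw [h3]
  have h4 := norm_sub_le (((∫ v in a..b, f v) - H b + H a) + H b) (H a)
  have h5 := norm_add_le ((∫ v in a..b, f v) - H b + H a) (H b)
  linarith

theorem cont_ee {φ φ1 : ℝ → ℝ} (hφ : ∀ v, HasDerivAt φ (φ1 v) v) : Continuous fun v => ee (φ v) :=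
  continuous_ee.comp (continuous_iff_continuousAt.2 (fun v => (hφ v).continuousAt))

theorem osc_mul {a b : ℝ} (hab : a ≤ b) (φ φ1 u u' G G' : ℝ → ℝ)
    (hφ : ∀ v, HasDerivAt φ (φ1 v) v) (hu : ∀ v ∈ Icc a b, HasDerivAt u (u' v) v)
    (hG : ∀ v ∈ Icc a b, HasDerivAt G (G' v) v)
    (he : ∀ v ∈ Icc a b, |1 - φ1 v * u v| + |u' v| / 6 ≤ G' v) :
    ‖∫ v in a..b, ee (φ v)‖ ≤ |u a| / 6 + |u b| / 6 + (G b - G a) := by
  let c : ℂ := (((2 * Real.pi : ℝ) : ℂ) * I)⁻¹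
  have hc0 : ((2 * Real.pi : ℝ) : ℂ) * I ≠ 0 :=
    mul_ne_zero (by exact_mod_cast (by positivity)) I_ne_zero
  have hc : ‖c‖ ≤ 1 / 6 := by
    simp only [c, norm_inv, norm_mul, norm_I, norm_real, mul_one, Real.norm_eq_abs]
    rw [← abs_mul, abs_of_pos (by positivity), one_div]
    exact inv_anti₀ (by norm_num) (by linarith [Real.pi_gt_three])
  have hn : ∀ x y : ℝ, ‖ee x * ((y : ℂ) * c)‖ ≤ |y| / 6 := by
    intro x y
    rw [norm_mul, norm_ee, one_mul, norm_mul, norm_real, Real.norm_eq_abs, div_eq_mul_one_div]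
    exact mul_le_mul_of_nonneg_left hc (abs_nonneg _)
  refine (ibp hab (fun v => ee (φ v))
    (fun v => ee (φ v) * ((1 - φ1 v * u v : ℝ) : ℂ) - ee (φ v) * (u' v * c))
    (fun v => ee (φ v) * (u v * c)) G G' (cont_ee hφ) (fun v hv => ?_) hG (fun v hv => ?_)).trans ?_
  · refine ((hasDerivAt_ee (hφ v)).mul ((hu v hv).ofReal_comp.mul_const c)).congr_deriv ?_
    have : ((2 * Real.pi : ℝ) : ℂ) * I * c = 1 := mul_inv_cancel₀ hc0
    push_cast at this ⊢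
    linear_combination (φ1 v * u v * ee (φ v)) * this
  · refine (norm_sub_le _ _).trans (le_trans (add_le_add ?_ (hn _ _)) (he v hv))
    rw [norm_mul, norm_ee, one_mul, norm_real, Real.norm_eq_abs]
  · linarith [hn (φ a) (u a), hn (φ b) (u b)]

/-- First derivative test. -/
theorem test1 {a b : ℝ} (hab : a ≤ b) (φ φ1 φ2 : ℝ → ℝ) (μ : ℝ) (hμ : 0 < μ)
    (hφ : ∀ v, HasDerivAt φ (φ1 v) v) (hφ1 : ∀ v ∈ Icc a b, HasDerivAt φ1 (φ2 v) v)
    (h1 : ∀ v ∈ Icc a b, μ ≤ |φ1 v|) (h2 : ∀ v ∈ Icc a b, 0 ≤ φ2 v) :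
    ‖∫ v in a..b, ee (φ v)‖ ≤ 1 / μ := by
  have h0 : ∀ v ∈ Icc a b, φ1 v ≠ 0 := fun v hv h => by
    have := h1 v hv; rw [h, abs_zero] at this; linarith
  have h3 : ∀ v ∈ Icc a b, |(φ1 v)⁻¹| ≤ 1 / μ := fun v hv => by
    rw [abs_inv, one_div]; exact inv_anti₀ hμ (h1 v hv)
  refine (osc_mul hab φ φ1 (fun v => (φ1 v)⁻¹) (fun v => - φ2 v / φ1 v ^ 2)
    (fun v => -(φ1 v)⁻¹ / 6) (fun v => -(- φ2 v / φ1 v ^ 2) / 6) hφ
    (fun v hv => (hφ1 v hv).inv (h0 v hv))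
    (fun v hv => ((hφ1 v hv).inv (h0 v hv)).neg.div_const 6) (fun v hv => ?_)).trans ?_
  · rw [mul_inv_cancel₀ (h0 v hv), sub_self, abs_zero, zero_add, abs_of_nonpos]
    exact div_nonpos_of_nonpos_of_nonneg (neg_nonpos.2 (h2 v hv)) (sq_nonneg _)
  · have h4 := h3 a (left_mem_Icc.2 hab)
    have h5 := h3 b (right_mem_Icc.2 hab)
    have h6 := le_abs_self (φ1 a)⁻¹
    have h7 := neg_abs_le (φ1 b)⁻¹
    have : 0 < 1 / μ := by positivity
    linarith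

/-- Second derivative test. -/
theorem test2 {a b : ℝ} (hab : a ≤ b) (φ φ1 φ2 : ℝ → ℝ) (ν : ℝ) (hν : 0 < ν)
    (hφ : ∀ v, HasDerivAt φ (φ1 v) v) (hφ1 : ∀ v ∈ Icc a b, HasDerivAt φ1 (φ2 v) v)
    (h2 : ∀ v ∈ Icc a b, ν ≤ φ2 v) :
    ‖∫ v in a..b, ee (φ v)‖ ≤ 4 / √ν := by
  obtain ⟨μ, hμ, rfl⟩ : ∃ μ, 0 < μ ∧ ν = μ ^ 2 := ⟨√ν, Real.sqrt_pos.2 hν, (Real.sq_sqrt hν.le).symm⟩
  rw [Real.sqrt_sq hμ.le]
  have h0 : ∀ v, 0 < φ1 v ^ 2 + μ ^ 2 := fun v => by positivity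
  have h3 : ∀ v, |φ1 v / (φ1 v ^ 2 + μ ^ 2)| ≤ 1 / (2 * μ) := fun v => by
    rw [abs_div, abs_of_pos (h0 v), div_le_div_iff₀ (h0 v) (by positivity), ← sq_abs (φ1 v)]
    nlinarith [sq_nonneg (|φ1 v| - μ)]
  refine (osc_mul hab φ φ1 (fun v => φ1 v / (φ1 v ^ 2 + μ ^ 2))
    (fun v => φ2 v * (μ ^ 2 - φ1 v ^ 2) / (φ1 v ^ 2 + μ ^ 2) ^ 2)
    (fun v => 7 / 6 / μ * Real.arctan (φ1 v / μ)) (fun v => 7 / 6 * (φ2 v / (φ1 v ^ 2 + μ ^ 2))) hφ
    (fun v hv => ?_) (fun v hv => ?_) (fun v hv => ?_)).trans ?_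
  · refine ((hφ1 v hv).div (((hφ1 v hv).pow 2).add_const (μ ^ 2)) (h0 v).ne').congr_deriv ?_
    simp only [Pi.pow_apply]
    congr 1; push_cast; ring
  · refine ((((hφ1 v hv).div_const μ).arctan).const_mul (7 / 6 / μ)).congr_deriv ?_
    have := h0 v
    field_simp
    ring
  · have h4 := h0 v
    have h5 := h2 v hv
    have h6 : 1 - φ1 v * (φ1 v / (φ1 v ^ 2 + μ ^ 2)) = μ ^ 2 / (φ1 v ^ 2 + μ ^ 2) := by
      field_simp; ring
    have h7 : |φ2 v * (μ ^ 2 - φ1 v ^ 2) / (φ1 v ^ 2 + μ ^ 2) ^ 2| ≤ φ2 v / (φ1 v ^ 2 + μ ^ 2) := by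
      rw [abs_div, abs_mul, abs_of_pos (hν.trans_le h5), abs_of_pos (pow_pos h4 2), sq (_ + _),
        mul_div_mul_comm]
      refine mul_le_of_le_one_right (div_nonneg (hν.le.trans h5) h4.le) ?_
      rw [div_le_one h4, abs_le]
      constructor <;> nlinarith [sq_nonneg (φ1 v)]
    rw [h6, abs_of_pos (div_pos hν h4)]
    have h8 := div_le_div_of_nonneg_right h5 h4.le
    linarith
  · have h4 := Real.arctan_lt_pi_div_two (φ1 b / μ)
    have h5 := Real.neg_pi_div_two_lt_arctan (φ1 a / μ)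
    have h6 := h3 a
    have h7 := h3 b
    have h8 := Real.pi_lt_d2
    have h9 : 7 / 6 / μ * Real.arctan (φ1 b / μ) - 7 / 6 / μ * Real.arctan (φ1 a / μ) ≤
        7 / 6 / μ * 3.15 := by
      rw [← mul_sub]
      exact mul_le_mul_of_nonneg_left (by linarith) (by positivity)
    have h10 : 1 / (2 * μ) = 1 / 2 * (1 / μ) := by field_simp
    have h11 : 7 / 6 / μ = 7 / 6 * (1 / μ) := by field_simp
    have h12 : 4 / μ = 4 * (1 / μ) := by field_simp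
    have h13 : 0 < 1 / μ := by positivity
    rw [h10] at h6 h7
    rw [h11] at h9 ⊢
    rw [h12]
    linarith

theorem integral_ee_neg (a b : ℝ) (φ : ℝ → ℝ) :
    ∫ v in a..b, ee (-φ v) = (starRingEnd ℂ) (∫ v in a..b, ee (φ v)) := by
  simp only [← conj_ee]
  exact intervalIntegral.intervalIntegral_conj

theorem test2' {a b : ℝ} (hab : a ≤ b) (φ φ1 φ2 : ℝ → ℝ) (ν : ℝ) (hν : 0 < ν)
    (hφ : ∀ v, HasDerivAt φ (φ1 v) v) (hφ1 : ∀ v ∈ Icc a b, HasDerivAt φ1 (φ2 v) v)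
    (h2 : ∀ v ∈ Icc a b, φ2 v ≤ -ν) :
    ‖∫ v in a..b, ee (φ v)‖ ≤ 4 / √ν := by
  have := test2 hab (fun v => -φ v) (fun v => -φ1 v) (fun v => -φ2 v) ν hν (fun v => (hφ v).neg)
    (fun v hv => (hφ1 v hv).neg) (fun v hv => by linarith [h2 v hv])
  rwa [integral_ee_neg, norm_conj] at this

theorem gauss_tail (β : ℂ) (h0 : 0 < β.re) (h3 : 3 ≤ ‖β‖) (ρ : ℝ) (hρ : 0 < ρ) {a b : ℝ}
    (hab : a ≤ b) (h : ∀ v ∈ Icc a b, ρ ≤ |v|) :
    ‖∫ v in a..b, cexp (-β * (v : ℂ) ^ 2)‖ ≤ 2 / (3 * ρ) := by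
  have hβ : β ≠ 0 := by rintro rfl; simp at h0
  have hv0 : ∀ v ∈ Icc a b, v ≠ 0 := fun v hv h' => by
    have := h v hv; rw [h', abs_zero] at this; linarith
  have hn : ∀ v y : ℝ, ‖cexp (-β * (v : ℂ) ^ 2) * ((y : ℂ) * (-2 * β)⁻¹)‖ ≤ |y| / 6 := by
    intro v y
    rw [norm_mul, norm_cexp_neg_mul_sq, norm_mul, norm_real, Real.norm_eq_abs, norm_inv, norm_mul,
      norm_neg, RCLike.norm_two]
    refine (mul_le_of_le_one_left (by positivity) ?_).trans ?_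
    · rw [Real.exp_le_one_iff]; nlinarith [sq_nonneg v]
    · exact mul_le_mul_of_nonneg_left (inv_anti₀ (by norm_num) (by linarith)) (abs_nonneg _)
  have h4 : ∀ v ∈ Icc a b, |v⁻¹| ≤ 1 / ρ := fun v hv => by
    rw [abs_inv, one_div]; exact inv_anti₀ hρ (h v hv)
  refine (ibp hab _ (fun v => -(cexp (-β * (v : ℂ) ^ 2) * (((-(v ^ 2)⁻¹ : ℝ) : ℂ) * (-2 * β)⁻¹)))
    (fun v => cexp (-β * (v : ℂ) ^ 2) * (((v⁻¹ : ℝ) : ℂ) * (-2 * β)⁻¹)) (fun v => -v⁻¹ / 6)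
    (fun v => -(-(v ^ 2)⁻¹) / 6) (by fun_prop) (fun v hv => ?_)
    (fun v hv => (hasDerivAt_inv (hv0 v hv)).neg.div_const 6) (fun v hv => ?_)).trans ?_
  · have h5 : HasDerivAt (fun v : ℝ => -β * (v : ℂ) ^ 2) (-β * (2 * v)) v := by
      have := ((hasDerivAt_id v).ofReal_comp.pow 2).const_mul (-β)
      simpa using this
    refine (h5.cexp.mul ((hasDerivAt_inv (hv0 v hv)).ofReal_comp.mul_const _)).congr_deriv ?_
    have h6 : (v : ℂ) ≠ 0 := by exact_mod_cast hv0 v hv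
    push_cast
    field_simp
    ring
  · rw [norm_neg]
    refine (hn _ _).trans (le_of_eq ?_)
    rw [neg_neg, abs_neg, abs_of_nonneg (by positivity)]
  · have h5 := h4 a (left_mem_Icc.2 hab)
    have h6 := h4 b (right_mem_Icc.2 hab)
    have h7 := le_abs_self a⁻¹
    have h8 := neg_abs_le b⁻¹
    have h9 : 2 / (3 * ρ) = 2 / 3 * (1 / ρ) := by field_simp
    linarith [hn a a⁻¹, hn b b⁻¹]

theorem fresnel (ρ : ℝ) (hρ : 0 < ρ) : ‖∫ u in -ρ..ρ, ee (u ^ 2 / 2)‖ ≤ 1 + 2 / ρ := by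
  refine le_of_forall_pos_le_add (fun η hη => ?_)
  set δ := η / (2 * ρ ^ 3) with hδ
  have hδ0 : 0 < δ := by positivity
  let β : ℂ := δ - Real.pi * I
  have h0 : 0 < β.re := by simpa [β] using hδ0
  have hπ : Real.pi ≤ ‖β‖ := by
    have := abs_im_le_norm β
    simpa [β, abs_of_pos Real.pi_pos] using this
  have h3 : 3 ≤ ‖β‖ := Real.pi_gt_three.le.trans hπ
  have hc : Continuous fun v : ℝ => cexp (-β * (v : ℂ) ^ 2) := by fun_prop
  have h1 : ‖∫ x : ℝ, cexp (-β * (x : ℂ) ^ 2)‖ ≤ 1 := by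
    rw [integral_gaussian_complex h0, show (1 / 2 : ℂ) = ((1 / 2 : ℝ) : ℂ) by push_cast; rfl,
      norm_cpow_real]
    refine Real.rpow_le_one (norm_nonneg _) ?_ (by norm_num)
    rw [norm_div, norm_real, Real.norm_eq_abs, abs_of_pos Real.pi_pos, div_le_one (by linarith)]
    exact hπ
  have h2 : ‖(∫ x : ℝ, cexp (-β * (x : ℂ) ^ 2)) - ∫ u in -ρ..ρ, cexp (-β * (u : ℂ) ^ 2)‖ ≤
      2 * (2 / (3 * ρ)) := by
    have h4 := intervalIntegral_tendsto_integral (integrable_cexp_neg_mul_sq h0)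
      Filter.tendsto_neg_atTop_atBot Filter.tendsto_id
    refine le_of_tendsto (h4.sub_const _).norm ?_
    filter_upwards [Filter.eventually_ge_atTop ρ] with R hR
    rw [← intervalIntegral.integral_add_adjacent_intervals (b := ρ) (hc.intervalIntegrable _ _)
      (hc.intervalIntegrable _ _), ← intervalIntegral.integral_add_adjacent_intervals (b := -ρ)
      (hc.intervalIntegrable _ _) (hc.intervalIntegrable _ _), add_sub_right_comm,
      add_sub_cancel_right, two_mul]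
    refine (norm_add_le _ _).trans (add_le_add ?_ ?_)
    · exact gauss_tail β h0 h3 ρ hρ (by linarith) (fun v hv => by linarith [neg_le_abs v, hv.2])
    · exact gauss_tail β h0 h3 ρ hρ hR (fun v hv => hv.1.trans (le_abs_self v))
  have h4 : ‖(∫ u in -ρ..ρ, ee (u ^ 2 / 2)) - ∫ u in -ρ..ρ, cexp (-β * (u : ℂ) ^ 2)‖ ≤ η := by
    have hc2 : Continuous fun u : ℝ => ee (u ^ 2 / 2) := continuous_ee.comp (by fun_prop)
    rw [← intervalIntegral.integral_sub (hc2.intervalIntegrable _ _) (hc.intervalIntegrable _ _)]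
    refine (intervalIntegral.norm_integral_le_of_norm_le_const (C := δ * ρ ^ 2) ?_).trans ?_
    · intro u hu
      rw [uIoc_of_le (by linarith)] at hu
      have h5 : cexp (-β * (u : ℂ) ^ 2) = ee (u ^ 2 / 2) * (Real.exp (-(δ * u ^ 2)) : ℝ) := by
        unfold ee
        rw [ofReal_exp, ← Complex.exp_add]
        congr 1
        simp only [β]; push_cast; ring
      rw [h5, ← mul_one_sub, norm_mul, norm_ee, one_mul, ← ofReal_one, ← ofReal_sub, norm_real,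
        Real.norm_eq_abs, abs_of_nonneg]
      · have h6 := Real.add_one_le_exp (-(δ * u ^ 2))
        have h7 : u ^ 2 ≤ ρ ^ 2 := sq_le_sq' hu.1.le hu.2
        nlinarith
      · rw [sub_nonneg, Real.exp_le_one_iff]
        exact neg_nonpos.2 (by positivity)
    · rw [abs_of_pos (by linarith), hδ]
      apply le_of_eq; field_simp; ring
  have h5 := norm_le_norm_add_norm_sub' (∫ u in -ρ..ρ, ee (u ^ 2 / 2))
    (∫ u in -ρ..ρ, cexp (-β * (u : ℂ) ^ 2))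
  have h6 := norm_le_norm_add_norm_sub (∫ x : ℝ, cexp (-β * (x : ℂ) ^ 2))
    (∫ u in -ρ..ρ, cexp (-β * (u : ℂ) ^ 2))
  have h7 : 2 * (2 / (3 * ρ)) ≤ 2 / ρ := by
    rw [show 2 * (2 / (3 * ρ)) = 4 / 3 / ρ by field_simp; ring]
    exact div_le_div_of_nonneg_right (by norm_num) hρ.le
  linarith

end Vale.Agent.P110
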