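import Vale.Agent.P110.Osc1

/-! Stationary phase for a convex profile whose curvature is large near the end points. -/

namespace Vale.Agent.P110

open Complex Set MeasureTheory

theorem mvt_abs {f f' : ℝ → ℝ} {a b C x y : ℝ} (hf : ∀ v ∈ Icc a b, HasDerivAt f (f' v) v)
    (hC : ∀ v ∈ Icc a b, |f' v| ≤ C) (hx : x ∈ Icc a b) (hy : y ∈ Icc a b) :
    |f x - f y| ≤ C * |x - y| :=
  (convex_Icc a b).norm_image_sub_le_of_norm_hasDerivWithin_le
    (fun v hv => (hf v hv).hasDerivWithinAt) hC hy hx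

theorem mvt_ge {f f' : ℝ → ℝ} {a b x y : ℝ} (hf : ∀ v, HasDerivAt f (f' v) v)
    (hC : ∀ v ∈ Icc a b, 1 ≤ f' v) (hx : x ∈ Icc a b) (hy : y ∈ Icc a b) (hxy : x ≤ y) :
    y - x ≤ f y - f x := by
  have := (convex_Icc a b).mul_sub_le_image_sub_of_le_deriv (f := f) (C := 1)
    (fun v _ => (hf v).continuousAt.continuousWithinAt)
    (fun v _ => (hf v).differentiableAt.differentiableWithinAt)
    (fun v hv => by rw [(hf v).deriv]; exact hC v (interior_subset hv)) x hx y hy hxy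
  rwa [one_mul] at this

theorem fresnel_diff (ρ ρ' : ℝ) (hρ : 0 < ρ) (h : ρ ≤ ρ') :
    ‖(∫ u in -ρ'..ρ', ee (u ^ 2 / 2)) - ∫ u in -ρ..ρ, ee (u ^ 2 / 2)‖ ≤ 2 / ρ := by
  have hc : Continuous fun u : ℝ => ee (u ^ 2 / 2) := by fun_prop
  have hd : ∀ v : ℝ, HasDerivAt (fun u : ℝ => u ^ 2 / 2) v v := fun v => by
    simpa using (hasDerivAt_pow 2 v).div_const 2
  rw [← intervalIntegral.integral_add_adjacent_intervals (b := ρ) (hc.intervalIntegrable _ _)
    (hc.intervalIntegrable _ _), ← intervalIntegral.integral_add_adjacent_intervals (b := -ρ)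
    (hc.intervalIntegrable _ _) (hc.intervalIntegrable _ _), add_sub_right_comm,
    add_sub_cancel_right, show 2 / ρ = 1 / ρ + 1 / ρ by ring]
  refine (norm_add_le _ _).trans (add_le_add ?_ ?_)
  · exact test1 (by linarith) _ (fun v => v) (fun _ => 1) ρ hρ hd (fun v _ => hasDerivAt_id v)
      (fun v hv => by linarith [neg_le_abs v, hv.2]) (fun _ _ => zero_le_one)
  · exact test1 h _ (fun v => v) (fun _ => 1) ρ hρ hd (fun v _ => hasDerivAt_id v)
      (fun v hv => hv.1.trans (le_abs_self v)) (fun _ _ => zero_le_one)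

section Profile

variable {Ω ω ω1 ω2 : ℝ → ℝ} {B : ℝ} (h0 : ∀ v, HasDerivAt Ω (ω v) v)
  (h1 : ∀ v, HasDerivAt ω (ω1 v) v) (h2 : ∀ v, HasDerivAt ω1 (ω2 v) v)
  (hB : ∀ v ∈ Icc (0 : ℝ) 1, |ω2 v| ≤ B) (hω : ∀ v ∈ Icc (0 : ℝ) 1, 1 ≤ ω1 v)

include h0 in
theorem phase_deriv (L x v : ℝ) : HasDerivAt (fun v => L * (Ω v - x * v)) (L * (ω v - x)) v := by
  simpa using ((h0 v).sub ((hasDerivAt_id v).const_mul x)).const_mul L

include h1 in
theorem phase_deriv2 (L x v : ℝ) : HasDerivAt (fun v => L * (ω v - x)) (L * ω1 v) v :=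
  ((h1 v).sub_const x).const_mul L

include h0 h1 h2 hB in
theorem taylor3 (v0 r : ℝ) (hr : 0 ≤ r) (ha : 0 ≤ v0 - r) (hb : v0 + r ≤ 1) (v : ℝ)
    (hv : v ∈ Icc (v0 - r) (v0 + r)) :
    |Ω v - ω v0 * v - ω1 v0 * (v - v0) ^ 2 / 2 - (Ω v0 - ω v0 * v0)| ≤ B * r * r * r := by
  have hv0 : v0 ∈ Icc (v0 - r) (v0 + r) := ⟨by linarith, by linarith⟩
  have hsub : Icc (v0 - r) (v0 + r) ⊆ Icc 0 1 := Icc_subset_Icc ha hb
  have hB0 : 0 ≤ B := (abs_nonneg _).trans (hB v0 (hsub hv0))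
  have hd : ∀ v ∈ Icc (v0 - r) (v0 + r), |v - v0| ≤ r := fun v hv =>
    abs_le.2 ⟨by linarith [hv.1], by linarith [hv.2]⟩
  have h3 : ∀ v ∈ Icc (v0 - r) (v0 + r), |ω1 v - ω1 v0| ≤ B * r := fun v hv =>
    (mvt_abs (fun v _ => h2 v) (fun v hv => hB v (hsub hv)) hv hv0).trans
      (mul_le_mul_of_nonneg_left (hd v hv) hB0)
  have h4 : ∀ v ∈ Icc (v0 - r) (v0 + r), |ω v - ω v0 - ω1 v0 * (v - v0)| ≤ B * r * r := by
    intro v hv
    have := mvt_abs (f := fun v => ω v - ω1 v0 * (v - v0)) (fun v _ =>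
      ((h1 v).sub (((hasDerivAt_id v).sub_const v0).const_mul (ω1 v0))).congr_deriv
        (by rw [mul_one])) h3 hv hv0
    rw [sub_self, mul_zero, sub_zero, sub_right_comm] at this
    exact this.trans (mul_le_mul_of_nonneg_left (hd v hv) (by positivity))
  have := mvt_abs (f := fun v => Ω v - ω v0 * v - ω1 v0 * (v - v0) ^ 2 / 2) (fun v _ => by
    refine (((h0 v).sub ((hasDerivAt_id v).const_mul (ω v0))).sub
      (((((hasDerivAt_id v).sub_const v0).pow 2).const_mul (ω1 v0)).div_const 2)).congr_deriv ?_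
    simp; ring) h4 hv hv0
  rw [sub_self, sq (0 : ℝ), mul_zero, mul_zero, zero_div, sub_zero] at this
  exact this.trans (mul_le_mul_of_nonneg_left (hd v hv) (by positivity))

include h0 h1 h2 hB hω in
theorem sp_main (v0 r L ρ : ℝ) (hr : 0 < r) (ha : 0 ≤ v0 - r) (hb : v0 + r ≤ 1) (hL : 0 < L)
    (hρ : 0 < ρ) (hρ' : ρ ≤ r * √L) :
    ‖(∫ v in (0 : ℝ)..1, ee (L * (Ω v - ω v0 * v))) - ((1 / √(L * ω1 v0) : ℝ) : ℂ) *
      ((∫ u in -ρ..ρ, ee (u ^ 2 / 2)) * ee (L * (Ω v0 - ω v0 * v0)))‖ ≤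
      2 / (L * r) + 14 * L * B * r ^ 4 + 2 / (ρ * √L) := by
  have hv0 : v0 ∈ Icc (0 : ℝ) 1 := ⟨by linarith, by linarith⟩
  have hc := cont_ee (phase_deriv h0 L (ω v0))
  have hκ := hω v0 hv0
  have hB0 : 0 ≤ B := (abs_nonneg _).trans (hB v0 hv0)
  have h3 : ‖∫ v in (0 : ℝ)..(v0 - r), ee (L * (Ω v - ω v0 * v))‖ ≤ 1 / (L * r) := by
    refine test1 ha _ _ _ _ (by positivity) (phase_deriv h0 L _)
      (fun v _ => phase_deriv2 h1 L _ v) (fun v hv => ?_)
      (fun v hv => mul_nonneg hL.le (zero_le_one.trans (hω v ⟨hv.1, by linarith [hv.2]⟩)))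
    have := mvt_ge h1 hω ⟨hv.1, by linarith [hv.2]⟩ hv0 (by linarith [hv.2])
    rw [abs_mul, abs_of_pos hL, abs_sub_comm]
    exact mul_le_mul_of_nonneg_left (by linarith [le_abs_self (ω v0 - ω v), hv.2]) hL.le
  have h4 : ‖∫ v in (v0 + r)..1, ee (L * (Ω v - ω v0 * v))‖ ≤ 1 / (L * r) := by
    refine test1 hb _ _ _ _ (by positivity) (phase_deriv h0 L _)
      (fun v _ => phase_deriv2 h1 L _ v) (fun v hv => ?_)
      (fun v hv => mul_nonneg hL.le (zero_le_one.trans (hω v ⟨by linarith [hv.1], hv.2⟩)))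
    have := mvt_ge h1 hω hv0 ⟨by linarith [hv.1], hv.2⟩ (by linarith [hv.1])
    rw [abs_mul, abs_of_pos hL]
    exact mul_le_mul_of_nonneg_left (by linarith [le_abs_self (ω v - ω v0), hv.1]) hL.le
  set s := √(L * ω1 v0) with hs
  have hs0 : 0 < s := Real.sqrt_pos.2 (by positivity)
  have hs1 : √L ≤ s := Real.sqrt_le_sqrt (le_mul_of_one_le_right hL.le hκ)
  have hs2 : s ^ 2 = L * ω1 v0 := Real.sq_sqrt (by positivity)
  have hsL : 0 < √L := Real.sqrt_pos.2 hL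
  have h5 : ‖(∫ v in (v0 - r)..(v0 + r), ee (L * (Ω v - ω v0 * v))) -
      ∫ v in (v0 - r)..(v0 + r), ee ((s * (v - v0)) ^ 2 / 2) * ee (L * (Ω v0 - ω v0 * v0))‖ ≤
      14 * L * B * r ^ 4 := by
    rw [← intervalIntegral.integral_sub (hc.intervalIntegrable _ _)
      (Continuous.intervalIntegrable (by fun_prop) _ _)]
    refine (intervalIntegral.norm_integral_le_of_norm_le_const
      (C := 7 * (L * (B * r * r * r))) ?_).trans ?_
    · intro v hv
      rw [uIoc_of_le (by linarith)] at hv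
      rw [← ee_add]
      refine (norm_ee_sub _ _).trans ?_
      have h6 := taylor3 h0 h1 h2 hB v0 r hr.le ha hb v (Ioc_subset_Icc_self hv)
      rw [show L * (Ω v - ω v0 * v) - ((s * (v - v0)) ^ 2 / 2 + L * (Ω v0 - ω v0 * v0)) =
        L * (Ω v - ω v0 * v - ω1 v0 * (v - v0) ^ 2 / 2 - (Ω v0 - ω v0 * v0)) by
          rw [mul_pow, hs2]; ring, abs_mul, abs_of_pos hL]
      exact mul_le_mul (by linarith [Real.pi_lt_d2]) (mul_le_mul_of_nonneg_left h6 hL.le)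
        (by positivity) (by norm_num)
    · rw [abs_of_pos (by linarith)]
      apply le_of_eq; ring
  have h6 : ∫ v in (v0 - r)..(v0 + r), ee ((s * (v - v0)) ^ 2 / 2) =
      ((1 / s : ℝ) : ℂ) * ∫ u in -(r * s)..(r * s), ee (u ^ 2 / 2) := by
    rw [intervalIntegral.integral_comp_sub_right (fun v => ee ((s * v) ^ 2 / 2)),
      intervalIntegral.integral_comp_mul_left (fun v => ee (v ^ 2 / 2)) hs0.ne', real_smul, one_div]
    congr 2 <;> ring
  rw [intervalIntegral.integral_mul_const, h6] at h5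
  have h7 := fresnel_diff ρ (r * s) hρ (hρ'.trans (mul_le_mul_of_nonneg_left hs1 hr.le))
  have h8 : ‖((1 / s : ℝ) : ℂ) * (∫ u in -(r * s)..(r * s), ee (u ^ 2 / 2)) *
      ee (L * (Ω v0 - ω v0 * v0)) - ((1 / s : ℝ) : ℂ) *
      ((∫ u in -ρ..ρ, ee (u ^ 2 / 2)) * ee (L * (Ω v0 - ω v0 * v0)))‖ ≤ 2 / (ρ * √L) := by
    rw [mul_assoc, ← mul_sub, ← sub_mul, norm_mul, norm_mul, norm_ee, mul_one, norm_real,
      Real.norm_eq_abs, abs_of_pos (by positivity), show 2 / (ρ * √L) = 1 / √L * (2 / ρ) by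
        field_simp]
    exact mul_le_mul (one_div_le_one_div_of_le hsL hs1) h7 (norm_nonneg _) (by positivity)
  rw [← intervalIntegral.integral_add_adjacent_intervals (b := v0 + r) (hc.intervalIntegrable _ _)
    (hc.intervalIntegrable _ _), ← intervalIntegral.integral_add_adjacent_intervals (b := v0 - r)
    (hc.intervalIntegrable _ _) (hc.intervalIntegrable _ _)]
  generalize (∫ v in (0 : ℝ)..(v0 - r), ee (L * (Ω v - ω v0 * v))) = A1 at h3 ⊢
  generalize (∫ v in (v0 + r)..1, ee (L * (Ω v - ω v0 * v))) = A3 at h4 ⊢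
  generalize (∫ v in (v0 - r)..(v0 + r), ee (L * (Ω v - ω v0 * v))) = A2 at h5 ⊢
  generalize ((1 / s : ℝ) : ℂ) * (∫ u in -(r * s)..(r * s), ee (u ^ 2 / 2)) *
      ee (L * (Ω v0 - ω v0 * v0)) = A4 at h5 h8
  generalize ((1 / s : ℝ) : ℂ) *
      ((∫ u in -ρ..ρ, ee (u ^ 2 / 2)) * ee (L * (Ω v0 - ω v0 * v0))) = A5 at h8 ⊢
  rw [show A1 + A2 + A3 - A5 = A1 + A3 + (A2 - A4) + (A4 - A5) by ring,
    show 2 / (L * r) = 1 / (L * r) + 1 / (L * r) by ring]
  exact norm_add_le_of_le (norm_add_le_of_le (norm_add_le_of_le h3 h4) h5) h8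

include h0 h1 hω in
theorem sp_left (v1 H L x : ℝ) (hv1 : 0 < v1) (hv2 : 2 * v1 ≤ 1) (hH : 0 < H) (hL : 0 < L)
    (hH1 : ∀ v ∈ Icc 0 (2 * v1), H ≤ ω1 v) (hx : x ≤ ω v1) :
    ‖∫ v in (0 : ℝ)..1, ee (L * (Ω v - x * v))‖ ≤ 4 / √(L * H) + 1 / (L * v1) := by
  have hc := cont_ee (phase_deriv h0 L x)
  rw [← intervalIntegral.integral_add_adjacent_intervals (b := 2 * v1) (hc.intervalIntegrable _ _)
    (hc.intervalIntegrable _ _)]
  refine norm_add_le_of_le ?_ ?_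
  · exact test2 (by linarith) _ _ _ _ (by positivity) (phase_deriv h0 L x)
      (fun v _ => phase_deriv2 h1 L x v) (fun v hv => mul_le_mul_of_nonneg_left (hH1 v hv) hL.le)
  · refine test1 hv2 _ _ _ _ (by positivity) (phase_deriv h0 L _)
      (fun v _ => phase_deriv2 h1 L _ v) (fun v hv => ?_)
      (fun v hv => mul_nonneg hL.le (zero_le_one.trans (hω v ⟨by linarith [hv.1], hv.2⟩)))
    have := mvt_ge h1 hω (x := v1) ⟨by linarith, by linarith⟩ ⟨by linarith [hv.1], hv.2⟩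
      (by linarith [hv.1])
    rw [abs_mul, abs_of_pos hL]
    exact mul_le_mul_of_nonneg_left (by linarith [le_abs_self (ω v - x), hv.1]) hL.le

include h0 h1 hω in
theorem sp_right (v1 H L x : ℝ) (hv1 : 0 < v1) (hv2 : 2 * v1 ≤ 1) (hH : 0 < H) (hL : 0 < L)
    (hH1 : ∀ v ∈ Icc (1 - 2 * v1) 1, H ≤ ω1 v) (hx : ω (1 - v1) ≤ x) :
    ‖∫ v in (0 : ℝ)..1, ee (L * (Ω v - x * v))‖ ≤ 4 / √(L * H) + 1 / (L * v1) := by
  have hc := cont_ee (phase_deriv h0 L x)
  rw [← intervalIntegral.integral_add_adjacent_intervals (b := 1 - 2 * v1)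
    (hc.intervalIntegrable _ _) (hc.intervalIntegrable _ _), add_comm (4 / _)]
  refine norm_add_le_of_le ?_ ?_
  · refine test1 (by linarith) _ _ _ _ (by positivity) (phase_deriv h0 L _)
      (fun v _ => phase_deriv2 h1 L _ v) (fun v hv => ?_)
      (fun v hv => mul_nonneg hL.le (zero_le_one.trans (hω v ⟨hv.1, by linarith [hv.2]⟩)))
    have := mvt_ge h1 hω (y := 1 - v1) ⟨hv.1, by linarith [hv.2]⟩ ⟨by linarith, by linarith⟩
      (by linarith [hv.2])
    rw [abs_mul, abs_of_pos hL, abs_sub_comm]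
    exact mul_le_mul_of_nonneg_left (by linarith [le_abs_self (x - ω v), hv.2]) hL.le
  · exact test2 (by linarith) _ _ _ _ (by positivity) (phase_deriv h0 L x)
      (fun v _ => phase_deriv2 h1 L x v) (fun v hv => mul_le_mul_of_nonneg_left (hH1 v hv) hL.le)

end Profile

theorem concrete_profile (H K : ℝ) (hH : 0 < H) (hK : 1 ≤ K) :
    ∃ (Ω ω ω1 ω2 : ℝ → ℝ) (B : ℝ), (∀ v, HasDerivAt Ω (ω v) v) ∧ (∀ v, HasDerivAt ω (ω1 v) v) ∧
      (∀ v, HasDerivAt ω1 (ω2 v) v) ∧ (∀ v ∈ Icc (0 : ℝ) 1, |ω2 v| ≤ B) ∧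
      (∀ v ∈ Icc (0 : ℝ) 1, 1 ≤ ω1 v) ∧ (∀ v ∈ Icc (0 : ℝ) 1, |ω1 v| ≤ B) ∧ ω 0 = 0 ∧
      ω 1 ≤ 1 + 4 * H / K ∧ (∀ v ∈ Icc 0 (2 * (1 / (4 * K))), H ≤ ω1 v) ∧
      ∀ v ∈ Icc (1 - 2 * (1 / (4 * K))) 1, H ≤ ω1 v := by
  have hK0 : 0 < K := by linarith
  have e1 : ∀ v, HasDerivAt (fun v => Real.exp (-K * v)) (Real.exp (-K * v) * -K) v := fun v => by
    simpa using ((hasDerivAt_id v).const_mul (-K)).exp
  have e2 : ∀ v, HasDerivAt (fun v => Real.exp (K * (v - 1))) (Real.exp (K * (v - 1)) * K) v :=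
    fun v => by simpa using (((hasDerivAt_id v).sub_const 1).const_mul K).exp
  have b1 : ∀ v ∈ Icc (0 : ℝ) 1, Real.exp (-K * v) ≤ 1 := fun v hv => by
    rw [Real.exp_le_one_iff]; nlinarith [hv.1]
  have b2 : ∀ v ∈ Icc (0 : ℝ) 1, Real.exp (K * (v - 1)) ≤ 1 := fun v hv => by
    rw [Real.exp_le_one_iff]; nlinarith [hv.2]
  have hq : K * (2 * (1 / (4 * K))) = 1 / 2 := by field_simp; ring
  refine ⟨fun v => v ^ 2 / 2 + 2 * H / K ^ 2 * (Real.exp (-K * v) + Real.exp (K * (v - 1))) +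
      2 * H / K * (1 - Real.exp (-K)) * v,
    fun v => v + 2 * H / K * (-Real.exp (-K * v) + Real.exp (K * (v - 1)) + 1 - Real.exp (-K)),
    fun v => 1 + 2 * H * (Real.exp (-K * v) + Real.exp (K * (v - 1))),
    fun v => 2 * H * (Real.exp (-K * v) * -K + Real.exp (K * (v - 1)) * K), 1 + 4 * H * K,
    fun v => ?_, fun v => ?_, fun v => (((e1 v).add (e2 v)).const_mul _).const_add _,
    fun v hv => ?_, fun v _ => ?_, fun v hv => ?_, ?_, ?_, fun v hv => ?_, fun v hv => ?_⟩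
  · refine ((((hasDerivAt_pow 2 v).div_const 2).add (((e1 v).add (e2 v)).const_mul _)).add
      ((hasDerivAt_id v).const_mul _)).congr_deriv ?_
    field_simp; push_cast; ring
  · refine ((hasDerivAt_id v).add (((((e1 v).neg.add (e2 v)).add_const 1).sub_const _).const_mul
      _)).congr_deriv ?_
    field_simp
  · have h1 := b1 v hv
    have h2 := b2 v hv
    have h3 := Real.exp_pos (-K * v)
    have h4 := Real.exp_pos (K * (v - 1))
    have h5 : 0 < H * K := by positivity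
    rw [abs_le]
    constructor <;> nlinarith
  · have h3 := Real.exp_pos (-K * v)
    have h4 := Real.exp_pos (K * (v - 1))
    exact le_add_of_nonneg_right (by positivity)
  · have h1 := b1 v hv
    have h2 := b2 v hv
    have h3 := Real.exp_pos (-K * v)
    have h4 := Real.exp_pos (K * (v - 1))
    rw [abs_of_pos (by positivity)]
    nlinarith
  · simp
  · have h3 := Real.exp_pos (-K)
    simp only [mul_one, sub_self, mul_zero, Real.exp_zero]
    rw [show 4 * H / K = 2 * H / K * 2 by ring]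
    gcongr
    linarith
  · have h1 := Real.add_one_le_exp (-K * v)
    have h2 := Real.exp_pos (K * (v - 1))
    have h3 := mul_le_mul_of_nonneg_left hv.2 hK0.le
    simp only
    nlinarith
  · have h1 := Real.add_one_le_exp (K * (v - 1))
    have h2 := Real.exp_pos (-K * v)
    have h3 := mul_le_mul_of_nonneg_left hv.1 hK0.le
    simp only
    nlinarith

/-- The stationary phase lemma. -/
theorem profile_exists (η m0 : ℝ) (hη : 0 < η) (hm0 : 1 ≤ m0) :
    ∃ (Ω ω : ℝ → ℝ) (B ξ l0 : ℝ), (∀ v, HasDerivAt Ω (ω v) v) ∧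
      (∀ v ∈ Icc (0 : ℝ) 1, 0 ≤ ω v ∧ ω v ≤ 1 + η) ∧
      (∀ v ∈ Icc (0 : ℝ) 1, ∀ w ∈ Icc (0 : ℝ) 1, |ω v - ω w| ≤ B * |v - w|) ∧ 0 < l0 ∧
      ∀ l, l0 ≤ l → ∀ x, ∃ α Φ : ℝ, 0 ≤ α ∧ α ≤ 1 + η ∧ (α ≠ 0 → 0 ≤ x ∧ x < 1 + η) ∧
        ∀ m, 1 ≤ m → m ≤ m0 → ‖(∫ v in (0 : ℝ)..1, ee (l * m * (Ω v - x * v))) -
          ((α / √(l * m) : ℝ) : ℂ) * ee (ξ + l * m * Φ)‖ ≤ η / √l := by
  set H := (8 / η) ^ 2 with hH
  have hH0 : 0 < H := by positivity
  set K := 1 + 4 * H / η with hK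
  have hK1 : 1 ≤ K := le_add_of_nonneg_right (by positivity)
  obtain ⟨Ω, ω, ω1, ω2, B, h0, h1, h2, hB, hω, hB1, hz, ho, hl, hr⟩ := concrete_profile H K hH0 hK1
  set v1 := 1 / (4 * K) with hv1
  have hv0 : 0 < v1 := by positivity
  have hv2 : 4 * v1 ≤ 1 := by
    rw [hv1, mul_one_div, div_le_one (by positivity)]; linarith
  have ho' : ω 1 ≤ 1 + η := by
    refine ho.trans ?_
    have : 4 * H / K ≤ η := by
      rw [div_le_iff₀ (by positivity), hK, mul_add, mul_div_cancel₀ _ hη.ne']; linarith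
    linarith
  have hB0 : 0 ≤ B := (abs_nonneg _).trans (hB 0 (by simp))
  set ρ := 8 / η with hρ
  have hρ0 : 0 < ρ := by positivity
  obtain ⟨ξ, hξ⟩ := exists_polar (∫ u in -ρ..ρ, ee (u ^ 2 / 2))
  have hF := fresnel ρ hρ0
  set s0 := ρ / v1 + 28 * m0 * B * ρ ^ 4 / η + 2 / (η * v1) with hs0
  have hs00 : 0 < s0 := by positivity
  refine ⟨Ω, ω, B, ξ, s0 ^ 2, h0, fun v hv => ?_,
    fun v hv w hw => mvt_abs (fun v _ => h1 v) hB1 hv hw, by positivity, fun l hl0 x => ?_⟩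
  · have h3 := mvt_ge h1 hω (left_mem_Icc.2 zero_le_one) hv hv.1
    have h4 := mvt_ge h1 hω hv (right_mem_Icc.2 zero_le_one) hv.2
    constructor <;> linarith [hv.1, hv.2]
  obtain ⟨s, hs, rfl⟩ : ∃ s, s0 ≤ s ∧ l = s ^ 2 :=
    ⟨√l, Real.le_sqrt_of_sq_le hl0, (Real.sq_sqrt (le_trans (by positivity) hl0)).symm⟩
  have hsp : 0 < s := hs00.trans_le hs
  rw [Real.sqrt_sq hsp.le]
  have hs1 : ρ / v1 ≤ s := le_trans (by rw [hs0, add_assoc]; exact le_add_of_nonneg_right (by positivity)) hs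
  have hs2 : 28 * m0 * B * ρ ^ 4 / η ≤ s := le_trans (by
    rw [hs0, add_comm (ρ / v1), add_assoc]; exact le_add_of_nonneg_right (by positivity)) hs
  have hs3 : 2 / (η * v1) ≤ s := le_trans (le_add_of_nonneg_left (by positivity)) hs
  have hside : ∀ m, 1 ≤ m → 4 / √(s ^ 2 * m * H) + 1 / (s ^ 2 * m * v1) ≤ η / s := by
    intro m hm
    have h3 : s * (8 / η) ≤ √(s ^ 2 * m * H) := by
      apply Real.le_sqrt_of_sq_le
      rw [mul_pow, ← hH]
      gcongr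
      exact le_mul_of_one_le_right (by positivity) hm
    have h4 : 4 / √(s ^ 2 * m * H) ≤ η / 2 / s := by
      refine (div_le_div_of_nonneg_left (by norm_num) (by positivity) h3).trans (le_of_eq ?_)
      field_simp; ring
    have h5 : 1 / (s ^ 2 * m * v1) ≤ η / 2 / s := by
      rw [div_le_iff₀ (by positivity)] at hs3
      rw [div_le_div_iff₀ (by positivity) hsp]
      have : s * (η * v1) ≤ s * (η * v1) * m := le_mul_of_one_le_right (by positivity) hm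
      nlinarith
    rw [show η / s = η / 2 / s + η / 2 / s by ring]
    exact add_le_add h4 h5
  by_cases hx1 : x ≤ ω v1
  · refine ⟨0, 0, le_rfl, by positivity, fun h => absurd rfl h, fun m hm _ => ?_⟩
    simp only [zero_div, ofReal_zero, zero_mul, sub_zero]
    exact (sp_left h0 h1 hω v1 H _ x hv0 (by linarith) hH0 (by positivity) hl hx1).trans (hside m hm)
  by_cases hx2 : ω (1 - v1) ≤ x
  · refine ⟨0, 0, le_rfl, by positivity, fun h => absurd rfl h, fun m hm _ => ?_⟩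
    simp only [zero_div, ofReal_zero, zero_mul, sub_zero]
    exact (sp_right h0 h1 hω v1 H _ x hv0 (by linarith) hH0 (by positivity) hr hx2).trans
      (hside m hm)
  push Not at hx1 hx2
  obtain ⟨v0, hv, rfl⟩ := intermediate_value_Icc (show v1 ≤ 1 - v1 by linarith)
    (fun v _ => (h1 v).continuousAt.continuousWithinAt) ⟨hx1.le, hx2.le⟩
  have hv' : v0 ∈ Icc (0 : ℝ) 1 := ⟨by linarith [hv.1], by linarith [hv.2]⟩
  have hκ := hω v0 hv'
  have hκs : 1 ≤ √(ω1 v0) := Real.one_le_sqrt.2 hκ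
  refine ⟨‖∫ u in -ρ..ρ, ee (u ^ 2 / 2)‖ / √(ω1 v0), Ω v0 - ω v0 * v0, by positivity, ?_,
    fun _ => ?_, fun m hm hm' => ?_⟩
  · refine (div_le_self (norm_nonneg _) hκs).trans (hF.trans ?_)
    rw [hρ, div_div_eq_mul_div]; linarith
  · have h3 := mvt_ge h1 hω (left_mem_Icc.2 zero_le_one) hv' hv'.1
    have h4 := mvt_ge h1 hω hv' (right_mem_Icc.2 zero_le_one) hv'.2
    constructor <;> linarith [hv.1, hv.2]
  · have hr1 : ρ / s ≤ v1 := by
      rw [div_le_iff₀ hv0] at hs1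
      rw [div_le_iff₀ hsp]; linarith
    have hsm : s ≤ √(s ^ 2 * m) :=
      Real.le_sqrt_of_sq_le (le_mul_of_one_le_right (by positivity) hm)
    have h3 := sp_main h0 h1 h2 hB hω v0 (ρ / s) (s ^ 2 * m) ρ (by positivity)
      (by linarith [hv.1]) (by linarith [hv.2]) (by positivity) hρ0 (by
        rw [div_mul_eq_mul_div, le_div_iff₀ hsp]; gcongr)
    have h4 : ((1 / √(s ^ 2 * m * ω1 v0) : ℝ) : ℂ) *
        ((∫ u in -ρ..ρ, ee (u ^ 2 / 2)) * ee (s ^ 2 * m * (Ω v0 - ω v0 * v0))) =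
        ((‖∫ u in -ρ..ρ, ee (u ^ 2 / 2)‖ / √(ω1 v0) / √(s ^ 2 * m) : ℝ) : ℂ) *
          ee (ξ + s ^ 2 * m * (Ω v0 - ω v0 * v0)) := by
      rw [ee_add, Real.sqrt_mul (by positivity)]
      conv_lhs => rw [hξ]
      push_cast; ring
    rw [h4] at h3
    refine h3.trans ?_
    have h5 : 2 / (s ^ 2 * m * (ρ / s)) ≤ η / 4 / s := by
      have : s * ρ ≤ s ^ 2 * m * (ρ / s) := by
        rw [show s ^ 2 * m * (ρ / s) = s * ρ * m by field_simp]
        exact le_mul_of_one_le_right (by positivity) hm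
      refine (div_le_div_of_nonneg_left (by norm_num) (by positivity) this).trans (le_of_eq ?_)
      rw [hρ]; field_simp; ring
    have h6 : 2 / (ρ * √(s ^ 2 * m)) ≤ η / 4 / s := by
      refine (div_le_div_of_nonneg_left (by norm_num) (by positivity)
        (mul_le_mul_of_nonneg_left hsm hρ0.le)).trans (le_of_eq ?_)
      rw [hρ]; field_simp; ring
    have h7 : 14 * (s ^ 2 * m) * B * (ρ / s) ^ 4 ≤ η / 2 / s := by
      rw [show 14 * (s ^ 2 * m) * B * (ρ / s) ^ 4 = 14 * m * B * ρ ^ 4 / s / s by field_simp]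
      refine div_le_div_of_nonneg_right ?_ hsp.le
      rw [div_le_iff₀ hη] at hs2
      rw [div_le_iff₀ hsp]
      have : m * (B * ρ ^ 4) ≤ m0 * (B * ρ ^ 4) := mul_le_mul_of_nonneg_right hm' (by positivity)
      linarith
    rw [show η / s = η / 4 / s + η / 2 / s + η / 4 / s by ring]
    exact add_le_add (add_le_add h5 h7) h6

end Vale.Agent.P110
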