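import Mathlib

/-! Random colourings of a finite field: first and second moments. -/

set_option linter.unusedSectionVars false

namespace Vale.Agent.P110

open Finset

theorem exp_prod {F Col A : Type} [Fintype F] [DecidableEq F] [Fintype Col] [DecidableEq Col]
    (wt : Col → ℝ) (hwt : ∑ c, wt c = 1) (s : Finset A) (x : A → F) (cl : A → Col)
    (hx : Set.InjOn x s) :
    ∑ κ : F → Col, (∏ b, wt (κ b)) * ∏ a ∈ s, (if κ (x a) = cl a then (1 : ℝ) else 0) =
      ∏ a ∈ s, wt (cl a) := by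
  have h1 : ∀ κ : F → Col, ∏ a ∈ s, (if κ (x a) = cl a then (1 : ℝ) else 0) =
      ∏ b, ∏ a ∈ s with x a = b, (if κ b = cl a then (1 : ℝ) else 0) := by
    intro κ
    rw [← prod_fiberwise s x]
    refine prod_congr rfl (fun b _ => prod_congr rfl (fun a ha => ?_))
    rw [(mem_filter.1 ha).2]
  simp_rw [h1, ← prod_mul_distrib]
  rw [← Fintype.piFinset_univ, ← prod_univ_sum (fun _ => univ)
    (fun b c => wt c * ∏ a ∈ s with x a = b, (if c = cl a then (1 : ℝ) else 0)),
    ← prod_fiberwise s x]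
  refine prod_congr rfl (fun b _ => ?_)
  rcases (s.filter (fun a => x a = b)).eq_empty_or_nonempty with h | ⟨a, ha⟩
  · rw [h]; simpa using hwt
  · have : s.filter (fun a => x a = b) = {a} := by
      refine eq_singleton_iff_unique_mem.2 ⟨ha, fun a' ha' => ?_⟩
      rw [mem_filter] at ha ha'
      exact hx ha'.1 ha.1 (ha'.2.trans ha.2.symm)
    rw [this]; simp

section Lines

variable {F : Type} [Field F] [Fintype F] [DecidableEq F]

theorem line_card (A B C : F) (h : ¬(A = 0 ∧ B = 0)) :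
    #{γ : F × F | A * γ.1 + B * γ.2 = C} ≤ Fintype.card F := by
  rw [← card_univ]
  by_cases hA : A = 0
  · have hB : B ≠ 0 := fun hB => h ⟨hA, hB⟩
    refine card_le_card_of_injOn Prod.fst (fun _ _ => mem_univ _) ?_
    intro γ h1 γ' h2 h3
    simp only [coe_filter, mem_univ, true_and, Set.mem_setOf_eq] at h1 h2
    refine Prod.ext h3 (mul_left_cancel₀ hB ?_)
    rw [h3] at h1
    linear_combination h1 - h2
  · refine card_le_card_of_injOn Prod.snd (fun _ _ => mem_univ _) ?_
    intro γ h1 γ' h2 h3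
    simp only [coe_filter, mem_univ, true_and, Set.mem_setOf_eq] at h1 h2
    refine Prod.ext (mul_left_cancel₀ hA ?_) h3
    rw [h3] at h1
    linear_combination h1 - h2

theorem point_card (A B C A' B' C' : F) (h : A * B' ≠ A' * B) :
    #{γ : F × F | A * γ.1 + B * γ.2 = C ∧ A' * γ.1 + B' * γ.2 = C'} ≤ 1 := by
  rw [card_le_one]
  intro γ h1 γ' h2
  simp only [mem_filter, mem_univ, true_and] at h1 h2
  have h3 : A * B' - A' * B ≠ 0 := sub_ne_zero.2 h
  refine Prod.ext (mul_left_cancel₀ h3 ?_) (mul_left_cancel₀ h3 ?_)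
  · linear_combination B' * (h1.1 - h2.1) - B * (h1.2 - h2.2)
  · linear_combination A * (h1.2 - h2.2) - A' * (h1.1 - h2.1)

end Lines

/-- The data of a family of affine forms on the plane over `F`, with orbit representatives for the
reflection `b ↦ -1 - b`. -/
structure Forms (F Λ : Type) [Field F] where
  a : Λ → F
  b : Λ → F
  sh : Λ → F
  rep : F → F
  side : F → Bool
  det : ∀ n n', n ≠ n' → a n * b n' ≠ a n' * b n
  two : ∀ n, 2 * a n ≠ 0
  rep_eq : ∀ x y, rep x = rep y → x = y ∨ x = -1 - y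

namespace Forms

variable {F Λ : Type} [Field F] [Fintype F] [DecidableEq F] [Fintype Λ] [DecidableEq Λ]
  (D : Forms F Λ)

/-- Value of the form `n`. -/
def pos (n : Λ) (γ : F × F) : F := D.a n * γ.1 + D.b n * γ.2 + D.sh n

/-- Generic points. -/
def gen : Finset (F × F) :=
  {γ | (∀ n n', D.rep (D.pos n γ) = D.rep (D.pos n' γ) → n = n') ∧
    ∀ n, D.pos n γ ≠ -1 - D.pos n γ}

/-- Indicator that the forms in `s` land in their own colours. -/
def X (κ : F → Λ × Bool) (s : Finset Λ) (γ : F × F) : ℝ :=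
  ∏ n ∈ s, if κ (D.rep (D.pos n γ)) = (n, D.side (D.pos n γ)) then 1 else 0

/-- Load of the block `c` for the class `n`. -/
def N (κ : F → Λ × Bool) (n : Λ) (c : F) : ℝ :=
  ∑ γ ∈ D.gen with D.pos n γ = c, D.X κ (univ.erase n) γ

theorem X_cases (κ : F → Λ × Bool) (s : Finset Λ) (γ : F × F) :
    D.X κ s γ = 0 ∨ D.X κ s γ = 1 := by
  unfold X
  rw [prod_boole]
  split_ifs <;> simp

theorem X_nonneg (κ : F → Λ × Bool) (s : Finset Λ) (γ : F × F) : 0 ≤ D.X κ s γ := by
  rcases D.X_cases κ s γ with h | h <;> rw [h] <;> norm_num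

theorem X_le_one (κ : F → Λ × Bool) (s : Finset Λ) (γ : F × F) : D.X κ s γ ≤ 1 := by
  rcases D.X_cases κ s γ with h | h <;> rw [h] <;> norm_num

theorem pos_card (n : Λ) (c : F) : #{γ : F × F | D.pos n γ = c} ≤ Fintype.card F := by
  refine le_trans (card_le_card ?_) (line_card (D.a n) (D.b n) (c - D.sh n) ?_)
  · intro γ h
    have h1 := (mem_filter.1 h).2
    refine mem_filter.2 ⟨mem_univ _, ?_⟩
    unfold pos at h1
    linear_combination h1
  · rintro ⟨h, -⟩
    exact D.two n (by rw [h, mul_zero])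

theorem gen_card : (Fintype.card F : ℝ) ^ 2 - (2 * Fintype.card Λ ^ 2 + Fintype.card Λ) *
    Fintype.card F ≤ #D.gen := by
  have h1 : D.genᶜ ⊆ ((univ : Finset (Λ × Λ)).biUnion fun q =>
      if q.1 = q.2 then ∅ else
        (univ.filter (fun γ : F × F => (D.a q.1 - D.a q.2) * γ.1 + (D.b q.1 - D.b q.2) * γ.2 =
          D.sh q.2 - D.sh q.1) ∪
        univ.filter (fun γ : F × F => (D.a q.1 + D.a q.2) * γ.1 + (D.b q.1 + D.b q.2) * γ.2 =
          -1 - D.sh q.2 - D.sh q.1))) ∪
      (univ.biUnion fun n : Λ => univ.filter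
        (fun γ : F × F => (2 * D.a n) * γ.1 + (2 * D.b n) * γ.2 = -1 - 2 * D.sh n)) := by
    intro γ hγ
    simp only [gen, mem_compl, mem_filter, mem_univ, true_and, not_and_or, not_forall,
      not_not] at hγ
    rcases hγ with ⟨n, n', h, hne⟩ | ⟨n, h⟩
    · refine mem_union_left _ (mem_biUnion.2 ⟨(n, n'), mem_univ _, ?_⟩)
      simp only [if_neg hne, mem_union, mem_filter, mem_univ, true_and]
      rcases D.rep_eq _ _ h with h | h
      · left; unfold pos at h; linear_combination h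
      · right; unfold pos at h; linear_combination h
    · refine mem_union_right _ (mem_biUnion.2 ⟨n, mem_univ _, ?_⟩)
      simp only [mem_filter, mem_univ, true_and]
      unfold pos at h; linear_combination h
  have h2 : #(D.genᶜ) ≤ Fintype.card Λ ^ 2 * (2 * Fintype.card F) +
      Fintype.card Λ * Fintype.card F := by
    refine (card_le_card h1).trans ((card_union_le _ _).trans (add_le_add ?_ ?_))
    · refine (card_biUnion_le_card_mul _ _ (2 * Fintype.card F) ?_).trans ?_
      · intro q _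
        split_ifs with hq
        · simp
        · have hd := D.det _ _ hq
          refine (card_union_le _ _).trans ?_
          rw [two_mul]
          refine add_le_add (line_card _ _ _ ?_) (line_card _ _ _ ?_)
          · rintro ⟨h3, h4⟩
            apply hd
            linear_combination D.b q.2 * h3 - D.a q.2 * h4
          · rintro ⟨h3, h4⟩
            apply hd
            linear_combination D.b q.2 * h3 - D.a q.2 * h4
      · rw [card_univ, Fintype.card_prod, sq]
    · refine (card_biUnion_le_card_mul _ _ (Fintype.card F) ?_).trans ?_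
      · intro n _
        exact line_card _ _ _ (fun h => D.two n h.1)
      · rw [card_univ]
  have h3 := card_add_card_compl D.gen
  rw [Fintype.card_prod] at h3
  have h4 : ((#D.gen : ℕ) : ℝ) + #(D.genᶜ) = Fintype.card F * Fintype.card F := by
    exact_mod_cast h3
  have h5 : ((#(D.genᶜ) : ℕ) : ℝ) ≤ Fintype.card Λ ^ 2 * (2 * Fintype.card F) +
      Fintype.card Λ * Fintype.card F := by exact_mod_cast h2
  nlinarith

variable (w : Λ → ℝ)

/-- Probability of a colouring. -/
def pr (κ : F → Λ × Bool) : ℝ := ∏ b, w (κ b).1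

variable {w}

theorem wsum (hs : 2 * ∑ n, w n = 1) : ∑ c : Λ × Bool, w c.1 = 1 := by
  rw [Fintype.sum_prod_type]
  simp only [sum_const, card_univ, Fintype.card_bool, nsmul_eq_mul, ← mul_sum]
  exact_mod_cast hs

theorem pr_sum (hs : 2 * ∑ n, w n = 1) : ∑ κ : F → Λ × Bool, pr w κ = 1 := by
  have := exp_prod (F := F) (A := Unit) (fun c : Λ × Bool => w c.1) (wsum hs) ∅ (fun _ => 0)
  rcases isEmpty_or_nonempty Λ with h | ⟨⟨n⟩⟩
  · simp at hs
  · simpa [pr] using this (fun _ => (n, true))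

theorem pr_nonneg (hw : ∀ n, 0 < w n) (κ : F → Λ × Bool) : 0 ≤ pr w κ :=
  prod_nonneg (fun _ _ => (hw _).le)

theorem exp_X (hs : 2 * ∑ n, w n = 1) (s : Finset Λ) (γ : F × F) (hγ : γ ∈ D.gen) :
    ∑ κ, pr w κ * D.X κ s γ = ∏ n ∈ s, w n := by
  refine exp_prod (fun c : Λ × Bool => w c.1) (wsum hs) s (fun n => D.rep (D.pos n γ))
    (fun n => (n, D.side (D.pos n γ))) ?_
  intro n _ n' _ h
  exact (mem_filter.1 hγ).2.1 n n' h

theorem exp_XX (hs : 2 * ∑ n, w n = 1) (s : Finset Λ) (γ γ' : F × F) (hγ : γ ∈ D.gen)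
    (hγ' : γ' ∈ D.gen) (hc : ∀ n ∈ s, ∀ n' ∈ s, D.rep (D.pos n γ) ≠ D.rep (D.pos n' γ')) :
    ∑ κ, pr w κ * (D.X κ s γ * D.X κ s γ') = (∏ n ∈ s, w n) ^ 2 := by
  have := exp_prod (fun c : Λ × Bool => w c.1) (wsum hs) (s.disjSum s)
    (Sum.elim (fun n => D.rep (D.pos n γ)) (fun n => D.rep (D.pos n γ')))
    (Sum.elim (fun n => (n, D.side (D.pos n γ))) (fun n => (n, D.side (D.pos n γ')))) ?_
  · simp only [prod_disjSum, Sum.elim_inl, Sum.elim_inr] at this
    rw [sq]
    exact this
  · rintro (n | n) hn (n' | n') hn' h <;>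
      simp only [Sum.elim_inl, Sum.elim_inr, mem_coe, inl_mem_disjSum, inr_mem_disjSum] at h hn hn'
    · rw [(mem_filter.1 hγ).2.1 n n' h]
    · exact absurd h (hc _ hn _ hn')
    · exact absurd h.symm (hc _ hn' _ hn)
    · rw [(mem_filter.1 hγ').2.1 n n' h]

theorem cross_card (n : Λ) (γ : F × F) (c : F) :
    #{γ' : F × F | D.pos n γ' = c ∧ ¬ ∀ n1 ∈ univ.erase n, ∀ n2 ∈ univ.erase n,
      D.rep (D.pos n1 γ) ≠ D.rep (D.pos n2 γ')} ≤ Fintype.card Λ ^ 2 * 2 := by
  have h1 : ({γ' : F × F | D.pos n γ' = c ∧ ¬ ∀ n1 ∈ univ.erase n, ∀ n2 ∈ univ.erase n,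
      D.rep (D.pos n1 γ) ≠ D.rep (D.pos n2 γ')} : Finset _) ⊆
      (univ : Finset (Λ × Λ)).biUnion fun q => if q.2 = n then ∅ else
        (univ.filter (fun γ' : F × F => D.a n * γ'.1 + D.b n * γ'.2 = c - D.sh n ∧
          D.a q.2 * γ'.1 + D.b q.2 * γ'.2 = D.pos q.1 γ - D.sh q.2) ∪
        univ.filter (fun γ' : F × F => D.a n * γ'.1 + D.b n * γ'.2 = c - D.sh n ∧
          D.a q.2 * γ'.1 + D.b q.2 * γ'.2 = -1 - D.pos q.1 γ - D.sh q.2)) := by
    intro γ' h
    simp only [mem_filter, mem_univ, true_and, not_forall, not_not] at h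
    obtain ⟨h1, n1, -, n2, hn2, h2⟩ := h
    refine mem_biUnion.2 ⟨(n1, n2), mem_univ _, ?_⟩
    simp only [if_neg (ne_of_mem_erase hn2), mem_union, mem_filter, mem_univ, true_and]
    have h3 : D.a n * γ'.1 + D.b n * γ'.2 = c - D.sh n := by
      unfold pos at h1; linear_combination h1
    rcases D.rep_eq _ _ h2 with h | h
    · left; refine ⟨h3, ?_⟩; rw [h]; unfold pos; ring
    · right; refine ⟨h3, ?_⟩; rw [h]; unfold pos; ring
  refine (card_le_card h1).trans ((card_biUnion_le_card_mul _ _ 2 ?_).trans ?_)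
  · intro q _
    split_ifs with hq
    · simp
    · have hd := D.det _ _ (Ne.symm hq)
      exact (card_union_le _ _).trans (add_le_add (point_card _ _ _ _ _ _ hd)
        (point_card _ _ _ _ _ _ hd))
  · rw [card_univ, Fintype.card_prod, sq]

end Forms

end Vale.Agent.P110
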