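import Vale.Agent.P110.Half

/-! Full colourings and rounding of fractional vectors to sign vectors. -/

namespace Vale.Agent.P110

open Finset

variable {J κ : Type} [Fintype J] [DecidableEq κ]

theorem half_finset (S : Finset κ) (hS : S.Nonempty) (hm : #S ≤ Fintype.card J) (v : J → κ → ℝ)
    (hv : ∀ j k, |v j k| ≤ 1) (D : ℝ) (hD0 : 0 ≤ D)
    (hD : 3136 * (Fintype.card J : ℝ) ^ 2 * #S ≤ D ^ 6) :
    ∃ (χ : κ → ℝ) (S' : Finset κ), S' ⊆ S ∧ 10 * #S' < 9 * #S ∧ (∀ k ∈ S', χ k = 0) ∧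
      (∀ k ∈ S \ S', χ k = 1 ∨ χ k = -1) ∧ ∀ j, |∑ k ∈ S, χ k * v j k| ≤ D := by
  let e := S.equivFin
  obtain ⟨σ, τ, h1, h2⟩ := half_colouring (J := J) #S hS.card_pos hm (fun j k => v j (e.symm k))
    (fun j k => hv _ _) D hD0 hD
  let χ : κ → ℝ := fun k => if h : k ∈ S then (sg (σ (e ⟨k, h⟩)) - sg (τ (e ⟨k, h⟩))) / 2 else 0
  have hχ : ∀ i, χ (e.symm i) = (sg (σ i) - sg (τ i)) / 2 := by
    intro i
    simp only [χ, dif_pos (e.symm i).2, Subtype.coe_eta, Equiv.apply_symm_apply]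
  refine ⟨χ, (univ.filter (fun i => τ i = σ i)).image (fun i => (e.symm i : κ)), ?_, ?_, ?_, ?_, ?_⟩
  · intro k hk
    obtain ⟨i, -, rfl⟩ := mem_image.1 hk
    exact (e.symm i).2
  · have h3 := card_image_le (s := univ.filter (fun i => τ i = σ i)) (f := fun i => (e.symm i : κ))
    have h4 := card_filter_add_card_filter_not (s := (univ : Finset (Fin #S))) (fun i => τ i = σ i)
    rw [card_univ, Fintype.card_fin] at h4
    simp only [ne_eq] at h1
    omega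
  · intro k hk
    obtain ⟨i, hi, rfl⟩ := mem_image.1 hk
    rw [hχ, (mem_filter.1 hi).2]; simp
  · intro k hk
    rw [mem_sdiff] at hk
    obtain ⟨i, rfl⟩ : ∃ i, (e.symm i : κ) = k := ⟨e ⟨k, hk.1⟩, by simp⟩
    have h3 : τ i ≠ σ i := fun h => hk.2 (mem_image_of_mem _ (mem_filter.2 ⟨mem_univ _, h⟩))
    rw [hχ]
    revert h3
    cases σ i <;> cases τ i <;> norm_num [sg]
  · intro j
    rw [← sum_coe_sort S, ← Equiv.sum_comp e.symm]
    simp only [hχ]
    exact h2 j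

theorem full_colouring (v : J → κ → ℝ) (hv : ∀ j k, |v j k| ≤ 1) (n : ℕ) :
    ∀ (S : Finset κ), #S = n → #S ≤ Fintype.card J → ∀ D : ℝ, 0 ≤ D →
      3136 * 60 ^ 6 * (Fintype.card J : ℝ) ^ 2 * #S ≤ D ^ 6 →
      ∃ χ : κ → ℝ, (∀ k ∈ S, χ k = 1 ∨ χ k = -1) ∧ ∀ j, |∑ k ∈ S, χ k * v j k| ≤ D := by
  induction n using Nat.strong_induction_on with
  | _ n ih =>
    intro S hn hm D hD0 hD
    rcases S.eq_empty_or_nonempty with rfl | hS
    · exact ⟨0, by simp, by simpa using fun _ => hD0⟩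
    obtain ⟨χ, S', h1, h2, h3, h4, h5⟩ := half_finset S hS hm v hv (D / 60) (by positivity)
      (by rw [div_pow, le_div_iff₀ (by positivity)]; linarith)
    obtain ⟨χ', h6, h7⟩ := ih #S' (by omega) S' rfl (by omega) (59 / 60 * D) (by positivity) (by
      have h8 : 10 * (#S' : ℝ) ≤ 9 * #S := by exact_mod_cast h2.le
      have h9 := mul_le_mul_of_nonneg_left h8 (sq_nonneg (Fintype.card J : ℝ))
      have h10 : 0 ≤ D ^ 6 := by positivity
      rw [mul_pow]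
      nlinarith)
    refine ⟨fun k => if k ∈ S' then χ' k else χ k, fun k hk => ?_, fun j => ?_⟩
    · by_cases h : k ∈ S'
      · simp only [if_pos h]; exact h6 k h
      · simp only [if_neg h]; exact h4 k (mem_sdiff.2 ⟨hk, h⟩)
    · have h8 : ∑ k ∈ S, (if k ∈ S' then χ' k else χ k) * v j k =
          ∑ k ∈ S, χ k * v j k + ∑ k ∈ S', χ' k * v j k := by
        rw [← sum_subset_zero_on_sdiff h1 (f := fun k => χ' k * v j k)
          (g := fun k => if k ∈ S' then χ' k * v j k else 0)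
          (fun k hk => if_neg (mem_sdiff.1 hk).2) (fun k hk => (if_pos hk).symm) |>.symm,
          ← sum_add_distrib]
        refine sum_congr rfl (fun k _ => ?_)
        split_ifs with h
        · rw [h3 k h]; simp
        · simp
      rw [h8]
      have := abs_add_le (∑ k ∈ S, χ k * v j k) (∑ k ∈ S', χ' k * v j k)
      linarith [h5 j, h7 j]

theorem odd_step (L : ℕ) (y s : ℝ) (hs : s = 1 ∨ s = -1) (h0 : 0 ≤ y) (h1 : y ≤ 1)
    (hy : ∃ Y : ℤ, y = Y / 2 ^ (L + 1)) (hn : ¬ ∃ Y : ℤ, y = Y / 2 ^ L) :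
    (∃ Y : ℤ, y + s / 2 ^ (L + 1) = Y / 2 ^ L) ∧ 0 ≤ y + s / 2 ^ (L + 1) ∧
      y + s / 2 ^ (L + 1) ≤ 1 ∧ 1 / 2 ^ (L + 2) ≤ y * (1 - y) := by
  obtain ⟨Y, rfl⟩ := hy
  have hP : (0 : ℝ) < 2 ^ L := by positivity
  obtain ⟨Z, rfl | rfl⟩ := Int.even_or_odd' Y
  · exact absurd ⟨Z, by push_cast; rw [pow_succ]; field_simp⟩ hn
  rw [div_le_one (by positivity)] at h1
  rw [le_div_iff₀ (by positivity), zero_mul] at h0
  have h2 : 0 ≤ 2 * Z + 1 := by exact_mod_cast h0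
  have h3 : 2 * Z + 1 ≤ 2 ^ (L + 1) := by exact_mod_cast h1
  rw [pow_succ] at h3
  have h4 : (0 : ℝ) ≤ Z := by exact_mod_cast (show 0 ≤ Z by omega)
  have h5 : (Z : ℝ) + 1 ≤ 2 ^ L := by exact_mod_cast (show Z + 1 ≤ 2 ^ L by omega)
  push_cast
  rw [pow_succ, pow_succ, pow_succ]
  generalize (2 : ℝ) ^ L = P at *
  refine ⟨?_, ?_, ?_, ?_⟩
  · rcases hs with rfl | rfl
    · exact ⟨Z + 1, by push_cast; field_simp; ring⟩
    · exact ⟨Z, by field_simp; ring⟩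
  · rw [← add_div]
    rcases hs with rfl | rfl <;> exact div_nonneg (by linarith) (by positivity)
  · rw [← add_div, div_le_one (by positivity)]
    rcases hs with rfl | rfl <;> linarith
  · have : (2 * (Z : ℝ) + 1) / (P * 2) * (1 - (2 * Z + 1) / (P * 2)) =
        (2 * Z + 1) * (2 * P - 2 * Z - 1) / P / (P * 2 * 2) := by field_simp; ring
    rw [this]
    refine div_le_div_of_nonneg_right ?_ (by positivity)
    rw [le_div_iff₀ hP]
    nlinarith

theorem dyadic_round (v : J → κ → ℝ) (hv : ∀ j k, |v j k| ≤ 1) (U : Finset κ)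
    (hU : #U ≤ Fintype.card J) (V D : ℝ) (hD0 : 0 ≤ D)
    (hD : 3136 * 60 ^ 6 * (Fintype.card J : ℝ) ^ 2 * V ≤ D ^ 6) (L : ℕ) :
    ∀ y : κ → ℝ, (∀ k ∈ U, 0 ≤ y k ∧ y k ≤ 1 ∧ ∃ Y : ℤ, y k = Y / 2 ^ L) →
      ∑ k ∈ U, y k * (1 - y k) ≤ V →
      ∃ b : κ → ℝ, (∀ k ∈ U, b k = 0 ∨ b k = 1) ∧
        ∀ j, |∑ k ∈ U, (b k - y k) * v j k| ≤ 2 * D * (1 - (9 / 16) ^ L) := by
  classical
  induction L with
  | zero =>
    intro y hy _
    refine ⟨y, fun k hk => ?_, by simp⟩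
    obtain ⟨h0, h1, Y, hY⟩ := hy k hk
    rw [pow_zero, div_one] at hY
    rw [hY] at h0 h1 ⊢
    have h2 : 0 ≤ Y := by exact_mod_cast h0
    have h3 : Y ≤ 1 := by exact_mod_cast h1
    have : Y = 0 ∨ Y = 1 := by omega
    exact_mod_cast this
  | succ L ih =>
    intro y hy hV
    let S := U.filter (fun k => ¬ ∃ Y : ℤ, y k = Y / 2 ^ L)
    have hSU : S ⊆ U := filter_subset _ _
    have hodd := fun k (hk : k ∈ S) s hs => odd_step L (y k) s hs (hy k (hSU hk)).1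
      (hy k (hSU hk)).2.1 (hy k (hSU hk)).2.2 (mem_filter.1 hk).2
    have hS : (#S : ℝ) ≤ 2 ^ (L + 2) * V := by
      have h1 : ∑ k ∈ S, (1 / 2 ^ (L + 2) : ℝ) ≤ ∑ k ∈ U, y k * (1 - y k) :=
        (sum_le_sum (fun k hk => (hodd k hk 1 (Or.inl rfl)).2.2.2)).trans
          (sum_le_sum_of_subset_of_nonneg hSU (fun k hk _ =>
            mul_nonneg (hy k hk).1 (sub_nonneg.2 (hy k hk).2.1)))
      rw [sum_const, nsmul_eq_mul, mul_one_div, div_le_iff₀ (by positivity)] at h1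
      nlinarith [show (0 : ℝ) < 2 ^ (L + 2) by positivity]
    obtain ⟨χ0, h1, h2⟩ := full_colouring v hv _ S rfl ((card_le_card hSU).trans hU)
      (D * (9 / 8) ^ (L + 2)) (by positivity) (by
        rw [mul_pow, ← pow_mul, mul_comm (L + 2), pow_mul]
        have h3 : (2 : ℝ) ^ (L + 2) ≤ ((9 / 8) ^ 6) ^ (L + 2) :=
          pow_le_pow_left₀ (by norm_num) (by norm_num) _
        calc 3136 * 60 ^ 6 * (Fintype.card J : ℝ) ^ 2 * #S
            ≤ 3136 * 60 ^ 6 * (Fintype.card J : ℝ) ^ 2 * (2 ^ (L + 2) * V) := by gcongr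
          _ = (3136 * 60 ^ 6 * (Fintype.card J : ℝ) ^ 2 * V) * 2 ^ (L + 2) := by ring
          _ ≤ _ := by gcongr)
    obtain ⟨χ, h3, h4, h5⟩ : ∃ χ : κ → ℝ, (∀ k ∈ S, χ k = 1 ∨ χ k = -1) ∧
        (∀ j, |∑ k ∈ S, χ k * v j k| ≤ D * (9 / 8) ^ (L + 2)) ∧
        ∑ k ∈ S, χ k * (1 - 2 * y k) ≤ 0 := by
      by_cases h : ∑ k ∈ S, χ0 k * (1 - 2 * y k) ≤ 0
      · exact ⟨χ0, h1, h2, h⟩
      · refine ⟨fun k => - χ0 k, fun k hk => ?_, fun j => ?_, ?_⟩
        · rcases h1 k hk with h | h <;> simp [h]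
        · simp only [neg_mul, sum_neg_distrib, abs_neg]; exact h2 j
        · simp only [neg_mul, sum_neg_distrib]; linarith
    have hsum : ∀ f : κ → ℝ, ∑ k ∈ U, (if k ∈ S then f k else 0) = ∑ k ∈ S, f k := by
      intro f
      rw [sum_ite_mem, inter_eq_right.2 hSU]
    obtain ⟨b, h6, h7⟩ := ih (fun k => y k + if k ∈ S then χ k / 2 ^ (L + 1) else 0)
      (fun k hk => by
        by_cases h : k ∈ S
        · simp only [if_pos h]
          have := hodd k h (χ k) (h3 k h)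
          exact ⟨this.2.1, this.2.2.1, this.1⟩
        · simp only [if_neg h, add_zero]
          refine ⟨(hy k hk).1, (hy k hk).2.1, ?_⟩
          by_contra h'
          exact h (mem_filter.2 ⟨hk, h'⟩)) (by
        refine le_trans ?_ hV
        have h8 : ∑ k ∈ U, (y k + if k ∈ S then χ k / 2 ^ (L + 1) else 0) *
            (1 - (y k + if k ∈ S then χ k / 2 ^ (L + 1) else 0)) ≤
            ∑ k ∈ U, (y k * (1 - y k) +
              if k ∈ S then 1 / 2 ^ (L + 1) * (χ k * (1 - 2 * y k)) else 0) := by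
          refine sum_le_sum (fun k _ => ?_)
          split_ifs
          · rw [div_eq_mul_one_div (χ k)]
            nlinarith [sq_nonneg (χ k * (1 / 2 ^ (L + 1)))]
          · simp
        rw [sum_add_distrib, hsum, ← mul_sum] at h8
        have := mul_nonpos_of_nonneg_of_nonpos (show (0 : ℝ) ≤ 1 / 2 ^ (L + 1) by positivity) h5
        linarith)
    refine ⟨b, h6, fun j => ?_⟩
    have h8 : ∑ k ∈ U, (b k - y k) * v j k =
        ∑ k ∈ U, (b k - (y k + if k ∈ S then χ k / 2 ^ (L + 1) else 0)) * v j k +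
          1 / 2 ^ (L + 1) * ∑ k ∈ S, χ k * v j k := by
      rw [mul_sum, ← hsum, ← sum_add_distrib]
      refine sum_congr rfl (fun k _ => ?_)
      split_ifs <;> ring
    rw [h8]
    refine (abs_add_le _ _).trans ?_
    rw [abs_mul, abs_of_nonneg (show (0 : ℝ) ≤ 1 / 2 ^ (L + 1) by positivity)]
    have h9 := mul_le_mul_of_nonneg_left (h4 j) (show (0 : ℝ) ≤ 1 / 2 ^ (L + 1) by positivity)
    have h10 : (1 : ℝ) / 2 ^ (L + 1) * (D * (9 / 8) ^ (L + 2)) = 81 / 128 * (D * (9 / 16) ^ L) := by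
      rw [show (9 / 8 : ℝ) = 9 / 16 * 2 by norm_num, mul_pow]
      field_simp; ring
    have h11 : 0 ≤ D * (9 / 16) ^ L := by positivity
    have := h7 j
    rw [pow_succ (9 / 16 : ℝ)]
    linarith

theorem round_real (v : J → κ → ℝ) (hv : ∀ j k, |v j k| ≤ 1) (U : Finset κ)
    (hU : #U ≤ Fintype.card J) (V D : ℝ) (hV0 : 0 < V) (hD0 : 0 < D)
    (hD : 3136 * 60 ^ 6 * (Fintype.card J : ℝ) ^ 2 * V ≤ D ^ 6) (a : κ → ℝ)
    (ha : ∀ k ∈ U, |a k| ≤ 1) (hV : ∑ k ∈ U, (1 - a k ^ 2) ≤ V) :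
    ∃ s : κ → ℝ, (∀ k ∈ U, s k = 1 ∨ s k = -1) ∧ ∀ j, |∑ k ∈ U, (s k - a k) * v j k| ≤ 5 * D := by
  obtain ⟨L, hL⟩ := pow_unbounded_of_one_lt (#U / min (V / 2) (D / 2)) (show (1 : ℝ) < 2 by norm_num)
  rw [div_lt_iff₀ (by positivity), mul_comm, ← div_lt_iff₀ (by positivity)] at hL
  have hL1 := hL.le.trans (min_le_left _ _)
  have hL2 := hL.le.trans (min_le_right _ _)
  have hP : (0 : ℝ) < 2 ^ L := by positivity
  let y : κ → ℝ := fun k => ⌊(1 + a k) / 2 * 2 ^ L⌋ / 2 ^ L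
  have hy1 : ∀ k, y k ≤ (1 + a k) / 2 := fun k => by
    rw [div_le_iff₀ hP]; exact Int.floor_le _
  have hy2 : ∀ k, (1 + a k) / 2 ≤ y k + 1 / 2 ^ L := fun k => by
    rw [← add_div, le_div_iff₀ hP]; exact (Int.lt_floor_add_one _).le
  have hy0 : ∀ k ∈ U, 0 ≤ y k := fun k hk => by
    have := abs_le.1 (ha k hk)
    refine div_nonneg ?_ hP.le
    exact_mod_cast Int.floor_nonneg.2 (mul_nonneg (by linarith) hP.le)
  obtain ⟨b, h1, h2⟩ := dyadic_round v hv U hU V D hD0.le hD L y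
    (fun k hk => ⟨hy0 k hk, by linarith [hy1 k, abs_le.1 (ha k hk)], _, rfl⟩) (by
      have h3 : ∑ k ∈ U, y k * (1 - y k) ≤ ∑ k ∈ U, ((1 - a k ^ 2) / 4 + 1 / 2 ^ L) := by
        refine sum_le_sum (fun k hk => ?_)
        have := abs_le.1 (ha k hk)
        nlinarith [hy0 k hk, hy1 k, hy2 k]
      rw [sum_add_distrib, ← sum_div, sum_const, nsmul_eq_mul, mul_one_div] at h3
      linarith)
  refine ⟨fun k => 2 * b k - 1, fun k hk => ?_, fun j => ?_⟩
  · rcases h1 k hk with h | h <;> simp only [h] <;> norm_num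
  · have h3 : ∑ k ∈ U, (2 * b k - 1 - a k) * v j k =
        2 * ∑ k ∈ U, (b k - y k) * v j k + 2 * ∑ k ∈ U, (y k - (1 + a k) / 2) * v j k := by
      rw [mul_sum, mul_sum, ← sum_add_distrib]
      exact sum_congr rfl (fun k _ => by ring)
    have h4 : |∑ k ∈ U, (y k - (1 + a k) / 2) * v j k| ≤ #U / 2 ^ L := by
      refine (abs_sum_le_sum_abs _ _).trans ((sum_le_sum (g := fun _ => 1 / 2 ^ L)
        (fun k _ => ?_)).trans (by rw [sum_const, nsmul_eq_mul, mul_one_div]))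
      rw [abs_mul]
      refine (mul_le_of_le_one_right (abs_nonneg _) (hv j k)).trans ?_
      rw [abs_le]
      constructor <;> linarith [hy1 k, hy2 k, show (0 : ℝ) < 1 / 2 ^ L by positivity]
    have h5 := h2 j
    have h6 : 0 ≤ D * (9 / 16) ^ L := by positivity
    rw [h3]
    rw [abs_le] at h4 h5 ⊢
    constructor <;> linarith [h4.1, h4.2, h5.1, h5.2]

end Vale.Agent.P110
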