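import Vale.Agent.P110.Osc2

/-! One slot: connector, core, connector. -/

namespace Vale.Agent.P110

open Complex Set MeasureTheory

/-- Projection onto `[a, b]`. -/
def cl (a b x : ℝ) : ℝ := max a (min b x)

theorem cl_mem {a b : ℝ} (h : a ≤ b) (x : ℝ) : cl a b x ∈ Icc a b :=
  ⟨le_max_left _ _, max_le h (min_le_left _ _)⟩

theorem cl_lip (a b x y : ℝ) : |cl a b x - cl a b y| ≤ |x - y| := by
  unfold cl
  rw [max_comm a, max_comm a]
  refine (abs_max_sub_max_le_abs _ _ _).trans ?_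
  refine (abs_min_sub_min_le_max _ _ _ _).trans ?_
  simp

theorem cl_left {a b x : ℝ} (h : x ≤ a) : cl a b x = a :=
  max_eq_left ((min_le_right _ _).trans h)

theorem cl_right {a b x : ℝ} (hab : a ≤ b) (h : b ≤ x) : cl a b x = b := by
  unfold cl; rw [min_eq_left h, max_eq_right hab]

theorem cl_of_mem {a b x : ℝ} (h : x ∈ Icc a b) : cl a b x = x := by
  unfold cl; rw [min_eq_right h.2, max_eq_right h.1]

theorem cont_of_lip {b : ℝ → ℝ} {L : ℝ} (h : ∀ x y, |b x - b y| ≤ L * |x - y|) : Continuous b :=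
  (LipschitzWith.of_dist_le' (K := L) h).continuous

theorem glue3 (x0 x1 x2 x3 L : ℝ) (h01 : x0 ≤ x1) (h12 : x1 ≤ x2) (h23 : x2 ≤ x3) (hL : 0 ≤ L)
    (f1 f2 f3 : ℝ → ℝ)
    (l1 : ∀ x ∈ Icc x0 x1, ∀ y ∈ Icc x0 x1, |f1 x - f1 y| ≤ L * |x - y|)
    (l2 : ∀ x ∈ Icc x1 x2, ∀ y ∈ Icc x1 x2, |f2 x - f2 y| ≤ L * |x - y|)
    (l3 : ∀ x ∈ Icc x2 x3, ∀ y ∈ Icc x2 x3, |f3 x - f3 y| ≤ L * |x - y|)
    (e0 : f1 x0 = 0) (e1 : f1 x1 = f2 x1) (e2 : f2 x2 = f3 x2) (e3 : f3 x3 = 0) :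
    ∃ b : ℝ → ℝ, (∀ x y, |b x - b y| ≤ 3 * L * |x - y|) ∧ (∀ x, x ≤ x0 ∨ x3 ≤ x → b x = 0) ∧
      (∀ x ∈ Icc x0 x1, b x = f1 x) ∧ (∀ x ∈ Icc x1 x2, b x = f2 x) ∧
      ∀ x ∈ Icc x2 x3, b x = f3 x := by
  refine ⟨fun x => f1 (cl x0 x1 x) + (f2 (cl x1 x2 x) - f2 x1) + (f3 (cl x2 x3 x) - f3 x2),
    fun x y => ?_, ?_, fun x hx => ?_, fun x hx => ?_, fun x hx => ?_⟩
  · have h1 := (l1 _ (cl_mem h01 x) _ (cl_mem h01 y)).trans
      (mul_le_mul_of_nonneg_left (cl_lip _ _ x y) hL)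
    have h2 := (l2 _ (cl_mem h12 x) _ (cl_mem h12 y)).trans
      (mul_le_mul_of_nonneg_left (cl_lip _ _ x y) hL)
    have h3 := (l3 _ (cl_mem h23 x) _ (cl_mem h23 y)).trans
      (mul_le_mul_of_nonneg_left (cl_lip _ _ x y) hL)
    rw [abs_le] at h1 h2 h3 ⊢
    constructor <;> linarith [h1.1, h1.2, h2.1, h2.2, h3.1, h3.2]
  · rintro x (hx | hx)
    · simp only [cl_left hx, cl_left (hx.trans h01), cl_left (hx.trans (h01.trans h12))]
      linarith
    · simp only [cl_right h23 hx, cl_right h12 (h23.trans hx),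
        cl_right h01 (h12.trans (h23.trans hx))]
      linarith
  · simp only [cl_of_mem hx, cl_left hx.2, cl_left (hx.2.trans h12)]
    linarith
  · simp only [cl_of_mem hx, cl_left hx.2, cl_right h01 hx.1]
    linarith
  · simp only [cl_of_mem hx, cl_right h12 hx.1, cl_right h01 (h12.trans hx.1)]
    linarith

theorem prim_eq {b f P : ℝ → ℝ} {p q x : ℝ} (hb : Continuous b) (hP : ∀ v, HasDerivAt P (f v) v)
    (h : ∀ v ∈ Icc p q, b v = f v) (hx : x ∈ Icc p q) : ∫ v in p..x, b v = P x - P p := by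
  refine intervalIntegral.integral_eq_sub_of_hasDerivAt (fun v hv => ?_) (hb.intervalIntegrable _ _)
  rw [uIcc_of_le hx.1] at hv
  rw [h v ⟨hv.1, hv.2.trans hx.2⟩]
  exact hP v

/-- Phase of a connector. -/
noncomputable def cP (p d u A c θ : ℝ) : ℝ :=
  u * (θ - p) + A * (θ - p) ^ 2 / (2 * d) + c * (3 * ((θ - p) / d) ^ 2 - 2 * ((θ - p) / d) ^ 3)

/-- Slope of a connector. -/
noncomputable def cf (p d u A c θ : ℝ) : ℝ :=
  u + A * ((θ - p) / d) + 6 * c * (((θ - p) / d) * (1 - (θ - p) / d)) / d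

/-- Curvature of a connector. -/
noncomputable def cg (p d A c θ : ℝ) : ℝ := A / d + c * (1 - 2 * ((θ - p) / d)) * (6 / d ^ 2)

theorem cP_deriv (p d u A c θ : ℝ) (hd : d ≠ 0) : HasDerivAt (cP p d u A c) (cf p d u A c θ) θ := by
  have h := (hasDerivAt_id θ).sub_const p
  refine (((h.const_mul u).add (((h.pow 2).const_mul A).div_const (2 * d))).add
    (((((h.div_const d).pow 2).const_mul 3).sub (((h.div_const d).pow 3).const_mul 2)).const_mul
      c)).congr_deriv ?_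
  simp only [cf, id]
  push_cast; field_simp; ring

theorem cf_deriv (p d u A c θ : ℝ) (hd : d ≠ 0) : HasDerivAt (cf p d u A c) (cg p d A c θ) θ := by
  have h := ((hasDerivAt_id θ).sub_const p).div_const d
  refine (((h.const_mul A).const_add u).add
    (((h.mul (h.const_sub 1)).const_mul (6 * c)).div_const d)).congr_deriv ?_
  simp only [cg, id]
  field_simp; ring

theorem cg_bound {p d A c θ : ℝ} (hd : 0 < d) (hc0 : 0 ≤ c) (hc1 : c ≤ 1) (hθ : θ ∈ Icc p (p + d)) :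
    |cg p d A c θ - A / d| ≤ 6 / d ^ 2 := by
  have h1 : 0 ≤ (θ - p) / d := div_nonneg (by linarith [hθ.1]) hd.le
  have h2 : (θ - p) / d ≤ 1 := (div_le_one hd).2 (by linarith [hθ.2])
  unfold cg
  rw [add_sub_cancel_left, abs_mul, abs_of_pos (show 0 < 6 / d ^ 2 by positivity)]
  refine mul_le_of_le_one_left (by positivity) ?_
  rw [abs_le]
  constructor <;> nlinarith

theorem cf_bound {p d u A c θ σ W : ℝ} (hd : 0 < d) (hc0 : 0 ≤ c) (hc1 : c ≤ 1)
    (hθ : θ ∈ Icc p (p + d)) (h0 : |σ + u| ≤ W) (h1 : |σ + u + A| ≤ W) :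
    |σ + cf p d u A c θ| ≤ W + 2 / d := by
  have h1 : 0 ≤ (θ - p) / d := div_nonneg (by linarith [hθ.1]) hd.le
  have h2 : (θ - p) / d ≤ 1 := (div_le_one hd).2 (by linarith [hθ.2])
  unfold cf
  generalize (θ - p) / d = v at h1 h2
  have h3 : 0 ≤ v * (1 - v) := mul_nonneg h1 (by linarith)
  have h4 : 0 ≤ 6 * c * (v * (1 - v)) / d := by positivity
  have h5 : 6 * c * (v * (1 - v)) / d ≤ 2 / d := by
    refine div_le_div_of_nonneg_right ?_ hd.le
    nlinarith [sq_nonneg (2 * v - 1)]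
  rw [abs_le] at *
  constructor <;> nlinarith

theorem cf_lip {p d u A c W : ℝ} (hd : 0 < d) (hc0 : 0 ≤ c) (hc1 : c ≤ 1) (hA : |A| ≤ W) :
    ∀ x ∈ Icc p (p + d), ∀ y ∈ Icc p (p + d),
      |cf p d u A c x - cf p d u A c y| ≤ (W / d + 6 / d ^ 2) * |x - y| := by
  intro x hx y hy
  refine mvt_abs (fun v _ => cf_deriv p d u A c v hd.ne') (fun v hv => ?_) hx hy
  have h1 := cg_bound (A := A) hd hc0 hc1 hv
  have h2 : |A / d| ≤ W / d := by
    rw [abs_div, abs_of_pos hd]; exact div_le_div_of_nonneg_right hA hd.le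
  have := abs_sub_abs_le_abs_sub (cg p d A c v) (A / d)
  linarith

theorem conn_bound {p d u A c g : ℝ} (κ τ : ℝ) (hd : 0 < d) (hc0 : 0 ≤ c) (hc1 : c ≤ 1)
    (hg : 12 / d ≤ g) (hA : g ≤ |A|) :
    ‖∫ θ in p..(p + d), ee (κ * θ + τ + cP p d u A c θ)‖ ≤ 4 / √(g / (2 * d)) := by
  have hg0 : 0 < g := lt_of_lt_of_le (by positivity) hg
  have h0 : ∀ θ, HasDerivAt (fun θ => κ * θ + τ + cP p d u A c θ) (κ + cf p d u A c θ) θ :=
    fun θ => ((((hasDerivAt_id θ).const_mul κ).add_const τ).add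
      (cP_deriv p d u A c θ hd.ne')).congr_deriv (by rw [mul_one])
  have h1 : ∀ θ, HasDerivAt (fun θ => κ + cf p d u A c θ) (cg p d A c θ) θ :=
    fun θ => (cf_deriv p d u A c θ hd.ne').const_add κ
  have h2 : 6 / d ^ 2 ≤ g / (2 * d) := by
    rw [show 6 / d ^ 2 = 12 / d / (2 * d) by field_simp; ring]
    exact div_le_div_of_nonneg_right hg (by positivity)
  have h3 : g / d = 2 * (g / (2 * d)) := by field_simp
  rcases le_abs'.1 hA with h | h
  · refine test2' (by linarith) _ _ _ _ (by positivity) h0 (fun v _ => h1 v) (fun v hv => ?_)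
    have h4 := (abs_le.1 (cg_bound (A := A) hd hc0 hc1 hv)).2
    have h5 := div_le_div_of_nonneg_right h hd.le
    rw [neg_div] at h5
    linarith
  · refine test2 (by linarith) _ _ _ _ (by positivity) h0 (fun v _ => h1 v) (fun v hv => ?_)
    have h4 := (abs_le.1 (cg_bound (A := A) hd hc0 hc1 hv)).1
    have h5 := div_le_div_of_nonneg_right h hd.le
    linarith

theorem slot_exists {Ω ω : ℝ → ℝ} {B : ℝ} (h0 : ∀ v, HasDerivAt Ω (ω v) v)
    (hB : ∀ v ∈ Icc (0 : ℝ) 1, ∀ w ∈ Icc (0 : ℝ) 1, |ω v - ω w| ≤ B * |v - w|) (hB0 : 0 ≤ B)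
    (X d l σ s D g θ0 : ℝ) (hd : 0 < d) (hl : 0 < l) (hD : 0 < D) (hg : 12 / d ≤ g)
    (hs : ∀ v ∈ Icc (0 : ℝ) 1, |s + D * ω v| ≤ σ - g) :
    ∃ b : ℝ → ℝ, (∀ x y, |b x - b y| ≤ 3 * (2 * σ / d + 6 / d ^ 2 + D * B / l) * |x - y|) ∧
      (∀ x, x ≤ X ∨ X + d + l + d ≤ x → b x = 0) ∧ (∀ x, |σ + b x| ≤ σ + 2 / d) ∧
      (∃ z : ℤ, ∫ x in X..(X + d + l + d), b x = z) ∧
      ∀ k : ℝ, ‖(∫ θ in X..(X + d + l + d), ee (σ * θ + (∫ x in X..θ, b x) - k * θ)) -
        (l : ℂ) * ee (θ0 - k * (X + d)) *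
          ∫ v in (0 : ℝ)..1, ee (l * D * (Ω v - (k - s) / D * v))‖ ≤ 8 / √(g / (2 * d)) := by
  have hg0 : 0 < g := lt_of_lt_of_le (by positivity) hg
  have hs0 := abs_le.1 (hs 0 (by simp))
  have hs1 := abs_le.1 (hs 1 (by simp))
  have hσ : 0 < σ := by linarith [hs0.1, hs0.2]
  set A := s + D * ω 0 - σ with hA
  set A' := s + D * ω 1 - σ with hA'
  set c1 := Int.fract (θ0 - σ * (X + d) - A * d / 2 + D * l * Ω 0) with hc1
  set c3 := Int.fract (-(A * d / 2 + c1 + (s - σ) * l + D * l * (Ω 1 - Ω 0) + A' * d / 2)) with hc3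
  have c10 := Int.fract_nonneg (θ0 - σ * (X + d) - A * d / 2 + D * l * Ω 0)
  have c11 := (Int.fract_lt_one (θ0 - σ * (X + d) - A * d / 2 + D * l * Ω 0)).le
  have c30 := Int.fract_nonneg
    (-(A * d / 2 + c1 + (s - σ) * l + D * l * (Ω 1 - Ω 0) + A' * d / 2))
  have c31 := (Int.fract_lt_one
    (-(A * d / 2 + c1 + (s - σ) * l + D * l * (Ω 1 - Ω 0) + A' * d / 2))).le
  rw [← hc1] at c10 c11
  rw [← hc3] at c30 c31
  have hv : ∀ x ∈ Icc (X + d) (X + d + l), (x - (X + d)) / l ∈ Icc (0 : ℝ) 1 := fun x hx =>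
    ⟨div_nonneg (by linarith [hx.1]) hl.le, (div_le_one hl).2 (by linarith [hx.2])⟩
  have hq : 0 ≤ D * B / l := by positivity
  have hq' : 0 ≤ 2 * σ / d + 6 / d ^ 2 := by positivity
  obtain ⟨b, b1, b2, b3, b4, b5⟩ := glue3 X (X + d) (X + d + l) (X + d + l + d)
    (2 * σ / d + 6 / d ^ 2 + D * B / l) (by linarith) (by linarith) (by linarith) (by positivity)
    (cf X d 0 A c1) (fun x => s - σ + D * ω ((x - (X + d)) / l)) (cf (X + d + l) d A' (-A') c3)
    (fun x hx y hy => (cf_lip (W := 2 * σ) hd c10 c11 (abs_le.2 ⟨by linarith, by linarith⟩) x hx y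
      hy).trans (mul_le_mul_of_nonneg_right (by linarith) (abs_nonneg _)))
    (fun x hx y hy => by
      rw [add_sub_add_left_eq_sub, ← mul_sub, abs_mul, abs_of_pos hD]
      have h1 := hB _ (hv x hx) _ (hv y hy)
      rw [← sub_div, sub_sub_sub_cancel_right, abs_div, abs_of_pos hl] at h1
      refine (mul_le_mul_of_nonneg_left h1 hD.le).trans ?_
      rw [show D * (B * (|x - y| / l)) = D * B / l * |x - y| by ring]
      exact mul_le_mul_of_nonneg_right (by linarith) (abs_nonneg _))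
    (fun x hx y hy => (cf_lip (W := 2 * σ) hd c30 c31 (abs_le.2 ⟨by linarith, by linarith⟩) x hx y
      hy).trans (mul_le_mul_of_nonneg_right (by linarith) (abs_nonneg _)))
    (by simp [cf]) (by simp [cf, hd.ne', hA]; ring) (by simp [cf, hl.ne', hA']; ring)
    (by simp [cf, hd.ne'])
  have hb := cont_of_lip b1
  have hP2 : ∀ x, HasDerivAt (fun x => (s - σ) * (x - (X + d)) + D * l * Ω ((x - (X + d)) / l))
      (s - σ + D * ω ((x - (X + d)) / l)) x := fun x => by
    have h := (hasDerivAt_id x).sub_const (X + d)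
    refine ((h.const_mul (s - σ)).add (((h0 _).comp x (h.div_const l)).const_mul (D * l))).congr_deriv ?_
    simp only [id]
    field_simp
  have i1 : ∀ x ∈ Icc X (X + d), ∫ v in X..x, b v = cP X d 0 A c1 x := fun x hx => by
    rw [prim_eq hb (fun v => cP_deriv _ _ _ _ _ v hd.ne') b3 hx]; simp [cP]
  have i1' : ∫ v in X..(X + d), b v = A * d / 2 + c1 := by
    rw [i1 _ (right_mem_Icc.2 (by linarith))]
    simp only [cP, add_sub_cancel_left, div_self hd.ne']
    field_simp; ring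
  have i2 : ∀ x ∈ Icc (X + d) (X + d + l), ∫ v in X..x, b v = A * d / 2 + c1 +
      ((s - σ) * (x - (X + d)) + D * l * (Ω ((x - (X + d)) / l) - Ω 0)) := fun x hx => by
    rw [← intervalIntegral.integral_add_adjacent_intervals (b := X + d) (hb.intervalIntegrable _ _)
      (hb.intervalIntegrable _ _), i1', prim_eq hb hP2 b4 hx]
    simp only [sub_self, zero_div]; ring
  have i2' : ∫ v in X..(X + d + l), b v = A * d / 2 + c1 +
      ((s - σ) * l + D * l * (Ω 1 - Ω 0)) := by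
    rw [i2 _ (right_mem_Icc.2 (by linarith)), add_sub_cancel_left, div_self hl.ne']
  have i3 : ∀ x ∈ Icc (X + d + l) (X + d + l + d), ∫ v in X..x, b v = A * d / 2 + c1 +
      ((s - σ) * l + D * l * (Ω 1 - Ω 0)) + cP (X + d + l) d A' (-A') c3 x := fun x hx => by
    rw [← intervalIntegral.integral_add_adjacent_intervals (b := X + d + l)
      (hb.intervalIntegrable _ _) (hb.intervalIntegrable _ _), i2',
      prim_eq hb (fun v => cP_deriv _ _ _ _ _ v hd.ne') b5 hx]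
    simp [cP]
  refine ⟨b, b1, b2, fun x => ?_, ?_, fun k => ?_⟩
  · have h2 : 0 < 2 / d := by positivity
    rcases le_total x X with h | h
    · rw [b2 x (Or.inl h), add_zero, abs_of_pos hσ]; linarith
    rcases le_total x (X + d) with h1 | h1
    · rw [b3 x ⟨h, h1⟩]
      exact cf_bound hd c10 c11 ⟨h, h1⟩ (by rw [add_zero, abs_of_pos hσ])
        (abs_le.2 ⟨by linarith, by linarith⟩)
    rcases le_total x (X + d + l) with h3 | h3
    · rw [b4 x ⟨h1, h3⟩]
      have := abs_le.1 (hs _ (hv x ⟨h1, h3⟩))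
      exact abs_le.2 ⟨by linarith, by linarith⟩
    rcases le_total x (X + d + l + d) with h4 | h4
    · rw [b5 x ⟨h3, h4⟩]
      exact cf_bound hd c30 c31 ⟨h3, h4⟩ (abs_le.2 ⟨by linarith, by linarith⟩)
        (by rw [add_neg_cancel_right, abs_of_pos hσ])
    · rw [b2 x (Or.inr h4), add_zero, abs_of_pos hσ]; linarith
  · refine ⟨-⌊-(A * d / 2 + c1 + (s - σ) * l + D * l * (Ω 1 - Ω 0) + A' * d / 2)⌋, ?_⟩
    rw [i3 _ (right_mem_Icc.2 (by linarith))]
    simp only [cP, add_sub_cancel_left, div_self hd.ne']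
    rw [hc3, Int.fract]
    push_cast
    field_simp; ring
  · have hc : Continuous fun θ => ee (σ * θ + (∫ x in X..θ, b x) - k * θ) := by
      have : Continuous fun θ => ∫ x in X..θ, b x := continuous_iff_continuousAt.2
        (fun θ => (hb.integral_hasStrictDerivAt X θ).hasDerivAt.continuousAt)
      fun_prop
    rw [← intervalIntegral.integral_add_adjacent_intervals (b := X + d + l)
      (hc.intervalIntegrable _ _) (hc.intervalIntegrable _ _),
      ← intervalIntegral.integral_add_adjacent_intervals (b := X + d)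
      (hc.intervalIntegrable _ _) (hc.intervalIntegrable _ _)]
    have j1 : ∫ θ in X..(X + d), ee (σ * θ + (∫ x in X..θ, b x) - k * θ) =
        ∫ θ in X..(X + d), ee ((σ - k) * θ + 0 + cP X d 0 A c1 θ) := by
      refine intervalIntegral.integral_congr (fun θ hθ => ?_)
      rw [uIcc_of_le (by linarith)] at hθ
      simp only [i1 θ hθ]; congr 1; ring
    have j3 : ∫ θ in (X + d + l)..(X + d + l + d), ee (σ * θ + (∫ x in X..θ, b x) - k * θ) =
        ∫ θ in (X + d + l)..(X + d + l + d), ee ((σ - k) * θ + (A * d / 2 + c1 +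
          ((s - σ) * l + D * l * (Ω 1 - Ω 0))) + cP (X + d + l) d A' (-A') c3 θ) := by
      refine intervalIntegral.integral_congr (fun θ hθ => ?_)
      rw [uIcc_of_le (by linarith)] at hθ
      simp only [i3 θ hθ]; congr 1; ring
    have j2 : ∫ θ in (X + d)..(X + d + l), ee (σ * θ + (∫ x in X..θ, b x) - k * θ) =
        (l : ℂ) * ee (θ0 - k * (X + d)) *
          ∫ v in (0 : ℝ)..1, ee (l * D * (Ω v - (k - s) / D * v)) := by
      have h1 := intervalIntegral.integral_comp_mul_add (a := 0) (b := 1)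
        (fun θ => ee (σ * θ + (∫ x in X..θ, b x) - k * θ)) hl.ne' (X + d)
      rw [mul_zero, zero_add, mul_one, add_comm l] at h1
      have h2 : ∫ v in (0 : ℝ)..1, ee (σ * (l * v + (X + d)) + (∫ x in X..(l * v + (X + d)), b x) -
          k * (l * v + (X + d))) =
          ∫ v in (0 : ℝ)..1, ee (θ0 - k * (X + d)) * ee (l * D * (Ω v - (k - s) / D * v)) := by
        refine intervalIntegral.integral_congr (fun v hv => ?_)
        rw [uIcc_of_le zero_le_one] at hv
        rw [i2 _ ⟨by nlinarith [hv.1], by nlinarith [hv.2]⟩, ← ee_add, add_sub_cancel_right,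
          mul_div_cancel_left₀ _ hl.ne']
        refine ee_congr (-⌊θ0 - σ * (X + d) - A * d / 2 + D * l * Ω 0⌋) ?_
        rw [hc1, Int.fract]
        push_cast
        field_simp; ring
      rw [h2, intervalIntegral.integral_const_mul] at h1
      rw [mul_assoc, h1, real_smul, ← mul_assoc, ← ofReal_mul, mul_inv_cancel₀ hl.ne']
      simp
    rw [j1, j2, j3, add_sub_right_comm, add_sub_cancel_right,
      show 8 / √(g / (2 * d)) = 4 / √(g / (2 * d)) + 4 / √(g / (2 * d)) by ring]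
    refine norm_add_le_of_le (conn_bound _ _ hd c10 c11 hg ?_) (conn_bound _ _ hd c30 c31 hg ?_)
    · exact le_abs'.2 (Or.inl (by linarith))
    · exact le_abs'.2 (Or.inr (by linarith))

end Vale.Agent.P110
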